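-- KEEP
import Claimed.Agent.R289.Defs.Bulk
import Claimed.Agent.R289.Del.Plane
import Claimed.Agent.R289.Pl.Bond
import Claimed.Agent.R289.Pl.Cap
import Claimed.Agent.R289.Tr.Ret

/-!
# Row 289 (S0537), box BRIDGE (head helper188), file Brg/Win : WINDOWS = (B1) + (B3)      (owner helper297; prefix `pvg_w_`, records `PvgSurf`, `PvgRet`)

FROM the deterministic units DEL (`Del/Apex`, `Del/Main`, `Del/Plane`: `DelGood`, `delPl`, `delp_isSph`) and PL (`Pl/Defs`, `Pl/Jordan`, `Pl/Bond`)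
TO the record of the chief architect `PvBulk X`, `𝔅.Ok Y K`, `𝔅.Adm Y` (`Defs/Bulk.lean`): the INSTANCES which the producers / consumers of bulk transport, S1P, OBS, ARM quantify over.

INVENTORY (cite, do not retype):
* `Del/Plane` (219, 0 sorry): `DelGood Y` (lf, gp, all cells bounded, nonempty), `delPl h : PlTri ↥Y`, `delp_isSph h`, `delp_empty_disc`, tiling `delp_tile_cover`, `delp_tile_disj`.
* `Del/Main` (253): windows `vorMeet Y K` finite / connected (`del_win_finite`, `del_win_conn`), LOC `del_loc_adj`, `del_loc_tri`, `del_loc_meet` (circumcentre in `K`), `del_tri_radius`, `del_adj_dist`.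
* `Pl/Jordan` (57): `pl_jordan`, `pl_jordan_finite`, `Int`, `VOf`;   `Pl/Bond` (209, 0 sorry): `pl_star_cycle` (infinite simple plane: a finite connected vertex set lies strictly inside a FINITE disc, rim = outer neighbours), `pl_hull_plane`.
* `Tr/Ret` (220, 0 sorry) = the deterministic part of (B3): RETAINED triangles `PvRet ρ E Y a b c` (read from `Y ∩ E`), `pvtr_iff`, `pvtr_congr`, `pvtr_of_mesh_vertex`, `pvtr_loc_mesh`, `Conf.Reads` forms.   NOT retyped here.
* `Pl/Cap` (8): cone completion;   `Fan/Sphere` (92): disc + 3 fans + closing face.   Both sign the record `PvgCompl` of sec. 3.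

CONTENTS
* sec. 0  `PvgSurf X` (one surface with named vertices), `pvgFam S : PvBulk X` for `S : Set ℂ → PvgSurf X`, `PvgSurf.Ok`, `pvg_w_fam_ok`: a bulk family is defined by cases on `Y` WITHOUT casts.
* sec. 1  (B1, plane)   `pvgPlane : PvBulk Empty`, `pvg_w_plane_ok : DelGood Y → pvgPlane.Ok Y univ`.
* sec. 2  (B1, disc)    `pvg_w_infinite`, `pvg_w_dart_infinite`, `pvg_w_del_cyc'` (all sites whose cell meets a bounded connected `K` lie strictly inside a finite disc of `delPl h`; the rim = sites whose cell misses `K`, next to `K`), `pvg_w_del_cyc` (ball).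
* sec. 3  (B1, window)  record `PvgCompl T c X` (what a completion signs), `PvgCompl.surf`, `pvg_w_compl_ok` (completion of a Delaunay disc is `Ok Y K`), `pvgCone` (the cone `plCap` of 8 signs the record),
                        `pvgWin X K : PvBulk X`, `pvg_w_win_ok`, `pvg_w_win_ok1`: FINITE sphere which agrees with Delaunay at all faces with a vertex in the bounded set `K`.
* sec. 4  (B3, bulk)    `Ok` in terms of retained triangles (`pvg_w_ok_ret`, `pvg_w_ret_face`), TWO bulk families / TWO site sets which agree on `E`: the dart correspondence `PvgSame` on the core (`pvg_w_same_exists`, `_unique`, `_nxt`, `_opp`).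
-/

set_option autoImplicit false

namespace Claimed.Agent.R289

open Set Metric Relation Claims.C0465

/-! ## 0. one surface with named vertices; bulk families by cases -/

/-- a triangulated surface whose vertices are named by points of the plane or by extra vertices `x : X` -/
structure PvgSurf (X : Type) where
  V : Type
  D : Type
  T : PvMap V D
  lab : V → ℂ ⊕ X

/-- the empty surface (junk value) -/
def pvgEmpty (X : Type) : PvgSurf X where
  V := Empty
  D := Empty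
  T := ⟨Empty.elim, id, id, fun d => d.elim, fun d => d.elim, fun d => d.elim, fun d => d.elim⟩
  lab := Empty.elim

/-- the bulk family of a function `Y ↦ surface` -/
def pvgFam {X : Type} (S : Set ℂ → PvgSurf X) : PvBulk X where
  V Y := (S Y).V
  D Y := (S Y).D
  T Y := (S Y).T
  lab Y := (S Y).lab

/-- `PvBulk.Ok` for one surface -/
structure PvgSurf.Ok {X : Type} (s : PvgSurf X) (Y K : Set ℂ) : Prop where
  sph : s.T.IsSph
  simple : s.T.Simple
  inj : Function.Injective s.lab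
  site : ∀ v p, s.lab v = Sum.inl p → p ∈ Y
  face : ∀ a b c : ℂ, DelTri Y a b c → a ∈ K →
    ∃ d, s.lab (s.T.src d) = Sum.inl a ∧ s.lab (s.T.tgt d) = Sum.inl b ∧ s.lab (s.T.apex d) = Sum.inl c
  del : ∀ d a, s.lab (s.T.src d) = Sum.inl a → a ∈ K →
    ∃ b c : ℂ, s.lab (s.T.tgt d) = Sum.inl b ∧ s.lab (s.T.apex d) = Sum.inl c ∧ DelTri Y a b c
  emb : ∀ d a b c, s.lab (s.T.src d) = Sum.inl a → s.lab (s.T.tgt d) = Sum.inl b → s.lab (s.T.apex d) = Sum.inl c → DelTri Y a b c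

theorem pvg_w_eqns_cite : True := by
  have := @pvgEmpty.eq_1; have := @pvgFam.eq_1
  trivial

theorem pvg_w_fam_ok {X : Type} (S : Set ℂ → PvgSurf X) (Y K : Set ℂ) : (pvgFam S).Ok Y K ↔ (S Y).Ok Y K :=
  ⟨fun h => ⟨h.sph, h.simple, h.inj, h.site, h.face, h.del, h.emb⟩, fun h => ⟨h.sph, h.simple, h.inj, h.site, h.face, h.del, h.emb⟩⟩

theorem PvgSurf.Ok.mono {X : Type} {s : PvgSurf X} {Y K K' : Set ℂ} (h : s.Ok Y K) (hK : K' ⊆ K) : s.Ok Y K' :=
  ⟨h.sph, h.simple, h.inj, h.site, fun a b c ht ha => h.face a b c ht (hK ha), fun d a hd ha => h.del d a hd (hK ha), h.emb⟩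

theorem PvBulk.Ok.mono {X : Type} {𝔅 : PvBulk X} {Y K K' : Set ℂ} (h : 𝔅.Ok Y K) (hK : K' ⊆ K) : 𝔅.Ok Y K' :=
  ⟨h.sph, h.simple, h.inj, h.site, fun a b c ht ha => h.face a b c ht (hK ha), fun d a hd ha => h.del d a hd (hK ha), h.emb⟩

/-! ## 1. (B1) the full Delaunay plane -/

/-- the surface of the Delaunay triangulation of a good site set -/
noncomputable def pvgDelS {Y : Set ℂ} (h : DelGood Y) (X : Type) : PvgSurf X := ⟨↥Y, (delPl h).Dart, (delPl h).toMap, fun v => Sum.inl v⟩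

theorem pvg_w_del_ok {Y : Set ℂ} (h : DelGood Y) (X : Type) : (pvgDelS h X).Ok Y univ := by
  refine ⟨delp_isSph h, (delPl h).toMap_simple, ?_, ?_, ?_, ?_, ?_⟩
  · intro (v : ↥Y) (w : ↥Y) hvw
    exact Subtype.ext (Sum.inl_injective hvw)
  · intro (v : ↥Y) p hv
    have : (v : ℂ) = p := Sum.inl_injective hv
    exact this ▸ v.2
  · intro a b c ht _
    refine ⟨⟨(⟨a, ht.1⟩, ⟨b, ht.2.1⟩), ht.adj⟩, rfl, rfl, ?_⟩
    show (Sum.inl (delApex Y a b) : ℂ ⊕ X) = Sum.inl c
    rw [del_apex_eq h.gp ht]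
  · rintro ⟨⟨a', b'⟩, hab⟩ a ha _
    have e : (a' : ℂ) = a := Sum.inl_injective ha
    subst e
    exact ⟨b', delApex Y a' b', rfl, rfl, delp_apex_spec h hab⟩
  · rintro ⟨⟨a', b'⟩, hab⟩ a b c ha hb hc
    have e1 : (a' : ℂ) = a := Sum.inl_injective ha
    have e2 : (b' : ℂ) = b := Sum.inl_injective hb
    have e3 : delApex Y a' b' = c := Sum.inl_injective hc
    subst e1 e2 e3
    exact delp_apex_spec h hab

open Classical in
/-- the plane surface, junk off the good site sets -/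
noncomputable def pvgPlaneS (Y : Set ℂ) : PvgSurf Empty := if h : DelGood Y then pvgDelS h Empty else pvgEmpty Empty

/-- **the full plane as a bulk family** -/
noncomputable def pvgPlane : PvBulk Empty := pvgFam pvgPlaneS

theorem pvg_w_plane_ok {Y : Set ℂ} (h : DelGood Y) : pvgPlane.Ok Y univ := by
  unfold pvgPlane
  rw [pvg_w_fam_ok]
  have e : pvgPlaneS Y = pvgDelS h Empty := dif_pos h
  rw [e]
  exact pvg_w_del_ok h Empty

theorem pvg_w_eqns_cite1 : True := by
  have := @pvgDelS.eq_1; have := @pvgPlaneS.eq_1; have := @pvgPlane.eq_1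
  trivial

/-! ## 2. (B1) a finite disc of the Delaunay plane round a ball

The combinatorial part is `pl_star_cycle` (`Pl/Bond`, PROVED: in an infinite simple plane a finite connected vertex set lies strictly inside a finite disc whose rim consists of outer neighbours of the set).
Here: the instance `X = ` sites whose cell meets `closedBall 0 R`. -/

/-- a good site set is infinite: finitely many bounded cells do not cover the plane -/
theorem pvg_w_infinite {Y : Set ℂ} (h : DelGood Y) : Y.Infinite := by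
  intro hfin
  have hb : Bornology.IsBounded (⋃ v ∈ Y, vorCell Y v) := (Bornology.isBounded_biUnion hfin).2 fun v _ => h.bdd v
  have e : (⋃ v ∈ Y, vorCell Y v) = univ := eq_univ_of_forall fun z => by
    obtain ⟨v, hv, hz⟩ := vor_cover h.lf h.ne z
    exact mem_biUnion hv hz
  rw [e] at hb
  exact NormedSpace.unbounded_univ ℝ ℂ hb

/-- adjacency of the dart structure = Delaunay adjacency -/
theorem pvg_w_adj_iff {Y : Set ℂ} (h : DelGood Y) (a b : ↥Y) : (delPl h).toMap.Adj a b ↔ DelAdj Y a b := by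
  constructor
  · rintro ⟨⟨⟨a', b'⟩, hab⟩, rfl, rfl⟩
    exact hab
  · intro hab
    exact ⟨⟨(a, b), hab⟩, rfl, rfl⟩

/-- every site is the source of a dart -/
theorem pvg_w_dart_at {Y : Set ℂ} (h : DelGood Y) (v : ↥Y) : ∃ d, (delPl h).toMap.src d = v := by
  obtain ⟨w, hw, hwv⟩ := (pvg_w_infinite h).exists_notMem_finite (finite_singleton (v : ℂ))
  rcases ReflTransGen.cases_head ((delp_isSph h).conn v ⟨w, hw⟩) with e | ⟨u, ⟨d, hd, -⟩, -⟩
  · exact absurd (congrArg Subtype.val e).symm hwv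
  · exact ⟨d, hd⟩

theorem pvg_w_dart_infinite {Y : Set ℂ} (h : DelGood Y) : Infinite (delPl h).Dart := by
  have : Infinite ↥Y := (pvg_w_infinite h).to_subtype
  exact Infinite.of_surjective (delPl h).toMap.src (pvg_w_dart_at h)

/-- a chain of window adjacencies, lifted to the type of sites -/
theorem pvg_w_lift_chain {Y K : Set ℂ} (h : DelGood Y) {a b : ℂ} (ha : a ∈ Y) (hab : ReflTransGen (VorAdjIn Y K) a b) :
    ∃ hb : b ∈ Y, ReflTransGen (fun u v : ↥Y => (delPl h).toMap.Adj u v ∧ (v : ℂ) ∈ vorMeet Y K) ⟨a, ha⟩ ⟨b, hb⟩ := by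
  induction hab with
  | refl => exact ⟨ha, ReflTransGen.refl⟩
  | tail _ hbc ih =>
    obtain ⟨hb, ih⟩ := ih
    exact ⟨hbc.2.1, ih.tail ⟨(pvg_w_adj_iff h _ _).2 hbc.adj, hbc.mem_right⟩⟩

/-- **DISC**: all sites whose cell meets the bounded connected set `K` lie strictly inside a FINITE disc of the Delaunay plane; the vertices of the rim are sites whose cell does not meet `K`, adjacent to sites whose cell meets `K` -/
theorem pvg_w_del_cyc' {Y K : Set ℂ} (h : DelGood Y) (hb : Bornology.IsBounded K) (hc : IsPreconnected K) (hne : K.Nonempty) :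
    ∃ c : (delPl h).toMap.Cyc, c.Left.Finite ∧ (∀ v : ↥Y, (v : ℂ) ∈ vorMeet Y K → v ∈ (delPl h).toMap.Int c.Left) ∧
      ∀ i, ((delPl h).toMap.src (c.e i) : ℂ) ∉ vorMeet Y K ∧ ((delPl h).toMap.apex (c.e i) : ℂ) ∈ vorMeet Y K := by
  have := pvg_w_dart_infinite h
  have hfin : {v : ↥Y | (v : ℂ) ∈ vorMeet Y K}.Finite := (del_win_finite h.lf hb).preimage Subtype.val_injective.injOn
  have hne' : {v : ↥Y | (v : ℂ) ∈ vorMeet Y K}.Nonempty := by
    obtain ⟨z, hz⟩ := hne
    obtain ⟨v, hv, hzv⟩ := vor_cover h.lf h.ne z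
    exact ⟨⟨v, hv⟩, hv, z, hzv, hz⟩
  obtain ⟨c, h1, h2, h3⟩ := pl_star_cycle (delp_isSph h) (delPl h).toMap_simple hfin hne' (by
    rintro ⟨a, ha⟩ haK ⟨b, hb'⟩ hbK
    obtain ⟨_, h4⟩ := pvg_w_lift_chain h ha (del_win_conn h.lf hc haK hbK)
    exact h4)
  exact ⟨c, h1, fun v hv => h2 hv, h3⟩

/-- **DISC round a ball** -/
theorem pvg_w_del_cyc {Y : Set ℂ} (h : DelGood Y) (R : ℝ) :
    ∃ c : (delPl h).toMap.Cyc, c.Left.Finite ∧ ∀ v : ↥Y, (v : ℂ) ∈ closedBall (0 : ℂ) R → v ∈ (delPl h).toMap.Int c.Left := by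
  obtain ⟨c, h1, h2, -⟩ := pvg_w_del_cyc' (K := closedBall (0 : ℂ) (max R 0)) h isBounded_closedBall (convex_closedBall _ _).isPreconnected
    ⟨0, mem_closedBall_self (le_max_right _ _)⟩
  exact ⟨c, h1, fun v hv => h2 v ⟨v.2, v, vor_self_mem Y v, closedBall_subset_closedBall (le_max_left _ _) hv⟩⟩

/-! ## 3. (B1) completions of a disc; finite windows

`PvgCompl T c X` is the RECORD which a completion of the disc `c.Left` signs: the cone of helper8 (`Pl/Cap.lean`, `X = Unit`), the three fans + closing face of helper92 (`Fan/Sphere.lean`, `X = Fin 3`).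
`pvg_w_compl_ok`: a completion of a disc of the Delaunay plane is `Ok Y K` as soon as all sites of `K` are interior vertices of the disc. -/

/-- a FINITE SIMPLE SPHERE which contains the faces of the disc `c.Left` of `T`; all other faces have an extra vertex `x : X` -/
structure PvgCompl {V D : Type} (T : PvMap V D) (c : T.Cyc) (X : Type) where
  V' : Type
  D' : Type
  T' : PvMap V' D'
  /-- name of a vertex: a vertex of `T` or an extra vertex -/
  nm : V' → V ⊕ X
  /-- the embedding of the darts of the disc (junk off `c.Left`) -/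
  em : D → D'
  finV : Finite V'
  finD : Finite D'
  sph : T'.IsSph
  simple : T'.Simple
  inj : Function.Injective nm
  src_em : ∀ d ∈ c.Left, nm (T'.src (em d)) = Sum.inl (T.src d)
  nxt_em : ∀ d ∈ c.Left, em (T.nxt d) = T'.nxt (em d)
  /-- the star of an interior vertex of the disc is not changed -/
  int : ∀ d' v, nm (T'.src d') = Sum.inl v → v ∈ T.Int c.Left → ∃ d ∈ c.Left, em d = d'
  /-- a face without extra vertex is a face of the disc -/
  emb : ∀ d' u v w, nm (T'.src d') = Sum.inl u → nm (T'.tgt d') = Sum.inl v → nm (T'.apex d') = Sum.inl w → ∃ d ∈ c.Left, em d = d'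

namespace PvgCompl

variable {V D X : Type} {T : PvMap V D} {c : T.Cyc} (C : PvgCompl T c X)

theorem tgt_em {d : D} (hd : d ∈ c.Left) : C.nm (C.T'.tgt (C.em d)) = Sum.inl (T.tgt d) := by
  have h1 : T.nxt d ∈ c.Left := (pl_left_face c d).2 hd
  show C.nm (C.T'.src (C.T'.nxt (C.em d))) = _
  rw [← C.nxt_em d hd, C.src_em _ h1]
  rfl

theorem apex_em {d : D} (hd : d ∈ c.Left) : C.nm (C.T'.apex (C.em d)) = Sum.inl (T.apex d) := by
  have h1 : T.nxt d ∈ c.Left := (pl_left_face c d).2 hd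
  have h2 : T.nxt (T.nxt d) ∈ c.Left := (pl_left_face c _).2 h1
  show C.nm (C.T'.src (C.T'.nxt (C.T'.nxt (C.em d)))) = _
  rw [← C.nxt_em d hd, ← C.nxt_em _ h1, C.src_em _ h2]
  rfl

end PvgCompl

/-- the faces of the Delaunay plane are the Delaunay triangles -/
theorem pvg_w_del_face {Y : Set ℂ} (h : DelGood Y) (d : (delPl h).Dart) :
    DelTri Y ((delPl h).toMap.src d) ((delPl h).toMap.tgt d) ((delPl h).toMap.apex d) := delp_apex_spec h d.2

/-- the surface of a completion of a disc of the Delaunay plane -/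
def PvgCompl.surf {Y : Set ℂ} {h : DelGood Y} {c : (delPl h).toMap.Cyc} {X : Type} (C : PvgCompl (delPl h).toMap c X) : PvgSurf X :=
  ⟨C.V', C.D', C.T', fun v => Sum.map Subtype.val id (C.nm v)⟩

theorem pvg_w_map_inl {Y : Set ℂ} {X : Type} {x : ↥Y ⊕ X} {p : ℂ} (h : Sum.map Subtype.val id x = (Sum.inl p : ℂ ⊕ X)) : ∃ hp : p ∈ Y, x = Sum.inl ⟨p, hp⟩ := by
  rcases x with v | x
  · have e : (v : ℂ) = p := Sum.inl_injective h
    subst e
    exact ⟨v.2, rfl⟩
  · exact absurd h (by simp)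

section surf

variable {Y : Set ℂ} {h : DelGood Y} {c : (delPl h).toMap.Cyc} {X : Type} (C : PvgCompl (delPl h).toMap c X)

theorem PvgCompl.lab_src {d : (delPl h).Dart} (hd : d ∈ c.Left) : C.surf.lab (C.surf.T.src (C.em d)) = Sum.inl ((delPl h).toMap.src d : ℂ) :=
  congrArg (Sum.map Subtype.val id) (C.src_em d hd)

theorem PvgCompl.lab_tgt {d : (delPl h).Dart} (hd : d ∈ c.Left) : C.surf.lab (C.surf.T.tgt (C.em d)) = Sum.inl ((delPl h).toMap.tgt d : ℂ) :=
  congrArg (Sum.map Subtype.val id) (C.tgt_em hd)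

theorem PvgCompl.lab_apex {d : (delPl h).Dart} (hd : d ∈ c.Left) : C.surf.lab (C.surf.T.apex (C.em d)) = Sum.inl ((delPl h).toMap.apex d : ℂ) :=
  congrArg (Sum.map Subtype.val id) (C.apex_em hd)

end surf

/-- **(B1)** a completion of a disc of the Delaunay plane agrees with Delaunay at all sites which are interior vertices of the disc -/
theorem pvg_w_compl_ok {Y K : Set ℂ} {h : DelGood Y} {c : (delPl h).toMap.Cyc} {X : Type} (C : PvgCompl (delPl h).toMap c X)
    (hK : ∀ v : ↥Y, (v : ℂ) ∈ K → v ∈ (delPl h).toMap.Int c.Left) : C.surf.Ok Y K := by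
  refine ⟨C.sph, C.simple, ?_, ?_, ?_, ?_, ?_⟩
  · exact (Sum.map_injective.2 ⟨Subtype.val_injective, Function.injective_id⟩).comp C.inj
  · intro v p hv
    exact (pvg_w_map_inl hv).1
  · intro a b c' ht ha
    have hd : (⟨(⟨a, ht.1⟩, ⟨b, ht.2.1⟩), ht.adj⟩ : (delPl h).Dart) ∈ c.Left := hK ⟨a, ht.1⟩ ha _ rfl
    refine ⟨C.em ⟨(⟨a, ht.1⟩, ⟨b, ht.2.1⟩), ht.adj⟩, C.lab_src hd, C.lab_tgt hd, (C.lab_apex hd).trans ?_⟩
    show (Sum.inl (delApex Y a b) : ℂ ⊕ X) = Sum.inl c'
    rw [del_apex_eq h.gp ht]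
  · intro d' a hd' ha
    obtain ⟨haY, e⟩ := pvg_w_map_inl hd'
    obtain ⟨d, hd, rfl⟩ := C.int d' _ e (hK ⟨a, haY⟩ ha)
    have e1 : (delPl h).toMap.src d = ⟨a, haY⟩ := Sum.inl_injective ((C.src_em d hd).symm.trans e)
    refine ⟨(delPl h).toMap.tgt d, (delPl h).toMap.apex d, C.lab_tgt hd, C.lab_apex hd, ?_⟩
    have := pvg_w_del_face h d
    rwa [e1] at this
  · intro d' a b c' ha hb hc
    obtain ⟨haY, ea⟩ := pvg_w_map_inl ha
    obtain ⟨hbY, eb⟩ := pvg_w_map_inl hb
    obtain ⟨hcY, ec⟩ := pvg_w_map_inl hc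
    obtain ⟨d, hd, rfl⟩ := C.emb d' _ _ _ ea eb ec
    have e1 : (delPl h).toMap.src d = ⟨a, haY⟩ := Sum.inl_injective ((C.src_em d hd).symm.trans ea)
    have e2 : (delPl h).toMap.tgt d = ⟨b, hbY⟩ := Sum.inl_injective ((C.tgt_em hd).symm.trans eb)
    have e3 : (delPl h).toMap.apex d = ⟨c', hcY⟩ := Sum.inl_injective ((C.apex_em hd).symm.trans ec)
    have := pvg_w_del_face h d
    rwa [e1, e2, e3] at this

/-- name of a vertex of the cone completion of helper8; the apex is called `x₀` -/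
def pvgConeNm {V D : Type} {T : PvMap V D} (c : T.Cyc) {X : Type} (x₀ : X) : PlCapV c → V ⊕ X
  | some v => Sum.inl v.1
  | none => Sum.inr x₀

theorem pvg_w_cone_nm_inj {V D : Type} {T : PvMap V D} (c : T.Cyc) {X : Type} (x₀ : X) : Function.Injective (pvgConeNm c x₀) := by
  rintro (_ | v) (_ | w) h
  · rfl
  · exact absurd h (by simp [pvgConeNm])
  · exact absurd h (by simp [pvgConeNm])
  · exact congrArg some (Subtype.ext (Sum.inl_injective h))

/-- **the cone completion `plCap` of helper8 (`Pl/Cap.lean`, 0 sorry) signs the record**, for every type `X` of extra vertices with a point `x₀` (the name of the apex) -/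
noncomputable def pvgCone {V D : Type} {T : PvMap V D} (hT : T.IsSph) (hS : T.Simple) (c : T.Cyc) (hfin : c.Left.Finite) {X : Type} (x₀ : X) : PvgCompl T c X where
  V' := PlCapV c
  D' := PlCapD c
  T' := plCap hT c
  nm := pvgConeNm c x₀
  em := plcI c
  finV := plc_finite_V hT c hfin
  finD := plc_finite_D c hfin
  sph := plc_sph hT c hfin
  simple := plc_simple hT c hS
  inj := pvg_w_cone_nm_inj c x₀
  src_em := fun d hd => by rw [plc_I_in c hd]; rfl
  nxt_em := fun d hd => by rw [plc_I_in c hd, plc_I_in c ((pl_left_face c d).2 hd)]; rfl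
  int := by
    rintro (⟨d, h⟩ | k | k | k) v hv hint
    · exact ⟨d, h, plc_I_in c h⟩
    · have e : T.src (c.e (k.1 + 1)) = v := Sum.inl_injective hv
      exact absurd hint (Set.disjoint_left.1 (pl_jordan_vert_disj hT c).1 ⟨k.1 + 1, e⟩)
    · have e : T.src (c.e k.1) = v := Sum.inl_injective hv
      exact absurd hint (Set.disjoint_left.1 (pl_jordan_vert_disj hT c).1 ⟨k.1, e⟩)
    · exact absurd hv (by simp [plc_src_r, pvgConeNm])
  emb := by
    rintro (⟨d, h⟩ | k | k | k) u v w hu hv hw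
    · exact ⟨d, h, plc_I_in c h⟩
    · have e : (plCap hT c).apex (.p k) = none := rfl
      rw [e] at hw
      exact absurd hw (by simp [pvgConeNm])
    · rw [plc_tgt_q] at hv
      exact absurd hv (by simp [pvgConeNm])
    · rw [plc_src_r] at hu
      exact absurd hu (by simp [pvgConeNm])

/-- a completion with names in `Fin 3` (the record does not ask that all names are used: the cone with apex `0` signs it).      The completion with three fans, marks and the closing face, which OBS needs, is `Fan/Sphere.lean` (92). -/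
theorem pvg_w_fan {V D : Type} {T : PvMap V D} (hT : T.IsSph) (hS : T.Simple) (c : T.Cyc) (hfin : c.Left.Finite) : Nonempty (PvgCompl T c (Fin 3)) :=
  ⟨pvgCone hT hS c hfin 0⟩

theorem pvg_w_cone {V D : Type} {T : PvMap V D} (hT : T.IsSph) (hS : T.Simple) (c : T.Cyc) (hfin : c.Left.Finite) : Nonempty (PvgCompl T c Unit) :=
  ⟨pvgCone hT hS c hfin ()⟩

/-- a finite surface which is `Ok Y K` -/
def PvgSurf.Win {X : Type} (s : PvgSurf X) (Y K : Set ℂ) : Prop := s.Ok Y K ∧ Finite s.V ∧ Finite s.D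

open Classical in
/-- the window surface: SOME finite sphere which agrees with Delaunay on `K` (junk if there is none) -/
noncomputable def pvgWinS (X : Type) (K Y : Set ℂ) : PvgSurf X := if h : ∃ s : PvgSurf X, s.Win Y K then h.choose else pvgEmpty X

/-- **the finite window `K` as a bulk family** -/
noncomputable def pvgWin (X : Type) (K : Set ℂ) : PvBulk X := pvgFam (pvgWinS X K)

theorem pvg_w_eqns_cite3 : True := by
  have := @PvgCompl.surf.eq_1; have := @pvgConeNm.eq_1; have := @pvgCone.eq_1; have := @PvgSurf.Win.eq_1; have := @pvgWinS.eq_1; have := @pvgWin.eq_1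
  trivial

theorem pvg_w_win_of {X : Type} {Y K : Set ℂ} (h : ∃ s : PvgSurf X, s.Win Y K) : (pvgWin X K).Ok Y K ∧ (pvgWin X K).Adm Y := by
  have e : pvgWinS X K Y = h.choose := dif_pos h
  have h1 := h.choose_spec
  rw [← e] at h1
  exact ⟨(pvg_w_fam_ok _ _ _).2 h1.1, h1.2⟩

/-- existence of a finite window from a completion -/
theorem pvg_w_win_exists {X : Type} (hX : ∀ {V D : Type} {T : PvMap V D}, T.IsSph → T.Simple → ∀ c : T.Cyc, c.Left.Finite → Nonempty (PvgCompl T c X))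
    {Y K : Set ℂ} (h : DelGood Y) (hb : Bornology.IsBounded K) : ∃ s : PvgSurf X, s.Win Y K := by
  obtain ⟨R, hR⟩ := hb.subset_closedBall (0 : ℂ)
  obtain ⟨c, h1, h2⟩ := pvg_w_del_cyc h R
  obtain ⟨C⟩ := hX (delp_isSph h) (delPl h).toMap_simple c h1
  exact ⟨C.surf, pvg_w_compl_ok C fun v hv => h2 v (hR hv), C.finV, C.finD⟩

/-- **(B1) WINDOW, three extra vertices**: for a good site set and a bounded `K` the family `pvgWin (Fin 3) K` is a finite sphere which agrees with Delaunay on `K` -/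
theorem pvg_w_win_ok {Y K : Set ℂ} (h : DelGood Y) (hb : Bornology.IsBounded K) : (pvgWin (Fin 3) K).Ok Y K ∧ (pvgWin (Fin 3) K).Adm Y :=
  pvg_w_win_of (pvg_w_win_exists (fun hT hS c hc => pvg_w_fan hT hS c hc) h hb)

/-- **(B1) WINDOW, one extra vertex** -/
theorem pvg_w_win_ok1 {Y K : Set ℂ} (h : DelGood Y) (hb : Bornology.IsBounded K) : (pvgWin Unit K).Ok Y K ∧ (pvgWin Unit K).Adm Y :=
  pvg_w_win_of (pvg_w_win_exists (fun hT hS c hc => pvg_w_cone hT hS c hc) h hb)

/-! ## 4. (B3) the bulk is read from the points in a collar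

Deterministic locality of the triangles = `Tr/Ret.lean` (220).      Here the same at the level of the record `PvBulk.Ok`: on the mesh event the faces of ANY admissible surface at the sites of `K ⊆ core E` are the retained triangles of `Y ∩ E`;
hence two surfaces (different families, different site sets which agree on `E`) have the same darts, faces and edges at the sites of `K`. -/

section loc

variable {X X' : Type} {𝔅 : PvBulk X} {𝔅' : PvBulk X'} {Y Y' K E : Set ℂ} {ρ : ℝ}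

/-- faces at the sites of `K` are retained triangles -/
theorem pvg_w_ok_ret (hρ : 0 < ρ) (hok : 𝔅.Ok Y K) (hm : PvtrMesh ρ E Y) (hK : K ⊆ pvtrCore (3 * ρ) E) (d : 𝔅.D Y) (a : ℂ)
    (hd : 𝔅.lab Y ((𝔅.T Y).src d) = Sum.inl a) (ha : a ∈ K) :
    ∃ b c : ℂ, 𝔅.lab Y ((𝔅.T Y).tgt d) = Sum.inl b ∧ 𝔅.lab Y ((𝔅.T Y).apex d) = Sum.inl c ∧ PvRet ρ E Y a b c := by
  obtain ⟨b, c, h1, h2, h3⟩ := hok.del d a hd ha
  exact ⟨b, c, h1, h2, pvtr_of_mesh_vertex hρ hm (hK ha) h3⟩

/-- retained triangles at the sites of `K` are faces -/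
theorem pvg_w_ret_face (hok : 𝔅.Ok Y K) {a b c : ℂ} (h : PvRet ρ E Y a b c) (ha : a ∈ K) :
    ∃ d, 𝔅.lab Y ((𝔅.T Y).src d) = Sum.inl a ∧ 𝔅.lab Y ((𝔅.T Y).tgt d) = Sum.inl b ∧ 𝔅.lab Y ((𝔅.T Y).apex d) = Sum.inl c :=
  hok.face a b c h.tri ha

/-- a dart is determined by the names of its ends -/
theorem pvg_w_dart_unique (hok : 𝔅.Ok Y K) {d d' : 𝔅.D Y} (h1 : 𝔅.lab Y ((𝔅.T Y).src d) = 𝔅.lab Y ((𝔅.T Y).src d'))
    (h2 : 𝔅.lab Y ((𝔅.T Y).tgt d) = 𝔅.lab Y ((𝔅.T Y).tgt d')) : d = d' :=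
  hok.simple d d' (hok.inj h1) (hok.inj h2)

/-- **the dart correspondence**: `d` (in the surface of `Y`) and `d'` (in the surface of `Y'`) are the same dart `a → b` between sites -/
def PvgSame (𝔅 : PvBulk X) (𝔅' : PvBulk X') (Y Y' : Set ℂ) (d : 𝔅.D Y) (d' : 𝔅'.D Y') : Prop :=
  ∃ a b : ℂ, 𝔅.lab Y ((𝔅.T Y).src d) = Sum.inl a ∧ 𝔅.lab Y ((𝔅.T Y).tgt d) = Sum.inl b ∧
    𝔅'.lab Y' ((𝔅'.T Y').src d') = Sum.inl a ∧ 𝔅'.lab Y' ((𝔅'.T Y').tgt d') = Sum.inl b

theorem pvg_w_eqns_cite4 : True := by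
  have := @PvgSame.eq_1
  trivial

theorem PvgSame.symm {d : 𝔅.D Y} {d' : 𝔅'.D Y'} (h : PvgSame 𝔅 𝔅' Y Y' d d') : PvgSame 𝔅' 𝔅 Y' Y d' d := by
  obtain ⟨a, b, h1, h2, h3, h4⟩ := h
  exact ⟨a, b, h3, h4, h1, h2⟩

theorem pvg_w_same_unique (hok' : 𝔅'.Ok Y' K) {d : 𝔅.D Y} {d₁ d₂ : 𝔅'.D Y'} (h1 : PvgSame 𝔅 𝔅' Y Y' d d₁) (h2 : PvgSame 𝔅 𝔅' Y Y' d d₂) : d₁ = d₂ := by
  obtain ⟨a, b, e1, e2, e3, e4⟩ := h1
  obtain ⟨a', b', f1, f2, f3, f4⟩ := h2
  have ea : a = a' := Sum.inl_injective (e1.symm.trans f1)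
  have eb : b = b' := Sum.inl_injective (e2.symm.trans f2)
  subst ea eb
  exact pvg_w_dart_unique hok' (e3.trans f3.symm) (e4.trans f4.symm)

/-- **(B3)** every dart at a site of `K` has a partner, with the same third vertex -/
theorem pvg_w_same_exists (hρ : 0 < ρ) (hok : 𝔅.Ok Y K) (hok' : 𝔅'.Ok Y' K) (hYY : Y ∩ E = Y' ∩ E) (hm : PvtrMesh ρ E Y) (hK : K ⊆ pvtrCore (3 * ρ) E)
    (d : 𝔅.D Y) (a : ℂ) (hd : 𝔅.lab Y ((𝔅.T Y).src d) = Sum.inl a) (ha : a ∈ K) :
    ∃ d', PvgSame 𝔅 𝔅' Y Y' d d' ∧ PvgSame 𝔅 𝔅' Y Y' ((𝔅.T Y).nxt d) ((𝔅'.T Y').nxt d') ∧ PvgSame 𝔅 𝔅' Y Y' ((𝔅.T Y).nxt ((𝔅.T Y).nxt d)) ((𝔅'.T Y').nxt ((𝔅'.T Y').nxt d')) := by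
  obtain ⟨b, c, h1, h2, h3⟩ := pvg_w_ok_ret hρ hok hm hK d a hd ha
  obtain ⟨d', g1, g2, g3⟩ := pvg_w_ret_face hok' ((pvtr_congr hYY).1 h3) ha
  refine ⟨d', ⟨a, b, hd, h1, g1, g2⟩, ⟨b, c, h1, h2, g2, g3⟩, ⟨c, a, h2, ?_, g3, ?_⟩⟩
  · rw [PvMap.tgt_nxt2]; exact hd
  · rw [PvMap.tgt_nxt2]; exact g1

/-- the correspondence commutes with `opp` -/
theorem PvgSame.opp {d : 𝔅.D Y} {d' : 𝔅'.D Y'} (h : PvgSame 𝔅 𝔅' Y Y' d d') : PvgSame 𝔅 𝔅' Y Y' ((𝔅.T Y).opp d) ((𝔅'.T Y').opp d') := by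
  obtain ⟨a, b, h1, h2, h3, h4⟩ := h
  refine ⟨b, a, ?_, ?_, ?_, ?_⟩
  · rw [PvMap.src_opp']; exact h2
  · rw [PvMap.tgt_opp]; exact h1
  · rw [PvMap.src_opp']; exact h4
  · rw [PvMap.tgt_opp]; exact h3

/-- the correspondence commutes with `nxt` at the darts with an end in `K` -/
theorem pvg_w_same_nxt (hρ : 0 < ρ) (hok : 𝔅.Ok Y K) (hok' : 𝔅'.Ok Y' K) (hYY : Y ∩ E = Y' ∩ E) (hm : PvtrMesh ρ E Y) (hK : K ⊆ pvtrCore (3 * ρ) E)
    {d : 𝔅.D Y} {d' : 𝔅'.D Y'} (h : PvgSame 𝔅 𝔅' Y Y' d d') {a : ℂ} (hd : 𝔅.lab Y ((𝔅.T Y).src d) = Sum.inl a) (ha : a ∈ K) :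
    PvgSame 𝔅 𝔅' Y Y' ((𝔅.T Y).nxt d) ((𝔅'.T Y').nxt d') := by
  obtain ⟨d'', h1, h2, -⟩ := pvg_w_same_exists (𝔅' := 𝔅') hρ hok hok' hYY hm hK d a hd ha
  rw [pvg_w_same_unique hok' h h1]
  exact h2

/-- the colourings agree along the correspondence: two configurations with the same points over `E` -/
theorem pvg_w_same_col {η η' : Conf PvPt} {ξ : X → Bool} {ξ' : X' → Bool} (hE : ∀ p : PvPt, p.1 ∈ E → (p ∈ η.pts ↔ p ∈ η'.pts))
    {v : 𝔅.V (cfSites η)} {v' : 𝔅'.V (cfSites η')} {a : ℂ} (hv : 𝔅.lab _ v = Sum.inl a) (hv' : 𝔅'.lab _ v' = Sum.inl a) (ha : a ∈ E) :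
    𝔅.col η ξ v = 𝔅'.col η' ξ' v' := by
  unfold PvBulk.col
  rw [hv, hv']
  show cfCol η a = cfCol η' a
  unfold cfCol
  exact decide_eq_decide.2 (hE (a, true) ha)

end loc

end Claimed.Agent.R289
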