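-- KEEP
import Claimed.Agent.R289.Brg.Win
import Claimed.Agent.R289.Fan.Sphere
import Claimed.Agent.R289.Defs.Top
import Claimed.Agent.R289.Chart

/-!
# Row 289 (S0537), box BRIDGE, file Brg/Base (= Sec. 0-4 of the former Brg/Defs; the glue Sec. 5-7 is in Brg/Defs.lean, ORD in Brg/Ord.lean) : THE DISCRETE DISC OF AN ANALYTIC QUAD = (B4) = (N1) DISC = (E2)      (head helper188; prefix `pvg_`, records `PvgCh PvgMk PvgMesh PvgRim PvgDk`)

EVERYTHING IS SAID IN THE CHART `g` of `PvAn` (`g` holomorphic injective on the open set `N`, `closedBall 0 R1 ⊆ g '' N`, `1 < R1`).      NO Jordan curve theorem: inside / outside = level sets of `‖g‖`.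
* `pvgK N g r`            `K(r) = {z ∈ N | ‖g z‖ ≤ r}`
* `PvgMk θ`               four marks `a b c d` as angles `θ 0 < θ 1 < θ 2 < θ 3 < θ 4 = θ 0 + 2π`
* `PvgMesh N g R μ Y`     MESH IN THE CHART: a cell which meets `K(R)` at `z` has its site in `N`, at chart distance `≤ μ` from `z`
* `PvgRim h K c`          `c` = outer circuit of `B = vorMeet Y K` in the Delaunay plane `delPl h` (exists: `pvg_w_del_cyc'` of helper297)
* `PvgDk h`, `Δ.Ok N g θ ρ`     THE RECORD THE CONSUMERS SIGN: cycle + four marks, (D1)-(D5) of audit254 with tolerance `ρ` in the chart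
* `Δ.fan`, `Δ.surf`, `pvgDisc N g θ ρ : PvBulk (Fin 3)`      disc + 3 fans (on the arcs `a → c`, `c → d`, `d → a`) + closing face (`Fan/Sphere.lean` of helper92); `u_b` = vertex number `Δ.m 1`

BLOCKS (each leaf below is owned by a block; prove in the file of the block and paste the call, or in place):
 CH closed by helper11 (`pvg_ch_*`, `pvg_mesh_of_dense`);   LOC helper90  `pvg_cell_sub`, `pvg_rim_loc`, `pvg_collar`, `pvg_outer`, `pvg_near`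
 ORD helper253 (+19)       `pvg_ord`
 D4 helper10               `pvg_d4`
 BULK                      closed (`pvg_surf_ok`, `pvg_disc_ok`: record form of helper92 + `pvg_w_compl_ok` of helper297)
 PROB helper297            `pvg_has_tendsto`
 Sec. 7: ONE family for all tolerances `pvgBest N g θ`, good event `PvgFine N g θ ρ Y`, exits `PvgFine.ok .bulk_ok .surf_eq`, `pvg_fine_exists`, `pvg_fine_tendsto`, `pvg_fine_geo`; leaf `pvg_lev_bdd`
-/

set_option autoImplicit false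

namespace Claimed.Agent.R289

open Set Metric Relation Filter Topology MeasureTheory Claims.C0465

/-! ## 0. vocabulary -/

/-- the chart record -/
structure PvgCh (N : Set ℂ) (g : ℂ → ℂ) (R1 : ℝ) : Prop where
  opn : IsOpen N
  diff : DifferentiableOn ℂ g N
  inj : InjOn g N
  one_lt : 1 < R1
  surj : closedBall (0 : ℂ) R1 ⊆ g '' N

/-- `K(r)` -/
def pvgK (N : Set ℂ) (g : ℂ → ℂ) (r : ℝ) : Set ℂ := {z | z ∈ N ∧ ‖g z‖ ≤ r}

/-- the closed collar `{r ≤ ‖g‖ ≤ r'}` -/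
def pvgA (N : Set ℂ) (g : ℂ → ℂ) (r r' : ℝ) : Set ℂ := {z | z ∈ N ∧ r ≤ ‖g z‖ ∧ ‖g z‖ ≤ r'}

/-- the point of the unit circle of angle `t` -/
noncomputable def pvgE (t : ℝ) : ℂ := Complex.exp ((t : ℂ) * Complex.I)

/-- four marks in counterclockwise order -/
structure PvgMk (θ : ℕ → ℝ) : Prop where
  lt : ∀ j, j < 4 → θ j < θ (j + 1)
  per : θ 4 = θ 0 + 2 * Real.pi

/-- mesh in the chart -/
def PvgMesh (N : Set ℂ) (g : ℂ → ℂ) (R μ : ℝ) (Y : Set ℂ) : Prop :=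
  ∀ v ∈ Y, ∀ z ∈ vorCell Y v, z ∈ pvgK N g R → v ∈ N ∧ ‖g v - g z‖ ≤ μ

/-- `c` is an outer circuit of the sites whose cell meets `K` -/
structure PvgRim {Y : Set ℂ} (h : DelGood Y) (K : Set ℂ) (c : (delPl h).toMap.Cyc) : Prop where
  fin : c.Left.Finite
  int : ∀ v : ↥Y, (v : ℂ) ∈ vorMeet Y K → v ∈ (delPl h).toMap.Int c.Left
  rim : ∀ i, ((delPl h).toMap.src (c.e i) : ℂ) ∉ vorMeet Y K ∧ ((delPl h).toMap.apex (c.e i) : ℂ) ∈ vorMeet Y K

/-- a cycle of the Delaunay plane with four marks (indices on the cycle) -/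
structure PvgDk {Y : Set ℂ} (h : DelGood Y) where
  c : (delPl h).toMap.Cyc
  m : ℕ → ℕ
  /-- lifted angles of the vertices of the cycle (in the chart) -/
  th : ℕ → ℝ

/-- the position of the vertex number `k` of the cycle -/
noncomputable def PvgDk.x {Y : Set ℂ} {h : DelGood Y} (Δ : PvgDk h) (k : ℕ) : ℂ := ((delPl h).toMap.src (Δ.c.e k) : ℂ)

/-- **THE RECORD OF THE DISCRETE DISC**, tolerance `ρ` in the chart -/
structure PvgDk.Ok {Y : Set ℂ} {h : DelGood Y} (Δ : PvgDk h) (N : Set ℂ) (g : ℂ → ℂ) (θ : ℕ → ℝ) (ρ : ℝ) : Prop where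
  /-- (D1) a finite disc on the LEFT of the cycle -/
  fin : Δ.c.Left.Finite
  /-- (D5) the marks are met in the positive order of the cycle -/
  m_lt : ∀ j, j < 4 → Δ.m j < Δ.m (j + 1)
  m_per : Δ.m 4 = Δ.m 0 + Δ.c.n
  /-- (D2) the sites of `K(1-ρ)` are interior vertices -/
  inner : ∀ v : ↥Y, (v : ℂ) ∈ pvgK N g (1 - ρ) → v ∈ (delPl h).toMap.Int Δ.c.Left
  /-- the closed disc lies in `K(1)` -/
  outer : ∀ v ∈ (delPl h).toMap.VOf Δ.c.Left, (v : ℂ) ∈ pvgK N g 1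
  /-- (D3) the index arc `j` runs `ρ`-close to the geometric arc `j` -/
  arc : ∀ j, j < 4 → ∀ k, Δ.m j ≤ k → k ≤ Δ.m (j + 1) → ∃ t, θ j ≤ t ∧ t ≤ θ (j + 1) ∧ ‖g (Δ.x k) - pvgE t‖ ≤ ρ
  /-- (D5) the marks are `ρ`-close to the marks -/
  mark : ∀ j, j ≤ 4 → ‖g (Δ.x (Δ.m j)) - pvgE (θ j)‖ ≤ ρ
  /-- every point of the circle is `ρ`-close to a vertex of the cycle -/
  near : ∀ t : ℝ, ∃ k, ‖g (Δ.x k) - pvgE t‖ ≤ ρ
  /-- (D4) short connections inside the closed disc -/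
  d4 : ∀ u ∈ (delPl h).toMap.VOf Δ.c.Left, ∀ v ∈ (delPl h).toMap.VOf Δ.c.Left, ∀ s : ℝ, ‖g (u : ℂ) - g (v : ℂ)‖ ≤ s →
    (delPl h).toMap.Join Δ.c.Left {w | ‖g (w : ℂ) - g (u : ℂ)‖ ≤ s + ρ} u v
  /-- (ORD, form of helper111 / helper253) the lifted angles: exact lifts, one positive turn, QUASI-MONOTONE, marks -/
  lift : ∀ k, g (Δ.x k) = (‖g (Δ.x k)‖ : ℂ) * pvgE (Δ.th k)
  th_per : ∀ k, Δ.th (k + Δ.c.n) = Δ.th k + 2 * Real.pi
  qmono : ∀ k k', k ≤ k' → Δ.th k ≤ Δ.th k' + ρ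
  th_mark : ∀ j, j ≤ 4 → |Δ.th (Δ.m j) - θ j| ≤ ρ
  /-- the cycle runs in the collar -/
  rim : ∀ k, 1 - ρ ≤ ‖g (Δ.x k)‖
  /-- the edges of the closed disc are short -/
  step : ∀ d ∈ Δ.c.Left, ‖g ((delPl h).toMap.tgt d : ℂ) - g ((delPl h).toMap.src d : ℂ)‖ ≤ ρ
  /-- the interior vertices are dense in `K(1)` -/
  dense : ∀ z ∈ pvgK N g 1, ∃ v ∈ (delPl h).toMap.Int Δ.c.Left, ‖g (v : ℂ) - g z‖ ≤ ρ

theorem pvg_defs_eqns_cite : True := by
  have := @pvgK.eq_1; have := @pvgA.eq_1; have := @pvgE.eq_1; have := @PvgMesh.eq_1; have := @PvgDk.x.eq_1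
  trivial

/-! ## 1. the completed sphere of a disc, the bulk family -/

/-- disc + 3 fans on the arcs `a → c` (`s_0`), `c → d` (`s_1`), `d → a` (`s_2`) + closing face -/
noncomputable def PvgDk.fan {Y : Set ℂ} {h : DelGood Y} (Δ : PvgDk h) {N : Set ℂ} {g : ℂ → ℂ} {θ : ℕ → ℝ} {ρ : ℝ} (H : Δ.Ok N g θ ρ) : PvFan ↥Y (delPl h).Dart :=
  PvFan.ofMarks (delPl h).toMap (delp_isSph h) Δ.c H.fin (Δ.m 0) (Δ.m 2) (Δ.m 3)
    ((H.m_lt 0 (by norm_num)).trans (H.m_lt 1 (by norm_num))) (H.m_lt 2 (by norm_num)) (by have h3 : Δ.m 3 < Δ.m 4 := H.m_lt 3 (by norm_num); have := H.m_per; omega)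

/-- the surface of a fan sphere over the Delaunay plane -/
noncomputable def pvgFanS {Y : Set ℂ} {D : Type} (F : PvFan ↥Y D) : PvgSurf (Fin 3) :=
  ⟨F.V', F.D', F.map, fun v => Sum.map (fun x => ((x.1 : ↥Y) : ℂ)) id v⟩

/-- the site set carries a disc of tolerance `ρ` -/
def PvgHas (N : Set ℂ) (g : ℂ → ℂ) (θ : ℕ → ℝ) (ρ : ℝ) (Y : Set ℂ) : Prop := ∃ (h : DelGood Y) (Δ : PvgDk h), Δ.Ok N g θ ρ

section has

variable {N : Set ℂ} {g : ℂ → ℂ} {θ : ℕ → ℝ} {ρ : ℝ} {Y : Set ℂ}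

theorem PvgHas.good (H : PvgHas N g θ ρ Y) : DelGood Y := H.choose

/-- THE disc of `Y` (a function of the site set only) -/
noncomputable def PvgHas.dk (H : PvgHas N g θ ρ Y) : PvgDk H.good := H.choose_spec.choose

theorem PvgHas.ok (H : PvgHas N g θ ρ Y) : H.dk.Ok N g θ ρ := H.choose_spec.choose_spec

end has

open Classical in
/-- the surface of the disc of `Y`, junk if there is none -/
noncomputable def pvgDiscS (N : Set ℂ) (g : ℂ → ℂ) (θ : ℕ → ℝ) (ρ : ℝ) (Y : Set ℂ) : PvgSurf (Fin 3) :=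
  if H : PvgHas N g θ ρ Y then pvgFanS (H.dk.fan H.ok) else pvgEmpty (Fin 3)

/-- **the discrete disc + 3 fans + closing face as a bulk family** -/
noncomputable def pvgDisc (N : Set ℂ) (g : ℂ → ℂ) (θ : ℕ → ℝ) (ρ : ℝ) : PvBulk (Fin 3) := pvgFam (pvgDiscS N g θ ρ)

theorem pvg_defs_eqns_cite1 : True := by
  have := @PvgDk.fan.eq_1; have := @pvgFanS.eq_1; have := @PvgHas.eq_1; have := @PvgHas.dk.eq_1; have := @pvgDiscS.eq_1; have := @pvgDisc.eq_1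
  trivial

theorem pvg_discS_eq {N : Set ℂ} {g : ℂ → ℂ} {θ : ℕ → ℝ} {ρ : ℝ} {Y : Set ℂ} (H : PvgHas N g θ ρ Y) : pvgDiscS N g θ ρ Y = pvgFanS (H.dk.fan H.ok) := dif_pos H

/-- BULK (219): a fan sphere over a disc of the Delaunay plane agrees with Delaunay at the sites which are interior vertices of the disc.
Plan: `PvgCompl` of helper297 from the dictionary of `Fan/Sphere` (`src_inn nxt_inn`, `F.isSph`, `F.simple`, `F.finV`, `F.finD`; a face without extra vertex is `inn`; the star of an interior vertex: `rot_inn_pos`), then `pvg_w_compl_ok`. -/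
theorem pvg_surf_ok {Y K : Set ℂ} {h : DelGood Y} (F : PvFan ↥Y (delPl h).Dart) (hF : F.T = (delPl h).toMap)
    (hK : ∀ v : ↥Y, (v : ℂ) ∈ K → v ∈ F.T.Int F.c.Left) : (pvgFanS F).Ok Y K ∧ Finite (pvgFanS F).V ∧ Finite (pvgFanS F).D := by
  obtain ⟨T, sph, c, fin, i1, i2, h1, h2, h3⟩ := F
  dsimp only at hF
  subst hF
  set F : PvFan ↥Y (delPl h).Dart := ⟨(delPl h).toMap, sph, c, fin, i1, i2, h1, h2, h3⟩ with hFdef
  let C : PvgCompl (delPl h).toMap c (Fin 3) :=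
    { V' := F.V', D' := F.D', T' := F.map, nm := F.nm, em := F.em, finV := F.finV, finD := F.finD, sph := F.isSph, simple := F.simple (delPl h).toMap_simple,
      inj := F.nm_injective, src_em := F.nm_src_em, nxt_em := F.em_nxt, int := F.int_em, emb := F.emb_em }
  have h0 : C.surf.Ok Y K := pvg_w_compl_ok C hK
  have e : C.surf = pvgFanS F := by
    show (⟨F.V', F.D', F.map, fun v => Sum.map Subtype.val id (F.nm v)⟩ : PvgSurf (Fin 3)) = ⟨F.V', F.D', F.map, fun v => Sum.map (fun x => ((x.1 : ↥Y) : ℂ)) id v⟩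
    congr 1
    funext v
    rcases v with v | v <;> rfl
  rw [e] at h0
  exact ⟨h0, F.finV, F.finD⟩

/-- **EXIT (bulk)**: on `PvgHas` the family is a finite sphere which agrees with Delaunay on `K(1-ρ)` -/
theorem pvg_disc_ok {N : Set ℂ} {g : ℂ → ℂ} {θ : ℕ → ℝ} {ρ : ℝ} {Y : Set ℂ} (H : PvgHas N g θ ρ Y) :
    (pvgDisc N g θ ρ).Ok Y (pvgK N g (1 - ρ)) ∧ (pvgDisc N g θ ρ).Adm Y := by
  have h1 := pvg_surf_ok (K := pvgK N g (1 - ρ)) (H.dk.fan H.ok) rfl (fun v hv => by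
    have h2 := H.ok.inner v hv
    have h3 : (H.dk.fan H.ok).c.Left = H.dk.c.Left := (pl_shift_left (delp_isSph H.good) H.dk.c (H.dk.m 0)).1
    show v ∈ (delPl H.good).toMap.Int (H.dk.fan H.ok).c.Left
    rw [h3]; exact h2)
  rw [← pvg_discS_eq H] at h1
  exact ⟨(pvg_w_fam_ok _ _ _).2 h1.1, h1.2⟩

/-! ## 2. CH: the chart  (block helper61) -/

section inv

variable {N : Set ℂ} {g : ℂ → ℂ}

/-- an injective holomorphic map is open at every point -/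
theorem pvg_inj_open_at (hN : IsOpen N) (hd : DifferentiableOn ℂ g N) (hi : InjOn g N) {z : ℂ} (hz : z ∈ N) : 𝓝 (g z) ≤ map g (𝓝 z) := by
  have han : AnalyticAt ℂ g z := hd.analyticAt (hN.mem_nhds hz)
  rcases han.eventually_constant_or_nhds_le_map_nhds with h | h
  · exfalso
    have h1 : ∀ᶠ w in 𝓝[≠] z, g w = g z ∧ w ∈ N :=
      eventually_nhdsWithin_of_eventually_nhds (h.and (hN.eventually_mem hz))
    obtain ⟨w, ⟨hw1, hw2⟩, hw3⟩ := (h1.and self_mem_nhdsWithin).exists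
    exact hw3 (hi hw2 hz hw1)
  · exact h

/-- the inverse chart -/
noncomputable def pvgInv (N : Set ℂ) (g : ℂ → ℂ) : ℂ → ℂ := Function.invFunOn g N

theorem pvg_inv_eqns_cite : True := by
  have := @pvgInv.eq_1
  trivial

theorem pvg_inv_left (hi : InjOn g N) {z : ℂ} (hz : z ∈ N) : pvgInv N g (g z) = z := hi.leftInvOn_invFunOn hz

theorem pvg_inv_mem {w : ℂ} (hw : w ∈ g '' N) : pvgInv N g w ∈ N := Function.invFunOn_mem hw

theorem pvg_inv_right {w : ℂ} (hw : w ∈ g '' N) : g (pvgInv N g w) = w := Function.invFunOn_eq hw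

theorem pvg_inj_img_open (hN : IsOpen N) (hd : DifferentiableOn ℂ g N) (hi : InjOn g N) : IsOpen (g '' N) := by
  rw [isOpen_iff_mem_nhds]
  rintro _ ⟨z, hz, rfl⟩
  apply pvg_inj_open_at hN hd hi hz
  exact mem_map.2 (mem_of_superset (hN.mem_nhds hz) (subset_preimage_image g N))

theorem pvg_inv_contAt (hN : IsOpen N) (hd : DifferentiableOn ℂ g N) (hi : InjOn g N) {w : ℂ} (hw : w ∈ g '' N) : ContinuousAt (pvgInv N g) w := by
  obtain ⟨z, hz, rfl⟩ := hw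
  unfold ContinuousAt
  rw [pvg_inv_left hi hz]
  refine Tendsto.mono_left ?_ (pvg_inj_open_at hN hd hi hz)
  rw [tendsto_map'_iff]
  refine (tendsto_id (x := 𝓝 z)).congr' ?_
  filter_upwards [hN.mem_nhds hz] with y hy
  exact (pvg_inv_left hi hy).symm

/-- **the inverse chart is holomorphic** (the critical points of `g` are removable singularities; same proof as `pvcy_comp_differentiableOn`) -/
theorem pvg_inv_diffAt (hN : IsOpen N) (hd : DifferentiableOn ℂ g N) (hi : InjOn g N) {w0 : ℂ} (hw0 : w0 ∈ g '' N) : AnalyticAt ℂ (pvgInv N g) w0 := by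
  have ho := pvg_inj_img_open hN hd hi
  have hz0 : pvgInv N g w0 ∈ N := pvg_inv_mem hw0
  have han : AnalyticAt ℂ g (pvgInv N g w0) := hd.analyticAt (hN.mem_nhds hz0)
  refine Complex.analyticAt_of_differentiable_on_punctured_nhds_of_continuousAt ?_ (pvg_inv_contAt hN hd hi hw0)
  rcases han.deriv.eventually_eq_zero_or_eventually_ne_zero with hzero | hne
  · exfalso
    obtain ⟨r, hr, hball⟩ := Metric.eventually_nhds_iff_ball.1 (hzero.and (hN.eventually_mem hz0))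
    have hmem : pvgInv N g w0 + (r / 2 : ℝ) ∈ ball (pvgInv N g w0) r := by
      rw [Metric.mem_ball, dist_eq_norm]
      simp only [add_sub_cancel_left, Complex.norm_real, Real.norm_eq_abs]
      rw [abs_of_pos (by positivity)]
      linarith
    have hconst := Metric.isOpen_ball.is_const_of_deriv_eq_zero (convex_ball (pvgInv N g w0) r).isPreconnected
      (f := g) (hd.mono fun y hy => (hball y hy).2) (fun y hy => (hball y hy).1)
      (Metric.mem_ball_self hr) hmem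
    have h3 := hi hz0 (hball _ hmem).2 hconst
    have h4 : ((r / 2 : ℝ) : ℂ) = 0 := by
      have := h3.symm
      rwa [add_eq_left] at this
    have h5 : r / 2 = 0 := by exact_mod_cast h4
    linarith
  · have ht : Tendsto (pvgInv N g) (𝓝[≠] w0) (𝓝[≠] (pvgInv N g w0)) := by
      refine tendsto_nhdsWithin_iff.2 ⟨(pvg_inv_contAt hN hd hi hw0).tendsto.mono_left nhdsWithin_le_nhds, ?_⟩
      filter_upwards [mem_nhdsWithin_of_mem_nhds (ho.mem_nhds hw0), self_mem_nhdsWithin] with w hw1 hw2 e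
      apply hw2
      rw [mem_singleton_iff, ← pvg_inv_right hw1, e, pvg_inv_right hw0]
    filter_upwards [ht.eventually hne, mem_nhdsWithin_of_mem_nhds (ho.mem_nhds hw0)] with w hw1 hw2
    have hwN : pvgInv N g w ∈ N := pvg_inv_mem hw2
    have hd1 : HasDerivAt g (deriv g (pvgInv N g w)) (pvgInv N g w) := (hd.differentiableAt (hN.mem_nhds hwN)).hasDerivAt
    have hd2 : HasDerivAt (pvgInv N g) (deriv g (pvgInv N g w))⁻¹ w := by
      refine HasDerivAt.of_local_left_inverse (pvg_inv_contAt hN hd hi hw2) hd1 hw1 ?_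
      filter_upwards [ho.mem_nhds hw2] with y hy
      exact pvg_inv_right hy
    exact hd2.differentiableAt

end inv

section chart

variable {N : Set ℂ} {g : ℂ → ℂ} {R1 : ℝ}

theorem pvg_inv_contOn (ch : PvgCh N g R1) : ContinuousOn (pvgInv N g) (g '' N) :=
  fun _ hw => (pvg_inv_contAt ch.opn ch.diff ch.inj hw).continuousWithinAt

theorem pvg_K_eq_image (ch : PvgCh N g R1) {S : Set ℂ} (hS : S ⊆ closedBall 0 R1) : {z | z ∈ N ∧ g z ∈ S} = pvgInv N g '' S := by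
  ext z
  constructor
  · rintro ⟨hz, hgz⟩
    exact ⟨g z, hgz, pvg_inv_left ch.inj hz⟩
  · rintro ⟨w, hw, rfl⟩
    have hw' : w ∈ g '' N := ch.surj (hS hw)
    exact ⟨pvg_inv_mem hw', by rw [pvg_inv_right hw']; exact hw⟩

/-- `PvAn` gives a chart record -/
theorem pvg_ch_of_an {D : Set ℂ} {d : ℂ} {ψ : ℂ → ℂ} (h : PvAn D d ψ) :
    ∃ (N : Set ℂ) (g : ℂ → ℂ) (R1 : ℝ), PvgCh N g R1 ∧ closure D ⊆ N ∧ D = N ∩ g ⁻¹' ball 0 1 ∧ closure D = pvgK N g 1 ∧ g d = 1 ∧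
      ∀ z ∈ closure D \ {d}, ψ z = Complex.I * (1 + g z) / (1 - g z) := by
  obtain ⟨N, g, hN, hDN, hd, hi, hD, hgd, hψ⟩ := h.an
  have hc : PvChart D d ψ := h.toPvChart
  have hdN : d ∈ N := hDN (frontier_subset_closure hc.hd)
  -- `g` is the disc chart on the closure
  have hg : ∀ z ∈ closure D, g z = hc.disc z := by
    intro z hz
    by_cases hzd : z = d
    · rw [hzd, hgd, hc.disc_d]
    · have h1 : g z ≠ 1 := fun e => hzd (hi (hDN hz) hdN (e.trans hgd.symm))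
      rw [hc.disc_of_ne hzd, hψ z ⟨hz, hzd⟩]
      exact (pvch_C_Ci h1).symm
  have himg : closedBall (0 : ℂ) 1 ⊆ g '' closure D := by
    rw [← hc.disc_img]
    rintro _ ⟨z, hz, rfl⟩
    exact ⟨z, hz, hg z hz⟩
  have ho := pvg_inj_img_open hN hd hi
  obtain ⟨δ, hδ, hsub⟩ := (isCompact_closedBall (0 : ℂ) 1).exists_cthickening_subset_open ho (himg.trans (image_mono hDN))
  rw [cthickening_closedBall hδ.le zero_le_one] at hsub
  refine ⟨N, g, δ + 1, ⟨hN, hd, hi, by linarith, hsub⟩, hDN, hD, ?_, hgd, hψ⟩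
  ext z
  constructor
  · intro hz
    exact ⟨hDN hz, by rw [hg z hz]; exact hc.disc_norm_le hz⟩
  · rintro ⟨hzN, hz1⟩
    obtain ⟨z', hz', e⟩ := himg (mem_closedBall_zero_iff.2 hz1)
    rw [← hi (hDN hz') hzN e]
    exact hz'

theorem pvg_ch_compact (ch : PvgCh N g R1) {r : ℝ} (hr : r ≤ R1) : IsCompact (pvgK N g r) := by
  have e : pvgK N g r = pvgInv N g '' closedBall 0 r := by
    rw [← pvg_K_eq_image ch (closedBall_subset_closedBall hr)]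
    ext z
    simp [pvgK]
  rw [e]
  exact (isCompact_closedBall 0 r).image_of_continuousOn
    ((pvg_inv_contOn ch).mono ((closedBall_subset_closedBall hr).trans ch.surj))

/-- preimages of connected subsets of the big disc are connected -/
theorem pvg_ch_conn (ch : PvgCh N g R1) {S : Set ℂ} (hS : IsPreconnected S) (hSR : S ⊆ closedBall 0 R1) : IsPreconnected {z | z ∈ N ∧ g z ∈ S} := by
  rw [pvg_K_eq_image ch hSR]
  exact hS.image _ ((pvg_inv_contOn ch).mono (hSR.trans ch.surj))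

/-- LEVEL SETS SEPARATE: a connected set which meets `K(r)` and leaves `K(r')`, `r < r' ≤ R1`, meets the level `s` for every `r < s ≤ r'` -/
theorem pvg_ch_level (ch : PvgCh N g R1) {S : Set ℂ} (hS : IsPreconnected S) {r r' s : ℝ} (h1 : (S ∩ pvgK N g r).Nonempty) (h2 : ¬ S ⊆ pvgK N g r')
    (hrs : r < s) (hsr : s ≤ r') (hr' : r' ≤ R1) : ∃ z ∈ S, z ∈ N ∧ ‖g z‖ = s := by
  by_contra hno
  have hno' : ∀ z ∈ S, z ∈ N → ‖g z‖ ≠ s := fun z hz hzN e => hno ⟨z, hz, hzN, e⟩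
  have hU : IsOpen (N ∩ g ⁻¹' ball 0 s) := ch.diff.continuousOn.isOpen_inter_preimage ch.opn isOpen_ball
  have hV : IsOpen (pvgK N g s)ᶜ := (pvg_ch_compact ch (hsr.trans hr')).isClosed.isOpen_compl
  obtain ⟨a, haS, haK⟩ := h1
  obtain ⟨b, hbS, hbK⟩ := not_subset.1 h2
  have hcov : S ⊆ (N ∩ g ⁻¹' ball 0 s) ∪ (pvgK N g s)ᶜ := by
    intro z hz
    by_cases hzK : z ∈ pvgK N g s
    · left
      refine ⟨hzK.1, ?_⟩
      rw [mem_preimage, mem_ball_zero_iff]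
      exact lt_of_le_of_ne hzK.2 (hno' z hz hzK.1)
    · right; exact hzK
  obtain ⟨z, -, hzU, hzV⟩ := hS _ _ hU hV hcov
    ⟨a, haS, haK.1, by rw [mem_preimage, mem_ball_zero_iff]; exact lt_of_le_of_lt haK.2 hrs⟩
    ⟨b, hbS, fun hb => hbK ⟨hb.1, hb.2.trans hsr⟩⟩
  apply hzV
  refine ⟨hzU.1, ?_⟩
  have := hzU.2
  rw [mem_preimage, mem_ball_zero_iff] at this
  exact this.le

/-- the chart is bi-Lipschitz on `K(R1)` at small distances -/
theorem pvg_ch_lip (ch : PvgCh N g R1) : ∃ L δ : ℝ, 0 < L ∧ 0 < δ ∧ (∀ z ∈ pvgK N g R1, ∀ w : ℂ, ‖w - z‖ ≤ δ → w ∈ N ∧ ‖g w - g z‖ ≤ L * ‖w - z‖) ∧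
    ∀ z ∈ pvgK N g R1, ∀ w ∈ pvgK N g R1, ‖w - z‖ ≤ L * ‖g w - g z‖ := by
  have hK : IsCompact (pvgK N g R1) := pvg_ch_compact ch le_rfl
  obtain ⟨δ, hδ, hsub⟩ := hK.exists_cthickening_subset_open ch.opn (fun z hz => hz.1)
  have hK' : IsCompact (cthickening δ (pvgK N g R1)) := hK.cthickening
  obtain ⟨C1, hC1⟩ := hK'.exists_bound_of_continuousOn ((ch.diff.deriv ch.opn).continuousOn.mono hsub)
  have ho := pvg_inj_img_open ch.opn ch.diff ch.inj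
  have hφ : DifferentiableOn ℂ (pvgInv N g) (g '' N) := fun w hw =>
    (pvg_inv_diffAt ch.opn ch.diff ch.inj hw).differentiableAt.differentiableWithinAt
  obtain ⟨C2, hC2⟩ := (isCompact_closedBall (0 : ℂ) R1).exists_bound_of_continuousOn ((hφ.deriv ho).continuousOn.mono ch.surj)
  refine ⟨max (max C1 C2) 1, δ, lt_of_lt_of_le one_pos (le_max_right _ _), hδ, ?_, ?_⟩
  · intro z hz w hw
    have hb : closedBall z δ ⊆ cthickening δ (pvgK N g R1) := closedBall_subset_cthickening hz δ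
    have hwb : w ∈ closedBall z δ := by rw [mem_closedBall, dist_eq_norm]; exact hw
    refine ⟨hsub (hb hwb), ?_⟩
    have := Convex.norm_image_sub_le_of_norm_deriv_le (f := g) (C := C1) (s := closedBall z δ)
      (fun x hx => ch.diff.differentiableAt (ch.opn.mem_nhds (hsub (hb hx)))) (fun x hx => hC1 x (hb hx)) (convex_closedBall z δ)
      (mem_closedBall_self hδ.le) hwb
    exact this.trans (mul_le_mul_of_nonneg_right ((le_max_left _ _).trans (le_max_left _ _)) (norm_nonneg _))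
  · intro z hz w hw
    have hz' : g z ∈ closedBall (0 : ℂ) R1 := mem_closedBall_zero_iff.2 hz.2
    have hw' : g w ∈ closedBall (0 : ℂ) R1 := mem_closedBall_zero_iff.2 hw.2
    have := Convex.norm_image_sub_le_of_norm_deriv_le (f := pvgInv N g) (C := C2) (s := closedBall (0 : ℂ) R1)
      (fun x hx => (pvg_inv_diffAt ch.opn ch.diff ch.inj (ch.surj hx)).differentiableAt) hC2 (convex_closedBall _ _) hz' hw'
    rw [pvg_inv_left ch.inj hz.1, pvg_inv_left ch.inj hw.1] at this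
    exact this.trans (mul_le_mul_of_nonneg_right ((le_max_right _ _).trans (le_max_left _ _)) (norm_nonneg _))

/-- PROB (297): Euclidean density gives the mesh in the chart -/
theorem pvg_mesh_of_dense (ch : PvgCh N g R1) {μ : ℝ} (hμ : 0 < μ) : ∃ ρ' > 0, ∀ Y : Set ℂ, VorDense Y (pvgK N g R1) ρ' → PvgMesh N g R1 μ Y := by
  obtain ⟨L, δ, hL, hδ, h1, -⟩ := pvg_ch_lip ch
  refine ⟨min δ (μ / L), lt_min hδ (div_pos hμ hL), fun Y hY v hv z hz hzK => ?_⟩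
  obtain ⟨u, hu, hzu⟩ := hY z hzK
  have h2 : ‖v - z‖ ≤ min δ (μ / L) := by
    rw [norm_sub_rev]
    exact (hz u hu).trans hzu
  obtain ⟨h3, h4⟩ := h1 z hzK v (h2.trans (min_le_left _ _))
  refine ⟨h3, h4.trans ?_⟩
  calc L * ‖v - z‖ ≤ L * (μ / L) := mul_le_mul_of_nonneg_left (h2.trans (min_le_right _ _)) hL.le
    _ = μ := by field_simp

end chart

/-! ## 3. LOC: where the outer circuit lies  (block helper61) -/

section loc

variable {N : Set ℂ} {g : ℂ → ℂ} {R1 r μ : ℝ} {Y : Set ℂ} {h : DelGood Y}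

/-- the cell of a site of level `≤ a` lies in `K(a + μ)` -/
theorem pvg_loc_cell (ch : PvgCh N g R1) (hm : PvgMesh N g R1 μ Y) (hμ : 0 < μ) {a : ℝ} (ha : a + μ < R1) {v : ℂ} (hvY : v ∈ Y) (hvN : v ∈ N) (hva : ‖g v‖ ≤ a) :
    vorCell Y v ⊆ pvgK N g (a + μ) := by
  have key : ∀ w ∈ vorCell Y v, w ∈ pvgK N g R1 → w ∈ pvgK N g (a + μ) := by
    intro w hw hwK
    have h1 := (hm v hvY w hw hwK).2
    refine ⟨hwK.1, ?_⟩
    have h2 : ‖g w‖ ≤ ‖g v‖ + ‖g v - g w‖ := by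
      have := norm_sub_le (g v) (g v - g w)
      simpa using this
    linarith
  intro w hw
  by_cases hwK : w ∈ pvgK N g R1
  · exact key w hw hwK
  · exfalso
    obtain ⟨z, hzS, hzN, hz⟩ := pvg_ch_level ch (vor_convex_cell Y v).isPreconnected (r := a) (r' := R1) (s := R1)
      ⟨v, vor_self_mem Y v, hvN, hva⟩ (fun hh => hwK (hh hw)) (by linarith) le_rfl le_rfl
    have := (key z hzS ⟨hzN, hz.le⟩).2
    linarith

/-- a cell which meets `K(r)` lies in `K(r + 2μ)` (segment inside the convex cell + `pvg_ch_level`) -/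
theorem pvg_cell_sub (ch : PvgCh N g R1) (hm : PvgMesh N g R1 μ Y) (hμ : 0 < μ) (hr : r + 2 * μ < R1) {v : ℂ} (hv : v ∈ vorMeet Y (pvgK N g r)) :
    vorCell Y v ⊆ pvgK N g (r + 2 * μ) := by
  obtain ⟨hvY, z, hzc, hzK⟩ := hv
  obtain ⟨hvN, h1⟩ := hm v hvY z hzc ⟨hzK.1, hzK.2.trans (by linarith)⟩
  have h2 : ‖g v‖ ≤ r + μ := by
    have := norm_add_le (g v - g z) (g z)
    rw [sub_add_cancel] at this
    linarith [hzK.2]
  have h3 := pvg_loc_cell ch hm hμ (a := r + μ) (by linarith) hvY hvN h2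
  rwa [show r + μ + μ = r + 2 * μ by ring] at h3

/-- the vertices of the outer circuit: `r < ‖g‖ ≤ r + 3μ` -/
theorem pvg_rim_loc (ch : PvgCh N g R1) (hm : PvgMesh N g R1 μ Y) (hμ : 0 < μ) (hr0 : 0 ≤ r) (hr : r + 6 * μ < R1) {c : (delPl h).toMap.Cyc} (hc : PvgRim h (pvgK N g r) c)
    (i : ℕ) : ((delPl h).toMap.src (c.e i) : ℂ) ∈ pvgA N g r (r + 3 * μ) ∧ ‖g ((delPl h).toMap.tgt (c.e i) : ℂ) - g ((delPl h).toMap.src (c.e i) : ℂ)‖ ≤ 2 * μ := by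
  obtain ⟨hs, htg, -, -, z, ⟨hz1, hz2⟩, hz3⟩ := pvg_w_del_face h (c.e i)
  have hz : z ∈ pvgK N g (r + 2 * μ) := pvg_cell_sub ch hm hμ (by linarith) (hc.rim i).2 hz3
  have hzR : z ∈ pvgK N g R1 := ⟨hz.1, hz.2.trans (by linarith)⟩
  obtain ⟨h1N, h1⟩ := hm _ hs z hz1 hzR
  obtain ⟨h2N, h2⟩ := hm _ htg z hz2 hzR
  refine ⟨⟨h1N, ?_, ?_⟩, ?_⟩
  · by_contra hlt
    exact (hc.rim i).1 ⟨hs, _, vor_self_mem Y _, h1N, (not_le.1 hlt).le⟩
  · have := norm_add_le (g ((delPl h).toMap.src (c.e i) : ℂ) - g z) (g z)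
    rw [sub_add_cancel] at this
    linarith [hz.2]
  · have := norm_sub_le (g ((delPl h).toMap.tgt (c.e i) : ℂ) - g z) (g ((delPl h).toMap.src (c.e i) : ℂ) - g z)
    rw [sub_sub_sub_cancel_right] at this
    linarith

/-- a closed round annulus is connected -/
theorem pvgd_ann_preconn {a b : ℝ} (ha : 0 < a) : IsPreconnected {ζ : ℂ | a ≤ ‖ζ‖ ∧ ‖ζ‖ ≤ b} := by
  have h1 : IsPreconnected (Icc a b ×ˢ sphere (0 : ℂ) 1) :=
    isPreconnected_Icc.prod (isPreconnected_sphere (by rw [Complex.rank_real_complex]; norm_num) 0 1)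
  have h2 := h1.image (fun p : ℝ × ℂ => (p.1 : ℂ) * p.2) (by fun_prop)
  convert h2 using 1
  ext ζ
  constructor
  · rintro ⟨h3, h4⟩
    have hz : ‖ζ‖ ≠ 0 := by linarith
    have hz' : ((‖ζ‖ : ℝ) : ℂ) ≠ 0 := by exact_mod_cast hz
    refine ⟨(‖ζ‖, ζ / ‖ζ‖), ⟨⟨h3, h4⟩, ?_⟩, ?_⟩
    · simp [hz]
    · show ((‖ζ‖ : ℝ) : ℂ) * (ζ / ‖ζ‖) = ζ
      field_simp
  · rintro ⟨⟨t, u⟩, ⟨⟨h3, h4⟩, h5⟩, rfl⟩
    have h6 : ‖u‖ = 1 := by simpa using h5
    have h7 : ‖((t : ℝ) : ℂ) * u‖ = t := by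
      rw [norm_mul, h6, mul_one, Complex.norm_real, Real.norm_of_nonneg (by linarith)]
    show a ≤ ‖((t : ℝ) : ℂ) * u‖ ∧ ‖((t : ℝ) : ℂ) * u‖ ≤ b
    rw [h7]; exact ⟨h3, h4⟩

/-- the closed collar is connected -/
theorem pvgd_A_preconn (ch : PvgCh N g R1) {a b : ℝ} (ha : 0 < a) (hb : b ≤ R1) : IsPreconnected (pvgA N g a b) := by
  have h1 := pvg_ch_conn ch (pvgd_ann_preconn (a := a) (b := b) ha) (fun ζ hζ => by
    rw [mem_closedBall_zero_iff]; exact hζ.2.trans hb)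
  exact h1

/-- a cell which meets `K(s)` and leaves it meets the collar -/
theorem pvgd_cell_W (ch : PvgCh N g R1) {s : ℝ} (hs : s ≤ R1) {y : ℂ} (hy : y ∈ Y) (h1 : (vorCell Y y ∩ pvgK N g s).Nonempty) (h2 : ¬ vorCell Y y ⊆ pvgK N g s) :
    y ∈ vorMeet Y (pvgA N g s R1) := by
  obtain ⟨z1, hz1, hz1K⟩ := h1
  rcases hz1K.2.lt_or_eq with hlt | heq
  · obtain ⟨z, hz, hzN, hzs⟩ := pvg_ch_level ch (vor_convex_cell Y y).isPreconnected (r := ‖g z1‖) (r' := s) (s := s) ⟨z1, hz1, hz1K.1, le_rfl⟩ h2 hlt le_rfl hs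
    exact ⟨hy, z, hz, hzN, hzs.ge, hzs.le.trans hs⟩
  · exact ⟨hy, z1, hz1, hz1K.1, heq.ge, heq.le.trans hs⟩

/-- the cell of a vertex of the outer circuit lies in `K(r + 4μ)` -/
theorem pvgd_rim_cell (ch : PvgCh N g R1) (hm : PvgMesh N g R1 μ Y) (hμ : 0 < μ) (hr : r + 6 * μ < R1) {c : (delPl h).toMap.Cyc} (hc : PvgRim h (pvgK N g r) c)
    {v : ↥Y} (hv : v ∈ c.verts) : vorCell Y (v : ℂ) ⊆ pvgK N g (r + 4 * μ) := by
  obtain ⟨i, rfl⟩ := hv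
  have h1 := pvg_cell_sub ch hm hμ (by linarith) (hc.rim i).2
  have h2 : (delPl h).toMap.Adj ((delPl h).toMap.apex (c.e i)) ((delPl h).toMap.src (c.e i)) :=
    ⟨(delPl h).toMap.nxt ((delPl h).toMap.nxt (c.e i)), rfl, (delPl h).toMap.tgt_nxt2 _⟩
  obtain ⟨-, -, -, z, hz1, hz2⟩ := (pvg_w_adj_iff h _ _).1 h2
  have h3 := pvg_cell_sub ch hm hμ (r := r + 2 * μ) (by linarith) (v := ((delPl h).toMap.src (c.e i) : ℂ)) ⟨Subtype.coe_prop _, z, hz2, h1 hz1⟩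
  exact h3.trans fun _ hz => ⟨hz.1, hz.2.trans (by linarith)⟩

/-- a vertex of the outer circuit is not a site of the collar -/
theorem pvgd_rim_not_W (ch : PvgCh N g R1) (hm : PvgMesh N g R1 μ Y) (hμ : 0 < μ) (hr : r + 6 * μ < R1) {c : (delPl h).toMap.Cyc} (hc : PvgRim h (pvgK N g r) c)
    {v : ↥Y} (hv : (v : ℂ) ∈ vorMeet Y (pvgA N g (r + 5 * μ) R1)) : v ∉ c.verts := by
  intro hvc
  obtain ⟨-, z, hz, hzA⟩ := hv
  have h1 := (pvgd_rim_cell ch hm hμ hr hc hvc hz).2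
  have h2 := hzA.2.1
  linarith

/-- (A) from a site outside `K(r + 5μ)` one reaches a site of the collar without touching the circuit -/
theorem pvgd_cross (ch : PvgCh N g R1) (hm : PvgMesh N g R1 μ Y) (hμ : 0 < μ) (hr : r + 6 * μ < R1) {c : (delPl h).toMap.Cyc} (hc : PvgRim h (pvgK N g r) c)
    {v : ↥Y} (hv : (v : ℂ) ∉ pvgK N g (r + 5 * μ)) :
    ∃ p : ↥Y, (p : ℂ) ∈ vorMeet Y (pvgA N g (r + 5 * μ) R1) ∧ ReflTransGen (fun a b => (delPl h).toMap.Adj a b ∧ b ∉ c.verts) v p := by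
  have hs : r + 5 * μ ≤ R1 := by linarith
  have key : ∀ y : ↥Y, ReflTransGen (delPl h).toMap.Adj v y →
      (∃ p : ↥Y, (p : ℂ) ∈ vorMeet Y (pvgA N g (r + 5 * μ) R1) ∧ ReflTransGen (fun a b => (delPl h).toMap.Adj a b ∧ b ∉ c.verts) v p) ∨
      (ReflTransGen (fun a b => (delPl h).toMap.Adj a b ∧ b ∉ c.verts) v y ∧ ¬ (vorCell Y (y : ℂ) ∩ pvgK N g (r + 5 * μ)).Nonempty) := by
    intro y hy
    induction hy with
    | refl =>
      by_cases h1 : (vorCell Y (v : ℂ) ∩ pvgK N g (r + 5 * μ)).Nonempty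
      · exact Or.inl ⟨v, pvgd_cell_W ch hs v.2 h1 (fun hsub => hv (hsub (vor_self_mem Y v))), ReflTransGen.refl⟩
      · exact Or.inr ⟨ReflTransGen.refl, h1⟩
    | tail _ hbc ih =>
      rename_i y y' _
      rcases ih with ih | ⟨ih1, ih2⟩
      · exact Or.inl ih
      · obtain ⟨-, -, -, z, hz1, hz2⟩ := (pvg_w_adj_iff h _ _).1 hbc
        have hzK : z ∉ pvgK N g (r + 5 * μ) := fun hzK => ih2 ⟨z, hz1, hzK⟩
        have hsub : ¬ vorCell Y (y' : ℂ) ⊆ pvgK N g (r + 5 * μ) := fun hsub => hzK (hsub hz2)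
        have hy' : y' ∉ c.verts := fun hyc => hsub ((pvgd_rim_cell ch hm hμ hr hc hyc).trans fun _ hz => ⟨hz.1, hz.2.trans (by linarith)⟩)
        have hreach := ih1.tail ⟨hbc, hy'⟩
        by_cases h1 : (vorCell Y (y' : ℂ) ∩ pvgK N g (r + 5 * μ)).Nonempty
        · exact Or.inl ⟨y', pvgd_cell_W ch hs y'.2 h1 hsub, hreach⟩
        · exact Or.inr ⟨hreach, h1⟩
  rcases key _ ((delp_isSph h).conn v ((delPl h).toMap.src (c.e 0))) with h1 | ⟨-, h2⟩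
  · exact h1
  · exfalso
    refine h2 ⟨_, vor_self_mem Y _, ?_⟩
    have := pvgd_rim_cell ch hm hμ hr hc (v := (delPl h).toMap.src (c.e 0)) ⟨0, rfl⟩ (vor_self_mem Y _)
    exact ⟨this.1, this.2.trans (by linarith)⟩

/-- (B) the sites of the collar are joined without touching the circuit -/
theorem pvgd_W_conn (ch : PvgCh N g R1) (hm : PvgMesh N g R1 μ Y) (hμ : 0 < μ) (hr0 : 0 ≤ r) (hr : r + 6 * μ < R1) {c : (delPl h).toMap.Cyc} (hc : PvgRim h (pvgK N g r) c)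
    {p q : ↥Y} (hp : (p : ℂ) ∈ vorMeet Y (pvgA N g (r + 5 * μ) R1)) (hq : (q : ℂ) ∈ vorMeet Y (pvgA N g (r + 5 * μ) R1)) :
    ReflTransGen (fun a b => (delPl h).toMap.Adj a b ∧ b ∉ c.verts) p q := by
  obtain ⟨_, h1⟩ := pvg_w_lift_chain h p.2 (del_win_conn h.lf (pvgd_A_preconn ch (by positivity) le_rfl) hp hq)
  exact ReflTransGen.mono (fun a b hab => ⟨hab.1, pvgd_rim_not_W ch hm hμ hr hc hab.2⟩) _ _ h1

/-- (C) a site strictly on the right of the circuit and outside `K(s)` -/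
theorem pvgd_far (ch : PvgCh N g R1) {s : ℝ} (hs : s ≤ R1) {c : (delPl h).toMap.Cyc} (hfin : c.Left.Finite) :
    ∃ w : ↥Y, w ∈ (delPl h).toMap.Int c.Right ∧ (w : ℂ) ∉ pvgK N g s := by
  have : Infinite ↥Y := (pvg_w_infinite h).to_subtype
  have f1 := pl_VOf_finite (delp_isSph h) c hfin
  have f2 : {v : ↥Y | (v : ℂ) ∈ pvgK N g s}.Finite := by
    refine ((del_win_finite h.lf (pvg_ch_compact ch hs).isBounded).preimage Subtype.val_injective.injOn).subset ?_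
    intro v hv
    exact ⟨v.2, v, vor_self_mem Y v, hv⟩
  obtain ⟨w, hw⟩ := (f1.union f2).exists_notMem
  refine ⟨w, ?_, fun h2 => hw (Or.inr h2)⟩
  have h3 : w ∉ (delPl h).toMap.VOf c.Left := fun h2 => hw (Or.inl h2)
  rw [pl_VOf_left (delp_isSph h) c] at h3
  rcases pl_jordan_vert (delp_isSph h) c w with h4 | h4 | h4
  · exact absurd (Or.inl h4) h3
  · exact absurd (Or.inr h4) h3
  · exact h4

/-- separation on the right -/
theorem pvgd_sep_right {c : (delPl h).toMap.Cyc} {a b : ↥Y} (ha : a ∈ (delPl h).toMap.Int c.Right)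
    (hab : ReflTransGen (fun u v => (delPl h).toMap.Adj u v ∧ v ∉ c.verts) a b) : b ∈ (delPl h).toMap.Int c.Right :=
  pl_int_sep (delp_isSph h) (pl_right_face c) (X := c.vertsᶜ) (fun _ hv _ hd hb => pl_cyc_off c (hd ▸ hv) (pl_right_bd_sub c hb)) ha hab

/-- (L1) COLLAR: the sites whose cell meets `{r + 5μ ≤ ‖g‖ ≤ R1}` are strictly on the right of the circuit -/
theorem pvg_collar (ch : PvgCh N g R1) (hm : PvgMesh N g R1 μ Y) (hμ : 0 < μ) (hr0 : 0 ≤ r) (hr : r + 6 * μ < R1) {c : (delPl h).toMap.Cyc} (hc : PvgRim h (pvgK N g r) c)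
    (u : ↥Y) (hu : (u : ℂ) ∈ vorMeet Y (pvgA N g (r + 5 * μ) R1)) : u ∈ (delPl h).toMap.Int c.Right := by
  obtain ⟨w, hw, hwK⟩ := pvgd_far ch (s := r + 5 * μ) (by linarith) hc.fin
  obtain ⟨p, hp, hwp⟩ := pvgd_cross ch hm hμ hr hc hwK
  exact pvgd_sep_right (pvgd_sep_right hw hwp) (pvgd_W_conn ch hm hμ hr0 hr hc hp hu)

/-- the closed disc lies in `K(r + 5μ)` -/
theorem pvg_outer (ch : PvgCh N g R1) (hm : PvgMesh N g R1 μ Y) (hμ : 0 < μ) (hr0 : 0 ≤ r) (hr : r + 6 * μ < R1) {c : (delPl h).toMap.Cyc} (hc : PvgRim h (pvgK N g r) c) :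
    ∀ v ∈ (delPl h).toMap.VOf c.Left, (v : ℂ) ∈ pvgK N g (r + 5 * μ) := by
  intro v hv
  by_contra hvK
  obtain ⟨p, hp, hvp⟩ := pvgd_cross ch hm hμ hr hc hvK
  rw [pl_VOf_left (delp_isSph h) c] at hv
  rcases hv with hv | hv
  · have := pvgd_rim_cell ch hm hμ hr hc hv (vor_self_mem Y _)
    exact hvK ⟨this.1, this.2.trans (by linarith)⟩
  · exact Set.disjoint_left.1 (pl_jordan_vert_disj (delp_isSph h) c).2.2 (pl_jordan_sep (delp_isSph h) c hv hvp) (pvg_collar ch hm hμ hr0 hr hc p hp)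

/-- (L2) the circuit passes near every point of the circle of radius `r` -/
theorem pvg_near (ch : PvgCh N g R1) (hm : PvgMesh N g R1 μ Y) (hμ : 0 < μ) (hr0 : 0 ≤ r) (hr : r + 6 * μ < R1) {c : (delPl h).toMap.Cyc} (hc : PvgRim h (pvgK N g r) c)
    (t : ℝ) : ∃ k, ‖g ((delPl h).toMap.src (c.e k) : ℂ) - (r : ℂ) * pvgE t‖ ≤ 6 * μ := by
  by_contra hcon
  push Not at hcon
  have hE : ‖pvgE t‖ = 1 := by unfold pvgE; exact Complex.norm_exp_ofReal_mul_I t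
  have n0 : ‖(r : ℂ) * pvgE t‖ = r := by rw [norm_mul, hE, mul_one, Complex.norm_real, Real.norm_of_nonneg hr0]
  have n1 : ‖((r + 5 * μ : ℝ) : ℂ) * pvgE t‖ = r + 5 * μ := by rw [norm_mul, hE, mul_one, Complex.norm_real, Real.norm_of_nonneg (by positivity)]
  have n2 : ‖((r + 5 * μ : ℝ) : ℂ) * pvgE t - (r : ℂ) * pvgE t‖ = 5 * μ := by
    rw [← sub_mul, norm_mul, hE, mul_one, ← Complex.ofReal_sub, Complex.norm_real, Real.norm_of_nonneg (by linarith)]; ring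
  have hseg : segment ℝ ((r : ℂ) * pvgE t) (((r + 5 * μ : ℝ) : ℂ) * pvgE t) ⊆ closedBall 0 (r + 5 * μ) :=
    (convex_closedBall _ _).segment_subset (by rw [mem_closedBall_zero_iff, n0]; linarith) (by rw [mem_closedBall_zero_iff, n1])
  have hγ := pvg_ch_conn ch (convex_segment ((r : ℂ) * pvgE t) (((r + 5 * μ : ℝ) : ℂ) * pvgE t)).isPreconnected
    (hseg.trans (closedBall_subset_closedBall (by linarith)))
  obtain ⟨z0, hz0N, hz0⟩ := ch.surj (show (r : ℂ) * pvgE t ∈ closedBall (0 : ℂ) R1 by rw [mem_closedBall_zero_iff, n0]; linarith)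
  obtain ⟨z1, hz1N, hz1⟩ := ch.surj (show ((r + 5 * μ : ℝ) : ℂ) * pvgE t ∈ closedBall (0 : ℂ) R1 by rw [mem_closedBall_zero_iff, n1]; linarith)
  obtain ⟨b, hb, hbz⟩ := vor_cover h.lf h.ne z0
  obtain ⟨p, hp, hpz⟩ := vor_cover h.lf h.ne z1
  have hbL : (⟨b, hb⟩ : ↥Y) ∈ (delPl h).toMap.Int c.Left := hc.int ⟨b, hb⟩ ⟨hb, z0, hbz, hz0N, by rw [hz0, n0]⟩
  have hpR : (⟨p, hp⟩ : ↥Y) ∈ (delPl h).toMap.Int c.Right := pvg_collar ch hm hμ hr0 hr hc ⟨p, hp⟩ ⟨hp, z1, hpz, hz1N, by rw [hz1, n1], by rw [hz1, n1]; linarith⟩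
  obtain ⟨_, h1⟩ := pvg_w_lift_chain h hb (del_win_conn h.lf hγ (a := b) (b := p) ⟨hb, z0, hbz, hz0N, by rw [hz0]; exact left_mem_segment _ _ _⟩
    ⟨hp, z1, hpz, hz1N, by rw [hz1]; exact right_mem_segment _ _ _⟩)
  have h2 : ReflTransGen (fun u v => (delPl h).toMap.Adj u v ∧ v ∉ c.verts) (⟨b, hb⟩ : ↥Y) ⟨p, hp⟩ := by
    refine ReflTransGen.mono (fun u v huv => ⟨huv.1, ?_⟩) _ _ h1
    rintro ⟨k, hk⟩
    obtain ⟨-, z, hz, hzN, hzS⟩ := huv.2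
    have h3 : ‖g z‖ ≤ r + 5 * μ := by simpa using hseg hzS
    have h4 := (hm v v.2 z hz ⟨hzN, h3.trans (by linarith)⟩).2
    have h5 : ‖g z - (r : ℂ) * pvgE t‖ ≤ 5 * μ := n2 ▸ norm_sub_le_of_mem_segment hzS
    have h6 := hcon k
    rw [hk] at h6
    have h7 : ‖g (v : ℂ) - (r : ℂ) * pvgE t‖ ≤ ‖g (v : ℂ) - g z‖ + ‖g z - (r : ℂ) * pvgE t‖ := by
      have := norm_add_le (g (v : ℂ) - g z) (g z - (r : ℂ) * pvgE t)
      rwa [sub_add_sub_cancel] at this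
    linarith
  exact Set.disjoint_left.1 (pl_jordan_vert_disj (delp_isSph h) c).2.2 (pl_jordan_sep (delp_isSph h) c hbL h2) hpR

end loc

/-! ## 4. ORD: order and orientation  (block helper253), D4 (block helper10) -/

/-- STEP (free leaf): the edges of the closed disc are short in the chart.      Both ends are in `K(r + 5μ)` (`pvg_outer`), their cells share a point (`DelAdj`), which lies in `K(r + 7μ)` (`pvg_cell_sub`); mesh twice. -/
theorem pvg_step {N : Set ℂ} {g : ℂ → ℂ} {R1 r μ : ℝ} {Y : Set ℂ} {h : DelGood Y} (ch : PvgCh N g R1) (hm : PvgMesh N g R1 μ Y) (hμ : 0 < μ) (hr0 : 0 ≤ r) (hr : r + 8 * μ < R1)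
    {c : (delPl h).toMap.Cyc} (hc : PvgRim h (pvgK N g r) c) :
    ∀ d ∈ c.Left, ‖g ((delPl h).toMap.tgt d : ℂ) - g ((delPl h).toMap.src d : ℂ)‖ ≤ 2 * μ := by
  intro d hd
  have hT := delp_isSph h
  have h1 : ((delPl h).toMap.src d : ℂ) ∈ pvgK N g (r + 5 * μ) := pvg_outer ch hm hμ hr0 (by linarith) hc _ ⟨d, hd, rfl⟩
  have hadj : (delPl h).toMap.Adj ((delPl h).toMap.src d) ((delPl h).toMap.tgt d) := ⟨d, rfl, rfl⟩
  obtain ⟨hs, ht, -, z, hz1, hz2⟩ := (pvg_w_adj_iff h _ _).1 hadj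
  have h2 : z ∈ pvgK N g (r + 5 * μ + 2 * μ) :=
    pvg_cell_sub ch hm hμ (r := r + 5 * μ) (by linarith) (v := ((delPl h).toMap.src d : ℂ)) ⟨hs, _, vor_self_mem Y _, h1⟩ hz1
  have hzR : z ∈ pvgK N g R1 := ⟨h2.1, h2.2.trans (by linarith)⟩
  have h3 := (hm _ hs z hz1 hzR).2
  have h4 := (hm _ ht z hz2 hzR).2
  have h5 : ‖g ((delPl h).toMap.tgt d : ℂ) - g ((delPl h).toMap.src d : ℂ)‖ ≤ ‖g ((delPl h).toMap.tgt d : ℂ) - g z‖ + ‖g ((delPl h).toMap.src d : ℂ) - g z‖ := by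
    have := norm_sub_le (g ((delPl h).toMap.tgt d : ℂ) - g z) (g ((delPl h).toMap.src d : ℂ) - g z)
    rwa [sub_sub_sub_cancel_right] at this
  linarith

/-- DENSE (free leaf): every point of `K(R1)` is close to an interior vertex.      `‖g z‖ ≤ r`: the site of a cell which contains `z` is in `vorMeet Y (K r)`, so interior (`hc.int`), mesh.      Else first move to the point `z'` with `g z' = r g z / ‖g z‖` (`ch.surj`). -/
theorem pvg_dense {N : Set ℂ} {g : ℂ → ℂ} {R1 r μ : ℝ} {Y : Set ℂ} {h : DelGood Y} (ch : PvgCh N g R1) (hm : PvgMesh N g R1 μ Y) (hμ : 0 < μ) (hr0 : 0 ≤ r) (hr : r ≤ R1)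
    {c : (delPl h).toMap.Cyc} (hc : PvgRim h (pvgK N g r) c) :
    ∀ z ∈ pvgK N g R1, ∃ v ∈ (delPl h).toMap.Int c.Left, ‖g (v : ℂ) - g z‖ ≤ μ + max 0 (‖g z‖ - r) := by
  have key : ∀ z' ∈ pvgK N g r, ∃ v ∈ (delPl h).toMap.Int c.Left, ‖g (v : ℂ) - g z'‖ ≤ μ := by
    intro z' hz'
    obtain ⟨b, hb, hbz⟩ := vor_cover h.lf h.ne z'
    exact ⟨⟨b, hb⟩, hc.int ⟨b, hb⟩ ⟨hb, z', hbz, hz'⟩, (hm b hb z' hbz ⟨hz'.1, hz'.2.trans hr⟩).2⟩
  intro z hz
  by_cases hzr : ‖g z‖ ≤ r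
  · obtain ⟨v, hv, h1⟩ := key z ⟨hz.1, hzr⟩
    exact ⟨v, hv, h1.trans (le_add_of_nonneg_right (le_max_left _ _))⟩
  · have hlt : r < ‖g z‖ := not_le.1 hzr
    have hpos : 0 < ‖g z‖ := lt_of_le_of_lt hr0 hlt
    have hn : ‖((r / ‖g z‖ : ℝ) : ℂ) * g z‖ = r := by
      rw [norm_mul, Complex.norm_real, Real.norm_of_nonneg (div_nonneg hr0 hpos.le), div_mul_cancel₀ _ hpos.ne']
    obtain ⟨z', hz'N, hz'⟩ := ch.surj (show ((r / ‖g z‖ : ℝ) : ℂ) * g z ∈ closedBall (0 : ℂ) R1 by rw [mem_closedBall_zero_iff, hn]; exact hr)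
    obtain ⟨v, hv, h1⟩ := key z' ⟨hz'N, by rw [hz', hn]⟩
    refine ⟨v, hv, ?_⟩
    have h2 : ‖g z' - g z‖ = ‖g z‖ - r := by
      have e : g z' - g z = ((r / ‖g z‖ - 1 : ℝ) : ℂ) * g z := by rw [hz']; push_cast; ring
      have hneg : r / ‖g z‖ - 1 ≤ 0 := by
        have := (div_le_one hpos).2 hlt.le
        linarith
      rw [e, norm_mul, Complex.norm_real, Real.norm_of_nonpos hneg]
      field_simp
      ring
    have h3 : ‖g (v : ℂ) - g z‖ ≤ ‖g (v : ℂ) - g z'‖ + ‖g z' - g z‖ := by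
      have := norm_add_le (g (v : ℂ) - g z') (g z' - g z)
      rwa [sub_add_sub_cancel] at this
    have h4 : ‖g z‖ - r ≤ max 0 (‖g z‖ - r) := le_max_right _ _
    linarith

/-! ### (D4): kit (helper9) -/

section d4kit

variable {V D : Type} {T : PvMap V D}

theorem pvg_d4_join_mono {A : Set D} {X X' : Set V} (hX : X ⊆ X') {a b : V} (h : T.Join A X a b) : T.Join A X' a b :=
  ⟨hX h.1, ReflTransGen.mono (fun _ _ hab => ⟨hab.1, hX hab.2⟩) _ _ h.2⟩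

theorem pvg_d4_join_trans {A : Set D} {X : Set V} {a b c : V} (h : T.Join A X a b) (h' : T.Join A X b c) : T.Join A X a c :=
  ⟨h.1, h.2.trans h'.2⟩

theorem pvg_d4_join_mem {A : Set D} {X : Set V} {a b : V} (h : T.Join A X a b) : b ∈ X := by
  obtain ⟨ha, hab⟩ := h
  induction hab with
  | refl => exact ha
  | tail _ hbc _ => exact hbc.2

theorem pvg_d4_edge_symm {A : Set D} {a b : V} (h : T.EdgeIn A a b) : T.EdgeIn A b a := by
  obtain ⟨d, hd, rfl, rfl⟩ := h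
  exact ⟨T.opp d, by rw [T.opp_opp]; exact hd.symm, T.src_opp' d, T.tgt_opp d⟩

theorem pvg_d4_join_symm {A : Set D} {X : Set V} {a b : V} (h : T.Join A X a b) : T.Join A X b a := by
  obtain ⟨ha, hab⟩ := h
  induction hab with
  | refl => exact ⟨ha, ReflTransGen.refl⟩
  | tail _ hbc ih => exact ⟨hbc.2, ReflTransGen.head ⟨pvg_d4_edge_symm hbc.1, ih.1⟩ ih.2⟩

end d4kit

section d4

variable {N : Set ℂ} {g : ℂ → ℂ} {R1 r μ : ℝ} {Y : Set ℂ} {h : DelGood Y}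

/-- a site whose cell meets `S` is `μ`-close (in the chart) to `S` -/
theorem pvg_d4_close (hm : PvgMesh N g R1 μ Y) {S : Set ℂ} (hS : S ⊆ pvgK N g R1) {q : ℂ} {ρ' : ℝ} (hq : ∀ z ∈ S, ‖g z - q‖ ≤ ρ') {y : ℂ} (hy : y ∈ vorMeet Y S) :
    ‖g y - q‖ ≤ ρ' + μ := by
  obtain ⟨hyY, z, hz1, hz2⟩ := hy
  have h1 := (hm y hyY z hz1 (hS hz2)).2
  have h2 := hq z hz2
  calc ‖g y - q‖ = ‖(g y - g z) + (g z - q)‖ := by ring_nf
    _ ≤ ‖g y - g z‖ + ‖g z - q‖ := norm_add_le _ _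
    _ ≤ ρ' + μ := by linarith

theorem pvg_d4_sub (q : ℂ) {t t' : ℝ} (htt : t ≤ t') : {w : ↥Y | ‖g (w : ℂ) - q‖ ≤ t} ⊆ {w : ↥Y | ‖g (w : ℂ) - q‖ ≤ t'} := fun _ hw => le_trans hw htt

/-- a neighbour of a site of `B` is `2μ`-close to it -/
theorem pvg_d4_adj (ch : PvgCh N g R1) (hm : PvgMesh N g R1 μ Y) (hμ : 0 < μ) (hr : r + 6 * μ < R1) {a b : ℂ} (hab : DelAdj Y a b) (hb : b ∈ vorMeet Y (pvgK N g r)) :
    ‖g b - g a‖ ≤ 2 * μ := by
  obtain ⟨haY, hbY, -, z, hza, hzb⟩ := hab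
  have hz' := pvg_cell_sub ch hm hμ (by linarith) hb hzb
  have hz : z ∈ pvgK N g R1 := ⟨hz'.1, hz'.2.trans (by linarith)⟩
  have h1 := (hm a haY z hza hz).2
  have h2 := (hm b hbY z hzb hz).2
  calc ‖g b - g a‖ = ‖(g b - g z) - (g a - g z)‖ := by ring_nf
    _ ≤ ‖g b - g z‖ + ‖g a - g z‖ := norm_sub_le _ _
    _ ≤ 2 * μ := by linarith

/-- the preimage of a segment of the big disc is connected -/
theorem pvg_d4_seg (ch : PvgCh N g R1) {p p' : ℂ} (hp : p ∈ closedBall (0 : ℂ) R1) (hp' : p' ∈ closedBall (0 : ℂ) R1) :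
    IsPreconnected {z | z ∈ N ∧ g z ∈ segment ℝ p p'} :=
  pvg_ch_conn ch (convex_segment p p').isPreconnected ((convex_closedBall (0 : ℂ) R1).segment_subset hp hp')

/-- walk along a chain of cells, starting at an interior vertex of the disc: we stay at interior vertices until we hit the circuit -/
theorem pvg_d4_walk {c : (delPl h).toMap.Cyc} {S : Set ℂ} {X : Set ↥Y} (hX : ∀ y : ↥Y, (y : ℂ) ∈ vorMeet Y S → y ∈ X) {u x : ↥Y}
    (hu : u ∈ (delPl h).toMap.Int c.Left) (huX : u ∈ X)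
    (hux : ReflTransGen (fun a b : ↥Y => (delPl h).toMap.Adj a b ∧ (b : ℂ) ∈ vorMeet Y S) u x) :
    ((delPl h).toMap.Join c.Left X u x ∧ x ∈ (delPl h).toMap.Int c.Left) ∨
      ∃ y ∈ c.verts, (y : ℂ) ∈ vorMeet Y S ∧ (delPl h).toMap.Join c.Left X u y := by
  induction hux with
  | refl => exact Or.inl ⟨⟨huX, ReflTransGen.refl⟩, hu⟩
  | @tail b c' _ hbc ih =>
    rcases ih with ⟨hj, hi⟩ | hy
    · obtain ⟨⟨d, hd1, hd2⟩, hcS⟩ := hbc
      have he := pl_int_edge (delp_isSph h) c (d := d) (by rw [hd1]; exact hi)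
      have hj' : (delPl h).toMap.Join c.Left X u c' := ⟨hj.1, hj.2.tail ⟨⟨d, Or.inl he.1, hd1, hd2⟩, hX _ hcS⟩⟩
      have hv : c' ∈ (delPl h).toMap.VOf c.Left := hd2 ▸ he.2.2
      rw [pl_VOf_left (delp_isSph h) c] at hv
      rcases hv with hv | hv
      · exact Or.inr ⟨_, hv, hcS, hj'⟩
      · exact Or.inl ⟨hj', hv⟩
    · exact Or.inr hy

/-- from a vertex of the circuit one step to `B` -/
theorem pvg_d4_apex (ch : PvgCh N g R1) (hm : PvgMesh N g R1 μ Y) (hμ : 0 < μ) (hr : r + 6 * μ < R1) {c : (delPl h).toMap.Cyc} (hc : PvgRim h (pvgK N g r) c)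
    {y : ↥Y} (hy : y ∈ c.verts) :
    ∃ b : ↥Y, (b : ℂ) ∈ vorMeet Y (pvgK N g r) ∧ (delPl h).toMap.EdgeIn c.Left y b ∧ ‖g (b : ℂ) - g (y : ℂ)‖ ≤ 2 * μ := by
  obtain ⟨i, rfl⟩ := hy
  have hA := pl_left_face c
  have he : c.e i ∈ c.Left := (pl_jordan (delp_isSph h) c).2.1 i
  have h1 : (delPl h).toMap.src ((delPl h).toMap.opp ((delPl h).toMap.nxt ((delPl h).toMap.nxt (c.e i)))) = (delPl h).toMap.src (c.e i) := by
    rw [(delPl h).toMap.src_opp', (delPl h).toMap.tgt_nxt2]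
  have h2 : (delPl h).toMap.tgt ((delPl h).toMap.opp ((delPl h).toMap.nxt ((delPl h).toMap.nxt (c.e i)))) = (delPl h).toMap.apex (c.e i) := by
    rw [(delPl h).toMap.tgt_opp]; rfl
  refine ⟨(delPl h).toMap.apex (c.e i), (hc.rim i).2, ⟨_, Or.inr ?_, h1, h2⟩, ?_⟩
  · rw [(delPl h).toMap.opp_opp]
    exact (hA _).2 ((hA _).2 he)
  · exact pvg_d4_adj ch hm hμ hr ((pvg_w_adj_iff h _ _).1 ⟨_, h1, h2⟩) (hc.rim i).2

/-- DESCENT: every vertex of the closed disc is joined to `B` inside the closed disc, within `8μ` -/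
theorem pvg_d4_down (ch : PvgCh N g R1) (hm : PvgMesh N g R1 μ Y) (hμ : 0 < μ) (hr0 : 0 ≤ r) (hr : r + 6 * μ < R1) {c : (delPl h).toMap.Cyc} (hc : PvgRim h (pvgK N g r) c)
    (u : ↥Y) (hu : u ∈ (delPl h).toMap.VOf c.Left) :
    ∃ b : ↥Y, (b : ℂ) ∈ vorMeet Y (pvgK N g r) ∧ (delPl h).toMap.Join c.Left {w : ↥Y | ‖g (w : ℂ) - g (u : ℂ)‖ ≤ 8 * μ} u b := by
  have hu0 : ∀ t : ℝ, 0 ≤ t → u ∈ {w : ↥Y | ‖g (w : ℂ) - g (u : ℂ)‖ ≤ t} := fun t ht => by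
    show ‖g (u : ℂ) - g (u : ℂ)‖ ≤ t
    rw [sub_self, norm_zero]; exact ht
  -- from a circuit vertex within `6μ`
  have hstep : ∀ y ∈ c.verts, (delPl h).toMap.Join c.Left {w : ↥Y | ‖g (w : ℂ) - g (u : ℂ)‖ ≤ 6 * μ} u y →
      ∃ b : ↥Y, (b : ℂ) ∈ vorMeet Y (pvgK N g r) ∧ (delPl h).toMap.Join c.Left {w : ↥Y | ‖g (w : ℂ) - g (u : ℂ)‖ ≤ 8 * μ} u b := by
    intro y hy hj
    obtain ⟨b, hb, hyb, hd⟩ := pvg_d4_apex ch hm hμ hr hc hy
    have hy6' : y ∈ {w : ↥Y | ‖g (w : ℂ) - g (u : ℂ)‖ ≤ 6 * μ} := pvg_d4_join_mem hj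
    have hy6 : ‖g (y : ℂ) - g (u : ℂ)‖ ≤ 6 * μ := hy6'
    have hj8 : (delPl h).toMap.Join c.Left {w : ↥Y | ‖g (w : ℂ) - g (u : ℂ)‖ ≤ 8 * μ} u y :=
      pvg_d4_join_mono (pvg_d4_sub _ (by linarith)) hj
    refine ⟨b, hb, hj8.1, hj8.2.tail ⟨hyb, ?_⟩⟩
    show ‖g (b : ℂ) - g (u : ℂ)‖ ≤ 8 * μ
    calc ‖g (b : ℂ) - g (u : ℂ)‖ = ‖(g (b : ℂ) - g (y : ℂ)) + (g (y : ℂ) - g (u : ℂ))‖ := by ring_nf
      _ ≤ ‖g (b : ℂ) - g (y : ℂ)‖ + ‖g (y : ℂ) - g (u : ℂ)‖ := norm_add_le _ _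
      _ ≤ 8 * μ := by linarith
  have hu' := hu
  rw [pl_VOf_left (delp_isSph h) c] at hu'
  rcases hu' with hv | hi
  · exact hstep u hv ⟨hu0 _ (by positivity), ReflTransGen.refl⟩
  by_cases hB : (u : ℂ) ∈ vorMeet Y (pvgK N g r)
  · exact ⟨u, hB, hu0 _ (by positivity), ReflTransGen.refl⟩
  have huK := pvg_outer ch hm hμ hr0 hr hc u hu
  have hgu : r < ‖g (u : ℂ)‖ := by
    by_contra hcon
    exact hB ⟨u.2, u, vor_self_mem Y u, huK.1, not_lt.1 hcon⟩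
  have hgu0 : 0 < ‖g (u : ℂ)‖ := lt_of_le_of_lt hr0 hgu
  set p' : ℂ := ((r / ‖g (u : ℂ)‖ : ℝ) : ℂ) * g (u : ℂ) with hp'
  have hp'n : ‖p'‖ = r := by
    rw [hp', norm_mul, Complex.norm_real, Real.norm_of_nonneg (by positivity)]
    field_simp
  have hp'd : ‖p' - g (u : ℂ)‖ ≤ 5 * μ := by
    have e : p' - g (u : ℂ) = ((r / ‖g (u : ℂ)‖ - 1 : ℝ) : ℂ) * g (u : ℂ) := by rw [hp']; push_cast; ring
    rw [e, norm_mul, Complex.norm_real, Real.norm_eq_abs]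
    have h1 : r / ‖g (u : ℂ)‖ - 1 ≤ 0 := by
      rw [sub_nonpos, div_le_one hgu0]; exact hgu.le
    rw [abs_of_nonpos h1]
    have h2 : -(r / ‖g (u : ℂ)‖ - 1) * ‖g (u : ℂ)‖ = ‖g (u : ℂ)‖ - r := by field_simp; ring
    rw [h2]
    have := huK.2
    linarith
  have hguR : g (u : ℂ) ∈ closedBall (0 : ℂ) R1 := by
    rw [mem_closedBall_zero_iff]; have := huK.2; linarith
  have hp'R : p' ∈ closedBall (0 : ℂ) R1 := by
    rw [mem_closedBall_zero_iff, hp'n]; linarith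
  set S : Set ℂ := {z | z ∈ N ∧ g z ∈ segment ℝ (g (u : ℂ)) p'} with hS
  have hSpre : IsPreconnected S := pvg_d4_seg ch hguR hp'R
  have hSK : S ⊆ pvgK N g R1 := fun z hz =>
    ⟨hz.1, mem_closedBall_zero_iff.1 ((convex_closedBall (0 : ℂ) R1).segment_subset hguR hp'R hz.2)⟩
  have hSq : ∀ z ∈ S, ‖g z - g (u : ℂ)‖ ≤ 5 * μ := fun z hz => by
    have := (convex_closedBall (g (u : ℂ)) (5 * μ)).segment_subset (mem_closedBall_self (by positivity))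
      (by rw [mem_closedBall, dist_eq_norm]; exact hp'd) hz.2
    rwa [mem_closedBall, dist_eq_norm] at this
  obtain ⟨p, hpN, hgp⟩ := ch.surj hp'R
  obtain ⟨b0, hb0Y, hpb0⟩ := vor_cover h.lf h.ne p
  have hpS : p ∈ S := ⟨hpN, by rw [hgp]; exact right_mem_segment ℝ _ _⟩
  have huS : (u : ℂ) ∈ vorMeet Y S := ⟨u.2, u, vor_self_mem Y u, huK.1, left_mem_segment ℝ _ _⟩
  have hb0S : b0 ∈ vorMeet Y S := ⟨hb0Y, p, hpb0, hpS⟩
  have hb0B : b0 ∈ vorMeet Y (pvgK N g r) := ⟨hb0Y, p, hpb0, hpN, by rw [hgp, hp'n]⟩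
  obtain ⟨hb, hchain⟩ := pvg_w_lift_chain h u.2 (del_win_conn h.lf hSpre huS hb0S)
  have hX : ∀ y : ↥Y, (y : ℂ) ∈ vorMeet Y S → y ∈ {w : ↥Y | ‖g (w : ℂ) - g (u : ℂ)‖ ≤ 6 * μ} := fun y hy => by
    have := pvg_d4_close hm hSK hSq hy
    show ‖g (y : ℂ) - g (u : ℂ)‖ ≤ 6 * μ
    linarith
  rcases pvg_d4_walk (c := c) hX hi (hu0 _ (by positivity)) hchain with ⟨hj, -⟩ | ⟨y, hy, -, hj⟩
  · exact ⟨⟨b0, hb⟩, hb0B, pvg_d4_join_mono (pvg_d4_sub _ (by linarith)) hj⟩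
  · exact hstep y hy hj

/-- INSIDE `B`: along the preimage of a chord -/
theorem pvg_d4_chord (ch : PvgCh N g R1) (hm : PvgMesh N g R1 μ Y) (hμ : 0 < μ) (hr : r + 6 * μ < R1) {c : (delPl h).toMap.Cyc} (hc : PvgRim h (pvgK N g r) c)
    {b1 b2 : ↥Y} {k1 k2 : ℂ} (h1 : k1 ∈ vorCell Y b1) (h1K : k1 ∈ pvgK N g r) (h2 : k2 ∈ vorCell Y b2) (h2K : k2 ∈ pvgK N g r)
    (q : ℂ) (ρ' : ℝ) (hq1 : ‖g k1 - q‖ ≤ ρ') (hq2 : ‖g k2 - q‖ ≤ ρ') :
    (delPl h).toMap.Join c.Left {w : ↥Y | ‖g (w : ℂ) - q‖ ≤ ρ' + μ} b1 b2 := by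
  have hk1 : g k1 ∈ closedBall (0 : ℂ) r := mem_closedBall_zero_iff.2 h1K.2
  have hk2 : g k2 ∈ closedBall (0 : ℂ) r := mem_closedBall_zero_iff.2 h2K.2
  have hrR : closedBall (0 : ℂ) r ⊆ closedBall (0 : ℂ) R1 := closedBall_subset_closedBall (by linarith)
  set S : Set ℂ := {z | z ∈ N ∧ g z ∈ segment ℝ (g k1) (g k2)} with hS
  have hSpre : IsPreconnected S := pvg_d4_seg ch (hrR hk1) (hrR hk2)
  have hSr : S ⊆ pvgK N g r := fun z hz => ⟨hz.1, mem_closedBall_zero_iff.1 ((convex_closedBall (0 : ℂ) r).segment_subset hk1 hk2 hz.2)⟩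
  have hSK : S ⊆ pvgK N g R1 := fun z hz => ⟨hz.1, (hSr hz).2.trans (by linarith)⟩
  have hSq : ∀ z ∈ S, ‖g z - q‖ ≤ ρ' := fun z hz => by
    have := (convex_closedBall q ρ').segment_subset (by rw [mem_closedBall, dist_eq_norm]; exact hq1)
      (by rw [mem_closedBall, dist_eq_norm]; exact hq2) hz.2
    rwa [mem_closedBall, dist_eq_norm] at this
  have hb1S : (b1 : ℂ) ∈ vorMeet Y S := ⟨b1.2, k1, h1, h1K.1, left_mem_segment ℝ _ _⟩
  have hb2S : (b2 : ℂ) ∈ vorMeet Y S := ⟨b2.2, k2, h2, h2K.1, right_mem_segment ℝ _ _⟩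
  have hSB : ∀ y : ℂ, y ∈ vorMeet Y S → y ∈ vorMeet Y (pvgK N g r) := fun y hy => ⟨hy.1, hy.2.mono (inter_subset_inter_right _ hSr)⟩
  obtain ⟨hb, hchain⟩ := pvg_w_lift_chain h b1.2 (del_win_conn h.lf hSpre hb1S hb2S)
  have hX : ∀ y : ↥Y, (y : ℂ) ∈ vorMeet Y S → y ∈ {w : ↥Y | ‖g (w : ℂ) - q‖ ≤ ρ' + μ} := fun y hy => pvg_d4_close hm hSK hSq hy
  rcases pvg_d4_walk (c := c) hX (hc.int b1 (hSB _ hb1S)) (hX b1 hb1S) hchain with ⟨hj, -⟩ | ⟨y, ⟨i, rfl⟩, hyS, -⟩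
  · exact hj
  · exact absurd (hSB _ hyS) (hc.rim i).1

end d4

/-- **(D4)** short connections inside the closed disc.      Plan: to `B` along the inward radial curve (stop at the circuit if it is met, step to the apex); inside `B`: the cells which meet the preimage of a chord of `closedBall 0 r`. -/
theorem pvg_d4 {N : Set ℂ} {g : ℂ → ℂ} {R1 r μ : ℝ} {Y : Set ℂ} {h : DelGood Y} (ch : PvgCh N g R1) (hm : PvgMesh N g R1 μ Y) (hμ : 0 < μ) (hr0 : 0 ≤ r) (hr : r + 6 * μ < R1)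
    {c : (delPl h).toMap.Cyc} (hc : PvgRim h (pvgK N g r) c) :
    ∀ u ∈ (delPl h).toMap.VOf c.Left, ∀ v ∈ (delPl h).toMap.VOf c.Left, ∀ s : ℝ, ‖g (u : ℂ) - g (v : ℂ)‖ ≤ s →
      (delPl h).toMap.Join c.Left {w | ‖g (w : ℂ) - g (u : ℂ)‖ ≤ s + 30 * μ} u v := by
  intro u hu v hv s hs
  have hs0 : 0 ≤ s := (norm_nonneg _).trans hs
  obtain ⟨bu, hbu, hju⟩ := pvg_d4_down ch hm hμ hr0 hr hc u hu
  obtain ⟨bv, hbv, hjv⟩ := pvg_d4_down ch hm hμ hr0 hr hc v hv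
  obtain ⟨-, ku, hku1, hku2⟩ := hbu
  obtain ⟨-, kv, hkv1, hkv2⟩ := hbv
  have hKR : ∀ z, z ∈ pvgK N g r → z ∈ pvgK N g R1 := fun z hz => ⟨hz.1, hz.2.trans (by linarith)⟩
  have e1' : bu ∈ {w : ↥Y | ‖g (w : ℂ) - g (u : ℂ)‖ ≤ 8 * μ} := pvg_d4_join_mem hju
  have e2' : bv ∈ {w : ↥Y | ‖g (w : ℂ) - g (v : ℂ)‖ ≤ 8 * μ} := pvg_d4_join_mem hjv
  have e1 : ‖g (bu : ℂ) - g (u : ℂ)‖ ≤ 8 * μ := e1'
  have e2 : ‖g (bv : ℂ) - g (v : ℂ)‖ ≤ 8 * μ := e2'
  have e3 := (hm bu bu.2 ku hku1 (hKR _ hku2)).2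
  have e4 := (hm bv bv.2 kv hkv1 (hKR _ hkv2)).2
  have q1 : ‖g ku - g (u : ℂ)‖ ≤ s + 9 * μ := by
    calc ‖g ku - g (u : ℂ)‖ = ‖(g (bu : ℂ) - g (u : ℂ)) - (g (bu : ℂ) - g ku)‖ := by ring_nf
      _ ≤ ‖g (bu : ℂ) - g (u : ℂ)‖ + ‖g (bu : ℂ) - g ku‖ := norm_sub_le _ _
      _ ≤ s + 9 * μ := by linarith
  have q2 : ‖g kv - g (u : ℂ)‖ ≤ s + 9 * μ := by
    calc ‖g kv - g (u : ℂ)‖ = ‖((g (bv : ℂ) - g (v : ℂ)) - (g (bv : ℂ) - g kv)) - (g (u : ℂ) - g (v : ℂ))‖ := by ring_nf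
      _ ≤ ‖(g (bv : ℂ) - g (v : ℂ)) - (g (bv : ℂ) - g kv)‖ + ‖g (u : ℂ) - g (v : ℂ)‖ := norm_sub_le _ _
      _ ≤ (‖g (bv : ℂ) - g (v : ℂ)‖ + ‖g (bv : ℂ) - g kv‖) + ‖g (u : ℂ) - g (v : ℂ)‖ := by gcongr; exact norm_sub_le _ _
      _ ≤ s + 9 * μ := by linarith
  have hmid := pvg_d4_chord ch hm hμ hr hc hku1 hku2 hkv1 hkv2 (g (u : ℂ)) (s + 9 * μ) q1 q2
  have j1 : (delPl h).toMap.Join c.Left {w : ↥Y | ‖g (w : ℂ) - g (u : ℂ)‖ ≤ s + 30 * μ} u bu :=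
    pvg_d4_join_mono (pvg_d4_sub _ (by linarith)) hju
  have j2 : (delPl h).toMap.Join c.Left {w : ↥Y | ‖g (w : ℂ) - g (u : ℂ)‖ ≤ s + 30 * μ} bu bv :=
    pvg_d4_join_mono (pvg_d4_sub _ (by linarith)) hmid
  have j3 : (delPl h).toMap.Join c.Left {w : ↥Y | ‖g (w : ℂ) - g (u : ℂ)‖ ≤ s + 30 * μ} bv v :=
    pvg_d4_join_symm (pvg_d4_join_mono (X := {w : ↥Y | ‖g (w : ℂ) - g (v : ℂ)‖ ≤ 8 * μ}) (fun w hw' => by
      have hw : ‖g (w : ℂ) - g (v : ℂ)‖ ≤ 8 * μ := hw'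
      show ‖g (w : ℂ) - g (u : ℂ)‖ ≤ s + 30 * μ
      calc ‖g (w : ℂ) - g (u : ℂ)‖ = ‖(g (w : ℂ) - g (v : ℂ)) - (g (u : ℂ) - g (v : ℂ))‖ := by ring_nf
        _ ≤ ‖g (w : ℂ) - g (v : ℂ)‖ + ‖g (u : ℂ) - g (v : ℂ)‖ := norm_sub_le _ _
        _ ≤ s + 30 * μ := by linarith) hjv)
  exact pvg_d4_join_trans (pvg_d4_join_trans j1 j2) j3

/-! ## 5. EXISTENCE OF THE DISC (compiled glue) -/

theorem pvg_K_mono {N : Set ℂ} {g : ℂ → ℂ} {r r' : ℝ} (h : r ≤ r') : pvgK N g r ⊆ pvgK N g r' := fun _ hz => ⟨hz.1, hz.2.trans h⟩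

theorem pvg_E_norm (t : ℝ) : ‖pvgE t‖ = 1 := by
  unfold pvgE; exact Complex.norm_exp_ofReal_mul_I t

/-- the outer circuit exists (helper297) -/
theorem pvg_rim_exists {N : Set ℂ} {g : ℂ → ℂ} {R1 r : ℝ} (ch : PvgCh N g R1) (hr0 : 0 ≤ r) (hr : r ≤ R1) {Y : Set ℂ} (h : DelGood Y) :
    ∃ c : (delPl h).toMap.Cyc, PvgRim h (pvgK N g r) c := by
  have hc : IsPreconnected (pvgK N g r) := by
    have := pvg_ch_conn ch (S := closedBall 0 r) (convex_closedBall _ _).isPreconnected (closedBall_subset_closedBall hr)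
    have e : {z | z ∈ N ∧ g z ∈ closedBall (0 : ℂ) r} = pvgK N g r := by
      ext z; simp [pvgK]
    rwa [e] at this
  have hne : (pvgK N g r).Nonempty := by
    obtain ⟨z, hz, hgz⟩ := ch.surj (mem_closedBall_self (by linarith [ch.one_lt]) : (0 : ℂ) ∈ closedBall (0 : ℂ) R1)
    exact ⟨z, hz, by rw [hgz, norm_zero]; exact hr0⟩
  obtain ⟨c, h1, h2, h3⟩ := pvg_w_del_cyc' h (pvg_ch_compact ch hr).isBounded hc hne
  exact ⟨c, h1, h2, h3⟩

end Claimed.Agent.R289
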