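-- KEEP
import Claimed.Agent.R289.Brg.Base
import Claimed.Agent.R289.Del.Ord
import Claimed.Agent.R289.Del.OrdGeo

/-!
# Row 289 (S0537), box BRIDGE, file Brg/Ord : THE LEAF `pvg_ord` (owner helper253, box DEL-ORD)      imports `Brg/Base` (records, CH, LOC, D4), `Del/Ord` (253), `Del/OrdGeo` (120), `Del/OrdCut` (19), `Del/OrdArg` (135); imported by `Brg/Defs` (glue)
-/

set_option autoImplicit false

namespace Claimed.Agent.R289

open Set Metric Relation Filter Topology MeasureTheory Claims.C0465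

/-- **T1 of ORD**: for fine mesh in the chart the image of the outer circuit does not turn negatively round `0` -/
theorem pvgo_turn {N : Set ℂ} {g : ℂ → ℂ} {R1 : ℝ} (ch : PvgCh N g R1) {r : ℝ} (hr : 1 / 2 ≤ r) (hr1 : r ≤ 1) :
    ∃ μ1 > 0, ∀ μ : ℝ, 0 < μ → μ ≤ μ1 → ∀ (Y : Set ℂ) (h : DelGood Y), PvgMesh N g R1 μ Y → ∀ c : (delPl h).toMap.Cyc, PvgRim h (pvgK N g r) c →
      0 ≤ ∑ i ∈ Finset.range c.n, (g ((delPl h).toMap.src (c.e (i + 1)) : ℂ) / g ((delPl h).toMap.src (c.e i) : ℂ)).arg := by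
  have hR := ch.one_lt
  obtain ⟨L, -, hL, -, -, hlip⟩ := pvg_ch_lip ch
  obtain ⟨z0, hz0, hgz0⟩ := ch.surj (mem_closedBall_self (by linarith) : (0 : ℂ) ∈ closedBall (0 : ℂ) R1)
  obtain ⟨μa, hμa, hOR⟩ := do_or_chart ch.opn ch.diff ch.inj (by linarith : (0 : ℝ) < R1) hL (pvg_ch_compact ch le_rfl) hlip hz0 hgz0
  refine ⟨min (μa / 2) ((R1 - 1) / 9), lt_min (by positivity) (by linarith), fun μ hμ hμ1 Y h hm c hc => ?_⟩
  have b1 : μ ≤ μa / 2 := hμ1.trans (min_le_left _ _)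
  have b2 : μ ≤ (R1 - 1) / 9 := hμ1.trans (min_le_right _ _)
  have hr0 : (0 : ℝ) ≤ r := by linarith
  have hT := delp_isSph h
  have hA := pl_left_face c
  refine hOR (2 * μ) (by linarith) _ _ (delPl h).toMap hT c Subtype.val hc.fin (delw_del_pos h _) (fun d hd => ⟨?_, ?_, ?_⟩) (fun i => ?_)
  · exact pvg_K_mono (by linarith) (pvg_outer ch hm hμ hr0 (by linarith) hc _ ⟨d, hd, rfl⟩)
  · refine pvg_K_mono (by linarith) (pvg_outer ch hm hμ hr0 (by linarith) hc _ ⟨(delPl h).toMap.nxt d, (hA d).2 hd, ?_⟩)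
    rfl
  · exact pvg_step ch hm hμ hr0 (by linarith) hc d hd
  · have := (pvg_rim_loc ch hm hμ hr0 (by linarith) hc i).1
    exact hr.trans this.2.1

section ord

variable {N : Set ℂ} {g : ℂ → ℂ} {R1 : ℝ}

theorem pvgo_E_period (t : ℝ) (q : ℤ) : pvgE (t - 2 * Real.pi * q) = pvgE t := by
  unfold pvgE
  exact dos_exp_period t q

/-- the glue of ORD at a fixed mesh -/
theorem pvgo_ord_at (ch : PvgCh N g R1) {θ : ℕ → ℝ} (hθ : PvgMk θ) {r δ μ : ℝ} (hr : 1 / 2 ≤ r) (hr1 : r ≤ 1) (hδ : 0 < δ) (hμ : 0 < μ)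
    (hμ1 : μ ≤ 1 / 600) (hμδ : 200 * μ ≤ δ) (hμR : 1 + 6 * μ < R1) (hgap : ∀ j, j < 4 → θ j + 16 * μ < θ (j + 1))
    {Y : Set ℂ} {h : DelGood Y} (hm : PvgMesh N g R1 μ Y) {c : (delPl h).toMap.Cyc} (hc : PvgRim h (pvgK N g r) c)
    (hturn : 0 ≤ ∑ i ∈ Finset.range c.n, (g ((delPl h).toMap.src (c.e (i + 1)) : ℂ) / g ((delPl h).toMap.src (c.e i) : ℂ)).arg) :
    ∃ (m : ℕ → ℕ) (th : ℕ → ℝ), (∀ j, j < 4 → m j < m (j + 1)) ∧ m 4 = m 0 + c.n ∧
        (∀ k, g ((delPl h).toMap.src (c.e k) : ℂ) = (‖g ((delPl h).toMap.src (c.e k) : ℂ)‖ : ℂ) * pvgE (th k)) ∧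
        (∀ k, th (k + c.n) = th k + 2 * Real.pi) ∧ (∀ k k', k ≤ k' → th k ≤ th k' + δ) ∧ ∀ j, j ≤ 4 → |th (m j) - θ j| ≤ δ := by
  have hπ3 := Real.pi_gt_three
  have hπ4 := Real.pi_lt_four
  have hr0 : 0 < r := by linarith
  have hrR : r + 6 * μ < R1 := by linarith
  set w : ℕ → ℂ := fun k => g ((delPl h).toMap.src (c.e k) : ℂ) with hw
  have hloc := fun k => pvg_rim_loc ch hm hμ hr0.le hrR hc k
  have hwr : ∀ k, r ≤ ‖w k‖ := fun k => (hloc k).1.2.1
  have hw0 : ∀ k, w k ≠ 0 := fun k => norm_pos_iff.1 (lt_of_lt_of_le hr0 (hwr k))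
  have hwper : ∀ k, w (k + c.n) = w k := fun k => by simp only [hw, c.per]
  set th₀ : ℕ → ℝ := dosLift w with hth₀
  have hpol : ∀ k, w k = (‖w k‖ : ℂ) * pvgE (th₀ k) := fun k => (dos_lift_polar hw0 k).symm
  obtain ⟨M, hM⟩ := dos_lift_per hw0 hwper
  -- the constants
  set η : ℝ := 16 * μ with hη
  set d : ℝ := Real.pi / 2 * (((r + 3 * μ) * η + 12 * μ) / r) with hd
  have hη0 : 0 < η := by positivity
  have hstep : ∀ k, |th₀ (k + 1) - th₀ k| ≤ η := by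
    intro k
    refine (dos_lift_step hw0 k).trans ?_
    have h1 : ‖w (k + 1) - w k‖ ≤ 2 * μ := by
      have := (hloc k).2
      rwa [c.chain k] at this
    have h2 : ‖w (k + 1) - w k‖ / ‖w k‖ ≤ 2 * μ / (1 / 2) :=
      div_le_div₀ (by positivity) h1 (by norm_num) (hr.trans (hwr k))
    have h3 : 2 * μ / (1 / 2) = 4 * μ := by ring
    rw [h3] at h2
    calc Real.pi * (‖w (k + 1) - w k‖ / ‖w k‖) ≤ Real.pi * (4 * μ) := mul_le_mul_of_nonneg_left h2 (by positivity)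
      _ ≤ η := by rw [hη]; nlinarith
  have hηd : η ≤ d := by
    rw [hd]
    have h1 : η ≤ ((r + 3 * μ) * η + 12 * μ) / r := by
      rw [le_div_iff₀ hr0]
      nlinarith
    nlinarith
  have hd_le : d ≤ 150 * μ := by
    rw [hd]
    have h1 : ((r + 3 * μ) * η + 12 * μ) / r ≤ 2 * ((r + 3 * μ) * η + 12 * μ) := by
      rw [div_le_iff₀ hr0]
      have : 0 ≤ (r + 3 * μ) * η + 12 * μ := by positivity
      nlinarith
    have h2 : (r + 3 * μ) * η + 12 * μ ≤ 29 * μ := by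
      rw [hη]
      nlinarith
    nlinarith
  have hd4 : d ≤ 1 / 4 := by linarith
  have hNH : ∀ i j, i < j → j < i + c.n → dosNear (th₀ j - th₀ i) η →
      (∀ l, i ≤ l → l ≤ j → dosNear (th₀ l - th₀ i) d) ∨ (∀ l, j ≤ l → l ≤ i + c.n → dosNear (th₀ l - th₀ i) d) :=
    fun i j _ _ hn => dog_nh_ang ch hm hμ hr0 hrR hc hpol hn
  have hdense : ∀ φ : ℝ, ∃ k, dosNear (th₀ k - φ) d := by
    intro φ
    obtain ⟨k, z, hz⟩ := dog_dense_ang ch hm hμ hr0 hrR hc hpol φ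
    refine ⟨k, z, hz.trans ?_⟩
    rw [hd]
    refine mul_le_mul_of_nonneg_left ?_ (by positivity)
    refine div_le_div_of_nonneg_right ?_ hr0.le
    have : 0 ≤ (r + 3 * μ) * η := by positivity
    linarith
  have hn := pl_cyc_pos c
  have hsum := dos_lift_sum w c.n
  have hM0 : 0 ≤ M := by
    have h1 := hM 0
    rw [zero_add] at h1
    have h2 : 0 ≤ 2 * Real.pi * (M : ℝ) := by
      have : dosLift w c.n = dosLift w 0 + 2 * Real.pi * M := h1
      linarith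
    have h3 : (0 : ℝ) ≤ M := by
      by_contra hh
      rw [not_le] at hh
      nlinarith
    exact_mod_cast h3
  rcases dos_main hn hη0 hηd hd4 hM hstep hNH hdense with ⟨rfl, hmono⟩ | ⟨rfl, -⟩
  · have hper1 : ∀ k, th₀ (k + c.n) = th₀ k + 2 * Real.pi := fun k => by
      have := hM k
      push_cast at this
      rw [mul_one] at this
      exact this
    obtain ⟨m, q, m1, m2, m3, -⟩ := dos_marks hn hη0.le (by positivity : 0 ≤ d + η) hper1 hstep hmono (θ := θ) hgap hθ.per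
    refine ⟨m, fun k => th₀ k - 2 * Real.pi * q, m1, m2, ?_, ?_, ?_, ?_⟩
    · intro k
      rw [pvgo_E_period]
      exact hpol k
    · intro k
      simp only [hper1 k]
      ring
    · intro k k' hkk
      have := hmono k k' hkk
      have h2 : d + η ≤ δ := by rw [hη]; linarith
      have h3 : th₀ k ≤ th₀ k' + (d + η) := this
      linarith
    · intro j hj
      obtain ⟨a, b⟩ := m3 j hj
      rw [abs_le]
      constructor
      · linarith
      · rw [hη] at b; linarith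
  · exfalso; omega

/-- the minimal gap of four marks -/
theorem pvgo_gap {θ : ℕ → ℝ} (hθ : PvgMk θ) : ∃ γ > 0, ∀ j, j < 4 → θ j + γ ≤ θ (j + 1) := by
  refine ⟨min (min (θ 1 - θ 0) (θ 2 - θ 1)) (min (θ 3 - θ 2) (θ 4 - θ 3)), ?_, ?_⟩
  · have h0 := hθ.lt 0 (by norm_num)
    have h1 := hθ.lt 1 (by norm_num)
    have h2 := hθ.lt 2 (by norm_num)
    have h3 := hθ.lt 3 (by norm_num)
    norm_num at h0 h1 h2 h3
    refine lt_min (lt_min ?_ ?_) (lt_min ?_ ?_) <;> linarith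
  · intro j hj
    have a0 : min (min (θ 1 - θ 0) (θ 2 - θ 1)) (min (θ 3 - θ 2) (θ 4 - θ 3)) ≤ θ 1 - θ 0 := (min_le_left _ _).trans (min_le_left _ _)
    have a1 : min (min (θ 1 - θ 0) (θ 2 - θ 1)) (min (θ 3 - θ 2) (θ 4 - θ 3)) ≤ θ 2 - θ 1 := (min_le_left _ _).trans (min_le_right _ _)
    have a2 : min (min (θ 1 - θ 0) (θ 2 - θ 1)) (min (θ 3 - θ 2) (θ 4 - θ 3)) ≤ θ 3 - θ 2 := (min_le_right _ _).trans (min_le_left _ _)
    have a3 : min (min (θ 1 - θ 0) (θ 2 - θ 1)) (min (θ 3 - θ 2) (θ 4 - θ 3)) ≤ θ 4 - θ 3 := (min_le_right _ _).trans (min_le_right _ _)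
    interval_cases j
    · linarith
    · linarith
    · linarith
    · linarith

end ord

/-- **ORD** (v2, 09:40Z: the exit form of helper111 / helper253): no macroscopic zigzag + orientation.      For fine mesh the outer circuit of `K(r)`, `1/2 ≤ r ≤ 1`, has LIFTED ANGLES `th` (exact lifts of `arg g`), which make ONE POSITIVE TURN,
are QUASI-MONOTONE with error `δ`, and four marks, met in the positive order, at the angles `θ j` up to `δ`.      (The arcs and marks of the record follow: compiled glue `pvg_disc_exists`.)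
Design (ruling 1 of 188, cut of 253): (L) lifts `dos_lift`, (NH) no hairpin `doc_nh_nbr` / `pl_nh` + geometry of 120, (DENSE) `pvg_near`, 1-D lemma `dos_main`, orientation `doa_main(_eq)`, marks `dos_marks`. -/
theorem pvg_ord {N : Set ℂ} {g : ℂ → ℂ} {R1 : ℝ} (ch : PvgCh N g R1) {θ : ℕ → ℝ} (hθ : PvgMk θ) {r δ : ℝ} (hr : 1 / 2 ≤ r) (hr1 : r ≤ 1) (hδ : 0 < δ) :
    ∃ μ0 > 0, ∀ μ : ℝ, 0 < μ → μ ≤ μ0 → ∀ (Y : Set ℂ) (h : DelGood Y), PvgMesh N g R1 μ Y → ∀ c : (delPl h).toMap.Cyc, PvgRim h (pvgK N g r) c →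
      ∃ (m : ℕ → ℕ) (th : ℕ → ℝ), (∀ j, j < 4 → m j < m (j + 1)) ∧ m 4 = m 0 + c.n ∧
        (∀ k, g ((delPl h).toMap.src (c.e k) : ℂ) = (‖g ((delPl h).toMap.src (c.e k) : ℂ)‖ : ℂ) * pvgE (th k)) ∧
        (∀ k, th (k + c.n) = th k + 2 * Real.pi) ∧ (∀ k k', k ≤ k' → th k ≤ th k' + δ) ∧ ∀ j, j ≤ 4 → |th (m j) - θ j| ≤ δ := by
  obtain ⟨μ1, hμ1, hturn⟩ := pvgo_turn ch hr hr1
  obtain ⟨γ, hγ, hgap⟩ := pvgo_gap hθ
  have hR := ch.one_lt
  refine ⟨min (min μ1 (1 / 600)) (min (δ / 200) (min ((R1 - 1) / 7) (γ / 17))), ?_, ?_⟩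
  · refine lt_min (lt_min hμ1 (by norm_num)) (lt_min (by positivity) (lt_min ?_ (by positivity)))
    have : 0 < R1 - 1 := by linarith
    positivity
  · intro μ hμ hμ0 Y h hm c hc
    have b1 : μ ≤ μ1 := hμ0.trans ((min_le_left _ _).trans (min_le_left _ _))
    have b2 : μ ≤ 1 / 600 := hμ0.trans ((min_le_left _ _).trans (min_le_right _ _))
    have b3 : μ ≤ δ / 200 := hμ0.trans ((min_le_right _ _).trans (min_le_left _ _))
    have b4 : μ ≤ (R1 - 1) / 7 := hμ0.trans ((min_le_right _ _).trans ((min_le_right _ _).trans (min_le_left _ _)))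
    have b5 : μ ≤ γ / 17 := hμ0.trans ((min_le_right _ _).trans ((min_le_right _ _).trans (min_le_right _ _)))
    refine pvgo_ord_at ch hθ hr hr1 hδ hμ b2 (by linarith) (by linarith) ?_ hm hc (hturn μ hμ b1 Y h hm c hc)
    intro j hj
    have := hgap j hj
    linarith

end Claimed.Agent.R289
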