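-- KEEP
import Claimed.Agent.R289.Brg.Win
import Claimed.Agent.R289.Del.Seam
import Claimed.Agent.R289.Mesh.Net

/-!
# Row 289 (S0537), box BRIDGE (head helper188, ruling 1), file Brg/Prob : PROB + LOCALITY OF THE DISC      (owner helper297; prefix `pvgl_`, records `PvglGood`, `PvglCirc`)

PROB.      `PvglGood Y K ρ z0` = `DelGood Y` + `VorDense Y K ρ` + `z0 ∉ Y` (the deterministic good event of the bridge).      For bounded `K`, `ρ > 0`: its complement has (outer) probability `→ 0` as `ε ↓ 0`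
under `pvLaw ε` (samples), `pvP ε` (configurations), `pvGeo ε` (labelled geometries, quenched vocabulary of `PppQ`);  measurable cores `pvgl_core_law`, `pvgl_core_geo`;  sequence forms.
Inputs: `dls_ae`, `dls_ae_conf`, `dls_ae_geo` (271 / 256 / 120), `delgd_ne_ae` (256), `pvmGood`, `pvm_net_bdd`, `pvm_good_tendsto` (127), `pv_isPpp` (267).

LOCALITY.  `PvglCirc h K0 c` = `c` is an OUTER CIRCUIT of the window `K0` (finite left side, the sites whose cell meets `K0` are interior, rim darts have their ends off and their apex in that set).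
* `pvgl_circ_exists` (= `pvg_w_del_cyc'`), `pvgl_circ_star`, `pvgl_circ_right` (`c.Right` = a class of dual connectivity off the boundary of the star), **`pvgl_circ_unique`** (`c.Left` does not depend on `c`)
* **`pvgl_circ_loc`** : `K0 ⊆ closedBall 0 r`, `Y` `ρ`-dense on `closedBall 0 (r + 5 ρ)`  ⟹  all vertices of `c.Left` lie in `closedBall 0 (r + 4 ρ)`
* `PvglAgree Y Y' E ρ` (`Y ∩ E = Y' ∩ E`, mesh `ρ` read in `E`), `PvglEq h h' d d'` (same raw dart), `pvgl_eq_exists`, **`pvgl_circ_transport`**, **`pvgl_left_reads`** : two good site sets which agree on `E ⊇ closedBall 0 (r + 8 ρ)` have THE SAME disc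
  (`pvglRaw h c.Left = pvglRaw h' c'.Left`, sets of raw darts `ℂ × ℂ`), `pvgl_raw_loc`.      0 sorry.
-/

set_option autoImplicit false

namespace Claimed.Agent.R289

open MeasureTheory ProbabilityTheory Set Metric Filter Topology Relation Claims.C0465
open scoped ENNReal

/-! ## 1. PROB -/

/-- **the deterministic good event of the bridge** -/
structure PvglGood (Y K : Set ℂ) (ρ : ℝ) (z0 : ℂ) : Prop where
  good : DelGood Y
  dense : VorDense Y K ρ
  off : z0 ∉ Y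

theorem PvglGood.mono {Y K K' : Set ℂ} {ρ ρ' : ℝ} {z0 : ℂ} (h : PvglGood Y K ρ z0) (hK : K' ⊆ K) (hρ : ρ ≤ ρ') : PvglGood Y K' ρ' z0 :=
  ⟨h.good, h.dense.mono Subset.rfl hK hρ, h.off⟩

/-- the net property of MESH gives density of the sites -/
theorem pvgl_dense_of_net {ρ : ℝ} {K : Set ℂ} {η : Conf PvPt} (h : PvNet ρ K η) : VorDense (cfSites η) K ρ := fun z hz => by
  obtain ⟨p, hp, hpz⟩ := h z hz
  exact ⟨p.1, ⟨p, hp, rfl⟩, by rw [norm_sub_rev]; exact hpz.le⟩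

/-- the mesh event of 127 with all colours only sees the sites -/
theorem pvgl_good_sites {ρ L : ℝ} {w : ℂ} {η η' : Conf PvPt} (h : cfSites η = cfSites η') (hη : η ∈ pvmGood univ ρ w L) : η' ∈ pvmGood univ ρ w L := by
  unfold pvmGood pvmGrid at hη ⊢
  simp only [mem_iInter] at hη ⊢
  intro k hk
  obtain ⟨p, hp, hpQ⟩ := hη k hk
  have h1 : p.1 ∈ cfSites η' := h ▸ ⟨p, hp, rfl⟩
  obtain ⟨q, hq, hqp⟩ := h1
  exact ⟨q, hq, by rw [mem_prod]; exact ⟨hqp ▸ hpQ.1, mem_univ _⟩⟩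

/-- **deterministic step**: off two null events and the bad mesh event the configuration is good -/
theorem pvgl_good_of {K : Set ℂ} {ρ L : ℝ} {z0 : ℂ} (hL : ∀ η ∈ pvmGood univ ρ 0 L, PvNetC univ ρ K η) {η : Conf PvPt} (h1 : CfOK η) (h2 : z0 ∉ cfSites η)
    (h3 : η ∈ pvmGood univ ρ 0 L) : PvglGood (cfSites η) K ρ z0 :=
  ⟨h1.del, pvgl_dense_of_net (pvm_net_of_netC (hL η h3)), h2⟩

/-- bound under `pvP ε` -/
theorem pvgl_bad_conf_le {K : Set ℂ} {ρ L : ℝ} (z0 : ℂ) (hL : ∀ η ∈ pvmGood univ ρ 0 L, PvNetC univ ρ K η) {ε : ℝ} (hε : 0 < ε) :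
    pvP ε {η | ¬ PvglGood (cfSites η) K ρ z0} ≤ pvP ε (pvmGood univ ρ 0 L)ᶜ := by
  refine measure_mono_ae ?_
  filter_upwards [dls_ae_conf hε, delgd_ne_ae ε z0] with η h1 h2 h3 h4
  exact h3 (pvgl_good_of hL h1 h2 h4)

/-- **PROB, configurations** -/
theorem pvgl_whp_conf {K : Set ℂ} (hK : Bornology.IsBounded K) {ρ : ℝ} (hρ : 0 < ρ) (z0 : ℂ) :
    Tendsto (fun ε => pvP ε {η | ¬ PvglGood (cfSites η) K ρ z0}) (𝓝[>] 0) (𝓝 0) := by
  obtain ⟨L, hL0, -, hL⟩ := pvm_net_bdd hK hρ univ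
  have h1 := pvm_good_tendsto hρ hL0 (μ := pvP) (fun ε _ => pv_isPpp ε) (c := univ) univ_nonempty 0
  refine tendsto_of_tendsto_of_tendsto_of_le_of_le' tendsto_const_nhds h1 (Eventually.of_forall fun _ => zero_le) ?_
  filter_upwards [self_mem_nhdsWithin] with ε hε
  exact pvgl_bad_conf_le z0 hL hε

/-- outer measure of a preimage under `pvConf` -/
theorem pvgl_law_le (ε : ℝ) (A : Set (Conf PvPt)) : pvLaw ε (pvConf ⁻¹' A) ≤ pvP ε A := by
  unfold pvP
  exact Measure.le_map_apply measurable_pvConf.aemeasurable A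

/-- **PROB, samples** -/
theorem pvgl_whp_law {K : Set ℂ} (hK : Bornology.IsBounded K) {ρ : ℝ} (hρ : 0 < ρ) (z0 : ℂ) :
    Tendsto (fun ε => pvLaw ε {ω | ¬ PvglGood (cfSites (pvConf ω)) K ρ z0}) (𝓝[>] 0) (𝓝 0) :=
  tendsto_of_tendsto_of_tendsto_of_le_of_le tendsto_const_nhds (pvgl_whp_conf hK hρ z0) (fun _ => zero_le)
    fun ε => pvgl_law_le ε {η | ¬ PvglGood (cfSites η) K ρ z0}

/-- the mesh event as an event of labelled geometries (all sites coloured black) -/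
def pvglMesh (ρ L : ℝ) : Set PvGeoT := {g | pvConf (pvMerge (g, fun _ => true)) ∈ pvmGood univ ρ 0 L}

theorem pvgl_eqns_cite : True := by
  have := @pvglMesh.eq_1
  trivial

theorem pvgl_mesh_meas (ρ L : ℝ) : MeasurableSet (pvglMesh ρ L) := by
  have h1 : Measurable fun g : PvGeoT => pvConf (pvMerge (g, fun _ => true)) :=
    measurable_pvConf.comp (measurable_pvMerge.comp (measurable_id.prodMk measurable_const))
  exact h1 (pvm_good_meas univ ρ 0 L)

theorem pvgl_mesh_iff (ρ L : ℝ) (g : PvGeoT) (c : PvColT) : g ∈ pvglMesh ρ L ↔ pvConf (pvMerge (g, c)) ∈ pvmGood univ ρ 0 L :=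
  ⟨pvgl_good_sites (by rw [pvqu_cfSites, pvqu_cfSites]), pvgl_good_sites (by rw [pvqu_cfSites, pvqu_cfSites])⟩

theorem pvgl_mesh_prob (ε ρ L : ℝ) : pvGeo ε (pvglMesh ρ L)ᶜ = pvP ε (pvmGood univ ρ 0 L)ᶜ := by
  rw [← pvqu_law_geo ε, Measure.map_apply measurable_pvGeoOf (pvgl_mesh_meas ρ L).compl]
  unfold pvP
  rw [Measure.map_apply measurable_pvConf (pvm_good_meas univ ρ 0 L).compl]
  congr 1
  ext ω
  simp only [mem_preimage, mem_compl_iff]
  rw [pvgl_mesh_iff ρ L (pvGeoOf ω) (pvColOf ω), pvqu_merge_of]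

theorem pvgl_ne_geo (ε : ℝ) (z0 : ℂ) : ∀ᵐ g ∂(pvGeo ε), z0 ∉ pvgSites g := by
  filter_upwards [pvqu_Qc_ae ε (delgd_ne_ae ε z0)] with g hg
  obtain ⟨c, hc⟩ := hg.exists
  rwa [pvqu_cfSites] at hc

/-- deterministic step, geometries -/
theorem pvgl_good_of_geo {K : Set ℂ} {ρ L : ℝ} {z0 : ℂ} (hL : ∀ η ∈ pvmGood univ ρ 0 L, PvNetC univ ρ K η) {g : PvGeoT} (h1 : DelGood (pvgSites g)) (h2 : z0 ∉ pvgSites g)
    (h3 : g ∈ pvglMesh ρ L) : PvglGood (pvgSites g) K ρ z0 := by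
  refine ⟨h1, ?_, h2⟩
  have := pvgl_dense_of_net (pvm_net_of_netC (hL _ h3))
  rwa [pvqu_cfSites] at this

theorem pvgl_bad_geo_le {K : Set ℂ} {ρ L : ℝ} (z0 : ℂ) (hL : ∀ η ∈ pvmGood univ ρ 0 L, PvNetC univ ρ K η) {ε : ℝ} (hε : 0 < ε) :
    pvGeo ε {g | ¬ PvglGood (pvgSites g) K ρ z0} ≤ pvP ε (pvmGood univ ρ 0 L)ᶜ := by
  rw [← pvgl_mesh_prob]
  refine measure_mono_ae ?_
  filter_upwards [dls_ae_geo hε, pvgl_ne_geo ε z0] with g h1 h2 h3 h4
  exact h3 (pvgl_good_of_geo hL h1 h2 h4)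

/-- **PROB, labelled geometries** (quenched vocabulary) -/
theorem pvgl_whp_geo {K : Set ℂ} (hK : Bornology.IsBounded K) {ρ : ℝ} (hρ : 0 < ρ) (z0 : ℂ) :
    Tendsto (fun ε => pvGeo ε {g | ¬ PvglGood (pvgSites g) K ρ z0}) (𝓝[>] 0) (𝓝 0) := by
  obtain ⟨L, hL0, -, hL⟩ := pvm_net_bdd hK hρ univ
  have h1 := pvm_good_tendsto hρ hL0 (μ := pvP) (fun ε _ => pv_isPpp ε) (c := univ) univ_nonempty 0
  refine tendsto_of_tendsto_of_tendsto_of_le_of_le' tendsto_const_nhds h1 (Eventually.of_forall fun _ => zero_le) ?_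
  filter_upwards [self_mem_nhdsWithin] with ε hε
  exact pvgl_bad_geo_le z0 hL hε

/-- a measurable core of an event of small outer complement -/
theorem pvgl_core {α : Type*} [MeasurableSpace α] (μ : Measure α) (p : α → Prop) : ∃ G : Set α, MeasurableSet G ∧ (∀ x ∈ G, p x) ∧ μ Gᶜ = μ {x | ¬ p x} :=
  ⟨(toMeasurable μ {x | ¬ p x})ᶜ, (measurableSet_toMeasurable _ _).compl, fun x hx => by
    by_contra h
    exact hx (subset_toMeasurable μ _ h), by rw [compl_compl, measure_toMeasurable]⟩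

/-- **MEASURABLE good events, geometries**: `G ε` measurable, contained in the good event, probability `→ 1` -/
theorem pvgl_core_geo {K : Set ℂ} (hK : Bornology.IsBounded K) {ρ : ℝ} (hρ : 0 < ρ) (z0 : ℂ) :
    ∃ G : ℝ → Set PvGeoT, (∀ ε, MeasurableSet (G ε)) ∧ (∀ ε, ∀ g ∈ G ε, PvglGood (pvgSites g) K ρ z0) ∧ Tendsto (fun ε => pvGeo ε (G ε)ᶜ) (𝓝[>] 0) (𝓝 0) := by
  choose G h1 h2 h3 using fun ε => pvgl_core (pvGeo ε) fun g => PvglGood (pvgSites g) K ρ z0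
  exact ⟨G, h1, h2, by simp only [h3]; exact pvgl_whp_geo hK hρ z0⟩

/-- **MEASURABLE good events, samples** -/
theorem pvgl_core_law {K : Set ℂ} (hK : Bornology.IsBounded K) {ρ : ℝ} (hρ : 0 < ρ) (z0 : ℂ) :
    ∃ G : ℝ → Set PVSample, (∀ ε, MeasurableSet (G ε)) ∧ (∀ ε, ∀ ω ∈ G ε, PvglGood (cfSites (pvConf ω)) K ρ z0) ∧ Tendsto (fun ε => pvLaw ε (G ε)ᶜ) (𝓝[>] 0) (𝓝 0) := by
  choose G h1 h2 h3 using fun ε => pvgl_core (pvLaw ε) fun ω => PvglGood (cfSites (pvConf ω)) K ρ z0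
  exact ⟨G, h1, h2, by simp only [h3]; exact pvgl_whp_law hK hρ z0⟩

/-- from `ε ↓ 0` to sequences -/
theorem pvgl_seq {β : Type*} {l : Filter β} {F : ℝ → β} (h : Tendsto F (𝓝[>] 0) l) {εs : ℕ → ℝ} (h0 : ∀ n, 0 < εs n) (hε : Tendsto εs atTop (𝓝 0)) :
    Tendsto (fun n => F (εs n)) atTop l :=
  h.comp (tendsto_nhdsWithin_iff.2 ⟨hε, Eventually.of_forall h0⟩)

/-- a good geometry is good for every colouring -/
theorem pvgl_good_merge {K : Set ℂ} {ρ : ℝ} {z0 : ℂ} {g : PvGeoT} (h : PvglGood (pvgSites g) K ρ z0) (c : PvColT) : PvglGood (cfSites (pvConf (pvMerge (g, c)))) K ρ z0 := by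
  rwa [pvqu_cfSites]

/-! ## 2. outer circuits: the disc does not depend on the circuit -/

/-- `c` is an OUTER CIRCUIT of the vertex set `B`: finite left side, `B` strictly inside, the ends of the rim darts are off `B`, their apex is in `B` -/
structure PvglOut {V D : Type} (T : PvMap V D) (B : Set V) (c : T.Cyc) : Prop where
  fin : c.Left.Finite
  int : B ⊆ T.Int c.Left
  rim : ∀ i, T.src (c.e i) ∉ B ∧ T.apex (c.e i) ∈ B

section out

variable {V D : Type} {T : PvMap V D} {B : Set V} {c c' : T.Cyc}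

theorem PvglOut.star_left (H : PvglOut T B c) : T.Star B ⊆ c.Left := by
  intro d hd
  obtain ⟨d', h1, h2⟩ := pl_star_dart hd
  exact ((pl_left_face c).sf T h1).1 (H.int h2 d' rfl)

theorem PvglOut.rim_bd (hT : T.IsSph) (H : PvglOut T B c) (i : ℕ) : T.Bd (T.Star B) (c.e i) := fun hh =>
  plc_opp_e hT c i (H.star_left (hh.1 (Or.inr (Or.inr (H.rim i).2))))

/-- the right side of an outer circuit is a class of dual connectivity off the boundary of the star -/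
theorem PvglOut.right_eq (hT : T.IsSph) (H : PvglOut T B c) : c.Right = {d | T.DJoin {d | T.Bd (T.Star B) d} (T.opp (c.e 0)) d} := by
  have hR := (pl_jordan hT c).1
  apply Subset.antisymm
  · intro d hd
    have key : ∀ d, T.DJoin c.darts (T.opp (c.e 0)) d → T.DJoin {d | T.Bd (T.Star B) d} (T.opp (c.e 0)) d := by
      intro d hd
      induction hd with
      | refl => exact ReflTransGen.refl
      | @tail a b hab hstep ih =>
        refine ih.tail ?_
        have hb : b ∈ c.Right := ReflTransGen.tail hab hstep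
        rcases hstep with h1 | ⟨h1, -⟩
        · exact Or.inl h1
        · refine Or.inr ⟨h1, fun hE => ?_⟩
          have ha : a ∈ c.Right := hab
          rw [hR] at ha hb
          rw [h1] at hb
          exact (pl_bnd_edg _ a).1 hE (iff_of_false (fun h => ha (H.star_left h)) fun h => hb (H.star_left h))
    exact key d hd
  · intro d hd
    refine T.djoin_mono ?_ hd
    rintro _ ⟨i, rfl⟩
    exact H.rim_bd hT i

/-- **CANONICAL**: the disc of an outer circuit of `B` in an infinite plane does not depend on the circuit -/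
theorem PvglOut.unique [Infinite D] (hT : T.IsSph) (H : PvglOut T B c) (H' : PvglOut T B c') : c.Left = c'.Left := by
  have hR := (pl_jordan hT c).1
  have hR' := (pl_jordan hT c').1
  have hinf : c'.Right.Infinite := by rw [hR']; exact H'.fin.infinite_compl
  obtain ⟨d, hd', hd⟩ := (hinf.sdiff H.fin).nonempty
  have hdR : d ∈ c.Right := by rw [hR]; exact hd
  have e : c.Right = c'.Right := by
    have h1 := hdR
    have h2 := hd'
    rw [H.right_eq hT] at h1 ⊢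
    rw [H'.right_eq hT] at h2 ⊢
    rw [← pl_djoin_class h1, ← pl_djoin_class h2]
  rw [hR, hR'] at e
  exact compl_injective e

end out

/-! ## 3. outer circuits of a window of the Delaunay plane: existence, location -/

/-- the sites whose cell meets `K0`, as vertices -/
def pvglB (Y K0 : Set ℂ) : Set ↥Y := {v | (v : ℂ) ∈ vorMeet Y K0}

/-- outer circuit of the window `K0` -/
abbrev PvglCirc {Y : Set ℂ} (h : DelGood Y) (K0 : Set ℂ) (c : (delPl h).toMap.Cyc) : Prop := PvglOut (delPl h).toMap (pvglB Y K0) c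

theorem pvgl_eqns_cite2 : True := by
  have := @pvglB.eq_1
  trivial

theorem pvgl_circ_exists {Y K0 : Set ℂ} (h : DelGood Y) (hb : Bornology.IsBounded K0) (hc : IsPreconnected K0) (hne : K0.Nonempty) : ∃ c, PvglCirc h K0 c := by
  obtain ⟨c, h1, h2, h3⟩ := pvg_w_del_cyc' h hb hc hne
  exact ⟨c, h1, fun v hv => h2 v hv, h3⟩

theorem pvgl_circ_unique {Y K0 : Set ℂ} {h : DelGood Y} {c c' : (delPl h).toMap.Cyc} (H : PvglCirc h K0 c) (H' : PvglCirc h K0 c') : c.Left = c'.Left := by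
  have := pvg_w_dart_infinite h
  exact PvglOut.unique (delp_isSph h) H H'

/-- the exterior of a disc is connected -/
theorem pvgl_ext_conn {R : ℝ} (hR : 0 ≤ R) : IsPreconnected {z : ℂ | R < ‖z‖} := by
  have h1 : IsPreconnected (Ioi R ×ˢ (univ : Set ℝ)) := isPreconnected_Ioi.prod isPreconnected_univ
  have hf : Continuous fun p : ℝ × ℝ => (p.1 : ℂ) * Complex.exp (p.2 * Complex.I) := by fun_prop
  have e : {z : ℂ | R < ‖z‖} = (fun p : ℝ × ℝ => (p.1 : ℂ) * Complex.exp (p.2 * Complex.I)) '' (Ioi R ×ˢ (univ : Set ℝ)) := by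
    ext z
    constructor
    · intro hz
      exact ⟨(‖z‖, Complex.arg z), ⟨hz, mem_univ _⟩, Complex.norm_mul_exp_arg_mul_I z⟩
    · rintro ⟨⟨t, θ⟩, ⟨ht, -⟩, rfl⟩
      have ht' : R < t := ht
      show R < ‖(t : ℂ) * Complex.exp (θ * Complex.I)‖
      rw [norm_mul, Complex.norm_exp_ofReal_mul_I, mul_one, Complex.norm_real, Real.norm_of_nonneg (hR.trans ht'.le)]
      exact ht'
  rw [e]
  exact h1.image _ hf.continuousOn

section loc

variable {Y K0 : Set ℂ} {h : DelGood Y} {r ρ : ℝ}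

theorem pvgl_cell_small (hρ : 0 < ρ) (hd : VorDense Y (closedBall 0 (r + 5 * ρ)) ρ) {v : ℂ} (hv : ‖v‖ ≤ r + 3 * ρ) : vorCell Y v ⊆ closedBall v ρ := by
  refine vor_cell_subset_ball (R := 2 * ρ) hρ.le (by linarith) (hd.mono Subset.rfl ?_ le_rfl)
  intro z hz
  rw [mem_closedBall, dist_eq_norm] at hz
  rw [mem_closedBall, dist_zero_right]
  calc ‖z‖ = ‖(z - v) + v‖ := by ring_nf
    _ ≤ ‖z - v‖ + ‖v‖ := norm_add_le _ _
    _ ≤ r + 5 * ρ := by linarith

theorem pvgl_B_norm (hρ : 0 < ρ) (hK : K0 ⊆ closedBall 0 r) (hd : VorDense Y (closedBall 0 (r + 5 * ρ)) ρ) {b : ℂ} (hb : b ∈ vorMeet Y K0) : ‖b‖ ≤ r + ρ := by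
  obtain ⟨-, z, hz, hzK⟩ := hb
  have h1 : ‖z‖ ≤ r := by simpa using hK hzK
  have h2 : ‖z - b‖ ≤ ρ := vor_site_near hd hz (by rw [mem_closedBall, dist_zero_right]; linarith)
  calc ‖b‖ = ‖z - (z - b)‖ := by ring_nf
    _ ≤ ‖z‖ + ‖z - b‖ := norm_sub_le _ _
    _ ≤ r + ρ := by linarith

theorem pvgl_rim_norm (hρ : 0 < ρ) (hK : K0 ⊆ closedBall 0 r) (hd : VorDense Y (closedBall 0 (r + 5 * ρ)) ρ) {c : (delPl h).toMap.Cyc} (H : PvglCirc h K0 c) (i : ℕ) :
    ‖((delPl h).toMap.src (c.e i) : ℂ)‖ ≤ r + 3 * ρ := by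
  have hb := pvgl_B_norm hρ hK hd (H.rim i).2
  have hadj : DelAdj Y ((delPl h).toMap.apex (c.e i)) ((delPl h).toMap.src (c.e i)) := (pvg_w_adj_iff h _ _).1 (pl_adj_apex_src _)
  obtain ⟨hbY, huY, -, w, hw1, hw2⟩ := hadj
  have h1 : ‖w - ((delPl h).toMap.apex (c.e i) : ℂ)‖ ≤ ρ := by
    have := pvgl_cell_small hρ hd (by linarith) hw1
    rwa [mem_closedBall, dist_eq_norm] at this
  have h2 := vor_equidist hbY huY hw1 hw2
  set b : ℂ := ((delPl h).toMap.apex (c.e i) : ℂ)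
  set u : ℂ := ((delPl h).toMap.src (c.e i) : ℂ)
  calc ‖u‖ = ‖b + (w - b) - (w - u)‖ := by ring_nf
    _ ≤ ‖b + (w - b)‖ + ‖w - u‖ := norm_sub_le _ _
    _ ≤ ‖b‖ + ‖w - b‖ + ‖w - u‖ := by gcongr; exact norm_add_le _ _
    _ ≤ r + 3 * ρ := by rw [← h2]; linarith

/-- **LOCATION of the disc** -/
theorem pvgl_circ_loc (hρ : 0 < ρ) (hr : 0 ≤ r) (hK : K0 ⊆ closedBall 0 r) (hd : VorDense Y (closedBall 0 (r + 5 * ρ)) ρ) {c : (delPl h).toMap.Cyc} (H : PvglCirc h K0 c)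
    (v : ↥Y) (hv : v ∈ (delPl h).toMap.VOf c.Left) : ‖(v : ℂ)‖ ≤ r + 4 * ρ := by
  by_contra hcon
  rw [not_le] at hcon
  have hT := delp_isSph h
  set Ex : Set ℂ := {z : ℂ | r + 4 * ρ < ‖z‖} with hEx
  have hconn : IsPreconnected Ex := pvgl_ext_conn (by positivity)
  -- the rim does not meet the exterior
  have hrim : ∀ u ∈ c.verts, (u : ℂ) ∉ vorMeet Y Ex := by
    rintro u ⟨i, rfl⟩ ⟨-, z, hz, hzE⟩
    have h1 := pvgl_rim_norm hρ hK hd H i
    have h2 := pvgl_cell_small hρ hd h1 hz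
    rw [mem_closedBall, dist_eq_norm] at h2
    have h3 : ‖z‖ ≤ r + 4 * ρ := by
      calc ‖z‖ = ‖(z - ((delPl h).toMap.src (c.e i) : ℂ)) + ((delPl h).toMap.src (c.e i) : ℂ)‖ := by ring_nf
        _ ≤ ‖z - ((delPl h).toMap.src (c.e i) : ℂ)‖ + ‖((delPl h).toMap.src (c.e i) : ℂ)‖ := norm_add_le _ _
        _ ≤ r + 4 * ρ := by linarith
    exact absurd hzE (not_lt.2 h3)
  have hmem : ∀ w : ↥Y, r + 4 * ρ < ‖(w : ℂ)‖ → (w : ℂ) ∈ vorMeet Y Ex := fun w hw => ⟨w.2, w, vor_self_mem Y w, hw⟩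
  have hvI : v ∈ (delPl h).toMap.Int c.Left := by
    rw [pl_VOf_left hT c] at hv
    exact hv.resolve_left fun h1 => hrim v h1 (hmem v hcon)
  -- all exterior sites are inside: too many
  have hall : ∀ w : ↥Y, r + 4 * ρ < ‖(w : ℂ)‖ → w ∈ (delPl h).toMap.VOf c.Left := by
    intro w hw
    obtain ⟨_, h4⟩ := pvg_w_lift_chain h v.2 (del_win_conn h.lf hconn (hmem v hcon) (hmem w hw))
    have h5 := pl_jordan_sep hT c hvI (ReflTransGen.mono (fun a b hab => ⟨hab.1, fun hb => hrim b hb hab.2⟩) _ _ h4)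
    rw [pl_VOf_left hT c]
    exact Or.inr h5
  have hfin : ((delPl h).toMap.VOf c.Left).Finite := pl_VOf_finite hT c H.fin
  have hfin2 : (Subtype.val '' ((delPl h).toMap.VOf c.Left) ∪ Y ∩ closedBall 0 (r + 4 * ρ)).Finite := (hfin.image _).union (h.lf _)
  refine pvg_w_infinite h (hfin2.subset fun y hy => ?_)
  by_cases hyn : ‖y‖ ≤ r + 4 * ρ
  · exact Or.inr ⟨hy, by rw [mem_closedBall, dist_zero_right]; exact hyn⟩
  · exact Or.inl ⟨⟨y, hy⟩, hall ⟨y, hy⟩ (not_le.1 hyn), rfl⟩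

end loc

/-! ## 4. the disc is read from the sites in a compact set -/

/-- `d` and `d'` are the same raw dart `a → b` (two site sets) -/
def PvglEq {Y Y' : Set ℂ} (h : DelGood Y) (h' : DelGood Y') (d : (delPl h).Dart) (d' : (delPl h').Dart) : Prop :=
  (d.1.1 : ℂ) = d'.1.1 ∧ (d.1.2 : ℂ) = d'.1.2

/-- the raw darts of a set of darts -/
def pvglRaw {Y : Set ℂ} (h : DelGood Y) (A : Set (delPl h).Dart) : Set (ℂ × ℂ) := (fun d : (delPl h).Dart => ((d.1.1 : ℂ), (d.1.2 : ℂ))) '' A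

/-- two site sets agree on `E`, with mesh `ρ` read in `E` -/
structure PvglAgree (Y Y' E : Set ℂ) (ρ : ℝ) : Prop where
  pos : 0 < ρ
  eq : Y ∩ E = Y' ∩ E
  mesh : PvtrMesh ρ E Y

theorem pvgl_eqns_cite3 : True := by
  have := @PvglEq.eq_1; have := @pvglRaw.eq_1
  trivial

section reads

variable {Y Y' K0 E : Set ℂ} {h : DelGood Y} {h' : DelGood Y'} {r ρ : ℝ}

theorem PvglAgree.symm (A : PvglAgree Y Y' E ρ) : PvglAgree Y' Y E ρ := ⟨A.pos, A.eq.symm, (pvtr_mesh_congr A.eq).1 A.mesh⟩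

theorem PvglEq.symm {d : (delPl h).Dart} {d' : (delPl h').Dart} (e : PvglEq h h' d d') : PvglEq h' h d' d := ⟨e.1.symm, e.2.symm⟩

theorem PvglEq.opp {d : (delPl h).Dart} {d' : (delPl h').Dart} (e : PvglEq h h' d d') : PvglEq h h' ((delPl h).toMap.opp d) ((delPl h').toMap.opp d') := ⟨e.2, e.1⟩

theorem PvglEq.unique {d : (delPl h).Dart} {d₁ d₂ : (delPl h').Dart} (e₁ : PvglEq h h' d d₁) (e₂ : PvglEq h h' d d₂) : d₁ = d₂ :=
  Subtype.ext (Prod.ext (Subtype.ext (e₁.1.symm.trans e₂.1)) (Subtype.ext (e₁.2.symm.trans e₂.2)))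

/-- transfer of a face at a site of the core -/
theorem pvgl_eq_exists (A : PvglAgree Y Y' E ρ) (d : (delPl h).Dart) (hd : (d.1.1 : ℂ) ∈ pvtrCore (3 * ρ) E) :
    ∃ d' : (delPl h').Dart, PvglEq h h' d d' ∧ PvglEq h h' ((delPl h).toMap.nxt d) ((delPl h').toMap.nxt d') := by
  have h1 : DelTri Y d.1.1 d.1.2 (delApex Y d.1.1 d.1.2) := delp_apex_spec h d.2
  have h2 : DelTri Y' d.1.1 d.1.2 (delApex Y d.1.1 d.1.2) := ((pvtr_congr A.eq).1 (pvtr_of_mesh_vertex A.pos A.mesh hd h1)).tri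
  refine ⟨⟨(⟨d.1.1, h2.1⟩, ⟨d.1.2, h2.2.1⟩), h2.adj⟩, ⟨rfl, rfl⟩, rfl, ?_⟩
  show delApex Y d.1.1 d.1.2 = delApex Y' d.1.1 d.1.2
  rw [del_apex_eq h'.gp h2]

theorem pvgl_core_of_ball (hE : closedBall 0 (r + 8 * ρ) ⊆ E) {z : ℂ} (hz : ‖z‖ ≤ r + 5 * ρ) : z ∈ pvtrCore (3 * ρ) E := by
  intro w hw
  apply hE
  rw [mem_closedBall, dist_eq_norm] at hw
  rw [mem_closedBall, dist_zero_right]
  calc ‖w‖ = ‖(w - z) + z‖ := by ring_nf
    _ ≤ ‖w - z‖ + ‖z‖ := norm_add_le _ _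
    _ ≤ r + 8 * ρ := by linarith

theorem PvglAgree.dense (A : PvglAgree Y Y' E ρ) (hE : closedBall 0 (r + 8 * ρ) ⊆ E) : VorDense Y (closedBall 0 (r + 5 * ρ)) ρ := by
  refine A.mesh.mono Subset.rfl (fun z hz => ?_) le_rfl
  rw [mem_closedBall, dist_zero_right] at hz
  exact pvtr_core_anti (by linarith [A.pos]) (pvgl_core_of_ball hE hz)

theorem PvglAgree.meet (A : PvglAgree Y Y' E ρ) (hK : K0 ⊆ closedBall 0 r) (hE : closedBall 0 (r + 8 * ρ) ⊆ E) : vorMeet Y K0 = vorMeet Y' K0 := by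
  have hρ := A.pos
  have hsub : vorNbd K0 ρ ⊆ E := by
    rintro w ⟨z, hz, hwz⟩
    apply hE
    have h1 : ‖z‖ ≤ r := by simpa using hK hz
    rw [mem_closedBall, dist_zero_right]
    calc ‖w‖ = ‖(w - z) + z‖ := by ring_nf
      _ ≤ ‖w - z‖ + ‖z‖ := norm_add_le _ _
      _ ≤ r + 8 * ρ := by linarith
  refine del_loc_meet ((A.dense hE).mono Subset.rfl (hK.trans (closedBall_subset_closedBall (by linarith))) le_rfl) ?_
  ext w
  constructor
  · rintro ⟨h1, h2⟩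
    exact ⟨(A.eq ▸ (⟨h1, hsub h2⟩ : w ∈ Y ∩ E) : w ∈ Y' ∩ E).1, h2⟩
  · rintro ⟨h1, h2⟩
    exact ⟨(A.eq.symm ▸ (⟨h1, hsub h2⟩ : w ∈ Y' ∩ E) : w ∈ Y ∩ E).1, h2⟩

/-- **TRANSPORT of an outer circuit** to a site set which agrees with `Y` on `E`: there is an outer circuit of the same window whose disc consists of the same raw darts -/
theorem pvgl_circ_transport (A : PvglAgree Y Y' E ρ) (hr : 0 ≤ r) (hK : K0 ⊆ closedBall 0 r) (hE : closedBall 0 (r + 8 * ρ) ⊆ E)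
    {c : (delPl h).toMap.Cyc} (H : PvglCirc h K0 c) :
    ∃ c' : (delPl h').toMap.Cyc, PvglCirc h' K0 c' ∧ (∀ d ∈ c.Left, ∃ d' ∈ c'.Left, PvglEq h h' d d') ∧ ∀ d' ∈ c'.Left, ∃ d ∈ c.Left, PvglEq h h' d d' := by
  have hρ := A.pos
  have hT := delp_isSph h
  have hT' := delp_isSph h'
  have hd := A.dense (r := r) hE
  have hmeet := A.meet hK hE
  have : Nonempty (delPl h').Dart := (pvg_w_dart_infinite h').nonempty
  have hF := pl_left_face c
  -- the darts of the disc are darts of the other plane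
  have hex : ∀ d ∈ c.Left, ∃ d' : (delPl h').Dart, PvglEq h h' d d' ∧ PvglEq h h' ((delPl h).toMap.nxt d) ((delPl h').toMap.nxt d') := fun d hdL =>
    pvgl_eq_exists A d (pvgl_core_of_ball hE ((pvgl_circ_loc hρ hr hK hd H _ ⟨d, hdL, rfl⟩).trans (by linarith)))
  choose! φ hφ hφn using hex
  have F1 : ∀ d ∈ c.Left, ∀ x, PvglEq h h' d x → x = φ d := fun d hdL x hx => hx.unique (hφ d hdL)
  have F3 : ∀ d ∈ c.Left, φ ((delPl h).toMap.nxt d) = (delPl h').toMap.nxt (φ d) := fun d hdL => (F1 _ ((hF d).2 hdL) _ (hφn d hdL)).symm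
  have F4 : ∀ d ∈ c.Left, (delPl h).toMap.opp d ∈ c.Left → φ ((delPl h).toMap.opp d) = (delPl h').toMap.opp (φ d) := fun d hdL ho => (F1 _ ho _ (hφ d hdL).opp).symm
  have F5 : ∀ d ∈ c.Left, ((delPl h').toMap.opp (φ d) ∈ φ '' c.Left ↔ (delPl h).toMap.opp d ∈ c.Left) := by
    intro d hdL
    constructor
    · rintro ⟨d2, hd2, e⟩
      have e1 : PvglEq h' h ((delPl h').toMap.opp (φ d)) d2 := (e ▸ hφ d2 hd2).symm
      rw [(hφ d hdL).opp.symm.unique e1]
      exact hd2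
    · intro ho
      exact ⟨_, ho, F4 d hdL ho⟩
  have hA : (delPl h').toMap.FaceSet (φ '' c.Left) := by
    intro x
    constructor
    · rintro ⟨d1, hd1, e⟩
      refine ⟨(delPl h).toMap.nxt ((delPl h).toMap.nxt d1), (hF _).2 ((hF _).2 hd1), ?_⟩
      rw [F3 _ ((hF _).2 hd1), F3 _ hd1, e, (delPl h').toMap.nxt3]
    · rintro ⟨d, hdL, rfl⟩
      exact ⟨_, (hF d).2 hdL, F3 d hdL⟩
  -- the transported cycle
  let c' : (delPl h').toMap.Cyc :=
    { n := c.n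
      e := fun i => φ (c.e i)
      three := c.three
      per := fun i => by rw [c.per]
      chain := fun i => by
        have e1 := (hφ _ (plc_e_left hT c i)).2
        have e2 := (hφ _ (plc_e_left hT c (i + 1))).1
        have e3 : ((c.e i).1.2 : ℂ) = (c.e (i + 1)).1.1 := congrArg Subtype.val (c.chain i)
        exact Subtype.ext (e1.symm.trans (e3.trans e2))
      inj := fun i j hi hj e => by
        have e1 := (hφ _ (plc_e_left hT c i)).1
        have e2 := (hφ _ (plc_e_left hT c j)).1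
        have e3 : ((φ (c.e i)).1.1 : ℂ) = (φ (c.e j)).1.1 := congrArg Subtype.val e
        exact c.inj i j hi hj (Subtype.ext (e1.trans (e3.trans e2.symm))) }
  have F6 : ∀ x, x ∈ c'.darts ↔ x ∈ φ '' c.Left ∧ (delPl h').toMap.opp x ∉ φ '' c.Left := by
    intro x
    constructor
    · rintro ⟨i, rfl⟩
      exact ⟨⟨_, plc_e_left hT c i, rfl⟩, fun hh => plc_opp_e hT c i ((F5 _ (plc_e_left hT c i)).1 hh)⟩
    · rintro ⟨⟨d, hdL, rfl⟩, ho⟩
      obtain ⟨i, rfl⟩ := plc_bd_dart hT c hdL fun hh => ho ((F5 d hdL).2 hh)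
      exact ⟨i, rfl⟩
  have hbd : ∀ x, (delPl h').toMap.Bd (φ '' c.Left) x ↔ (delPl h').toMap.Edg c'.darts x := by
    intro x
    unfold PvMap.Bd PvMap.Edg
    rw [F6 x, F6 ((delPl h').toMap.opp x), (delPl h').toMap.opp_opp]
    tauto
  have hL : c'.Left = φ '' c.Left := pl_jordan_left hT' c' hA hbd ⟨_, plc_e_left hT c 0, rfl⟩
  refine ⟨c', ⟨?_, ?_, ?_⟩, ?_, ?_⟩
  · rw [hL]; exact H.fin.image _
  · intro v' hv' x hx
    rw [hL]
    have hv1 : (v' : ℂ) ∈ vorMeet Y K0 := by rw [hmeet]; exact hv'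
    have hx1 : (x.1.1 : ℂ) = v' := congrArg Subtype.val hx
    obtain ⟨d, hd1, -⟩ := pvgl_eq_exists (h := h') (h' := h) A.symm x
      (pvgl_core_of_ball hE (by rw [hx1]; exact (pvgl_B_norm hρ hK hd hv1).trans (by linarith)))
    have hdL : d ∈ c.Left := H.int (show (delPl h).toMap.src d ∈ pvglB Y K0 by
      show (d.1.1 : ℂ) ∈ vorMeet Y K0
      rw [← hd1.1, hx1]; exact hv1) d rfl
    exact ⟨d, hdL, (F1 d hdL x hd1.symm).symm⟩
  · intro i
    have hi := plc_e_left hT c i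
    constructor
    · show ((φ (c.e i)).1.1 : ℂ) ∉ vorMeet Y' K0
      rw [← hmeet, ← (hφ _ hi).1]
      exact (H.rim i).1
    · show (((delPl h').toMap.nxt ((delPl h').toMap.nxt (φ (c.e i)))).1.1 : ℂ) ∈ vorMeet Y' K0
      rw [← F3 _ hi, ← F3 _ ((hF _).2 hi), ← hmeet, ← (hφ _ ((hF _).2 ((hF _).2 hi))).1]
      exact (H.rim i).2
  · intro d hdL
    exact ⟨φ d, by rw [hL]; exact ⟨d, hdL, rfl⟩, hφ d hdL⟩
  · intro d' hd'
    rw [hL] at hd'
    obtain ⟨d, hdL, rfl⟩ := hd'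
    exact ⟨d, hdL, hφ d hdL⟩

/-- **(B3) THE DISC IS READ FROM `Y ∩ E`**: two good site sets which agree on `E ⊇ closedBall 0 (r + 8 ρ)` (mesh `ρ` read in `E`) have the same disc round the window `K0 ⊆ closedBall 0 r` -/
theorem pvgl_left_reads (A : PvglAgree Y Y' E ρ) (hr : 0 ≤ r) (hK : K0 ⊆ closedBall 0 r) (hE : closedBall 0 (r + 8 * ρ) ⊆ E)
    {c : (delPl h).toMap.Cyc} {c' : (delPl h').toMap.Cyc} (H : PvglCirc h K0 c) (H' : PvglCirc h' K0 c') : pvglRaw h c.Left = pvglRaw h' c'.Left := by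
  obtain ⟨c'', H'', h1, h2⟩ := pvgl_circ_transport (h' := h') A hr hK hE H
  rw [pvgl_circ_unique H' H'']
  apply Subset.antisymm
  · rintro _ ⟨d, hd, rfl⟩
    obtain ⟨d', hd', e⟩ := h1 d hd
    exact ⟨d', hd', Prod.ext e.1.symm e.2.symm⟩
  · rintro _ ⟨d', hd', rfl⟩
    obtain ⟨d, hd, e⟩ := h2 d' hd'
    exact ⟨d, hd, Prod.ext e.1 e.2⟩

/-- the vertices of the disc lie in a fixed compact set: the raw form -/
theorem pvgl_raw_loc (hρ : 0 < ρ) (hr : 0 ≤ r) (hK : K0 ⊆ closedBall 0 r) (hd : VorDense Y (closedBall 0 (r + 5 * ρ)) ρ) {c : (delPl h).toMap.Cyc} (H : PvglCirc h K0 c) :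
    pvglRaw h c.Left ⊆ closedBall 0 (r + 4 * ρ) ×ˢ closedBall 0 (r + 4 * ρ) := by
  rintro _ ⟨d, hdL, rfl⟩
  refine ⟨?_, ?_⟩
  · rw [mem_closedBall, dist_zero_right]
    exact pvgl_circ_loc hρ hr hK hd H _ ⟨d, hdL, rfl⟩
  · rw [mem_closedBall, dist_zero_right]
    exact pvgl_circ_loc hρ hr hK hd H _ ⟨_, (pl_left_face c d).2 hdL, rfl⟩

end reads

end Claimed.Agent.R289
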