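-- KEEP
import Claimed.Agent.R289.Brg.Base
import Claimed.Agent.R289.Brg.Ord
import Claimed.Agent.R289.Brg.Prob

/-!
# Row 289 (S0537), box BRIDGE, file Brg/Defs : THE DISCRETE DISC OF AN ANALYTIC QUAD, GLUE AND EXITS      (head helper188; prefix `pvg_`)

IMPORT THIS FILE (consumers).      `Brg/Base.lean` = vocabulary, THE RECORD `PvgDk.Ok`, `pvgDisc`, CH, LOC, STEP, DENSE, D4 (all proved);   `Brg/Ord.lean` = the leaf `pvg_ord` (253);   HERE:
 Sec. 5 `pvg_disc_exists` (deterministic existence);   Sec. 6 `pvg_has_tendsto` (297);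
 Sec. 7 ONE family for all tolerances `pvgBest N g θ`, good event `PvgFine N g θ ρ Y`, exits `PvgFine.ok .bulk_ok .surf_eq`, `pvg_fine_exists`, `pvg_fine_tendsto`, `pvg_fine_geo`.
-/

set_option autoImplicit false

namespace Claimed.Agent.R289

open Set Metric Relation Filter Topology MeasureTheory Claims.C0465

theorem pvg_E_sub_le (s t : ℝ) : ‖pvgE s - pvgE t‖ ≤ |s - t| := by
  have e : pvgE s - pvgE t = pvgE t * (Complex.exp (Complex.I * ((s - t : ℝ) : ℂ)) - 1) := by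
    unfold pvgE
    rw [mul_sub, mul_one, ← Complex.exp_add]
    congr 2
    push_cast; ring
  rw [e, norm_mul, pvg_E_norm, one_mul]
  exact Real.norm_exp_I_mul_ofReal_sub_one_le

/-- **EXIT (deterministic)**: for fine mesh in the chart every good site set carries a disc of tolerance `ρ` -/
theorem pvg_disc_exists {N : Set ℂ} {g : ℂ → ℂ} {R1 : ℝ} (ch : PvgCh N g R1) {θ : ℕ → ℝ} (hθ : PvgMk θ) {ρ : ℝ} (hρ : 0 < ρ) (hρ1 : ρ ≤ 1 / 2) :
    ∃ μ > 0, ∀ Y : Set ℂ, DelGood Y → PvgMesh N g R1 μ Y → PvgHas N g θ ρ Y := by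
  obtain ⟨μ0, hμ0, hord⟩ := pvg_ord ch hθ (r := 1 - ρ / 2) (δ := ρ / 4) (by linarith) (by linarith) (by positivity)
  have hR := ch.one_lt
  refine ⟨min μ0 (ρ / 60), lt_min hμ0 (by positivity), fun Y h hm => ?_⟩
  set μ := min μ0 (ρ / 60) with hμdef
  have hμ : 0 < μ := lt_min hμ0 (by positivity)
  have hμ1 : μ ≤ ρ / 60 := min_le_right _ _
  have hr0 : (0 : ℝ) ≤ 1 - ρ / 2 := by linarith
  have hr : 1 - ρ / 2 + 6 * μ < R1 := by linarith
  obtain ⟨c, hc⟩ := pvg_rim_exists ch hr0 (by linarith) h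
  obtain ⟨m, th, m1, m2, t1, t2, t3, t4⟩ := hord μ hμ (min_le_left _ _) Y h hm c hc
  -- the radial error
  have hrad : ∀ k, 1 - ρ / 2 ≤ ‖g ((delPl h).toMap.src (c.e k) : ℂ)‖ ∧ ‖g ((delPl h).toMap.src (c.e k) : ℂ)‖ ≤ 1 := by
    intro k
    have h1 := (pvg_rim_loc ch hm hμ hr0 hr hc k).1
    exact ⟨h1.2.1, h1.2.2.trans (by linarith)⟩
  have hclose : ∀ k t, |th k - t| ≤ ρ / 2 → ‖g ((delPl h).toMap.src (c.e k) : ℂ) - pvgE t‖ ≤ ρ := by
    intro k t ht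
    have e : g ((delPl h).toMap.src (c.e k) : ℂ) - pvgE t = ((‖g ((delPl h).toMap.src (c.e k) : ℂ)‖ - 1 : ℝ) : ℂ) * pvgE (th k) + (pvgE (th k) - pvgE t) := by
      conv_lhs => rw [t1 k]
      push_cast; ring
    rw [e]
    refine (norm_add_le _ _).trans ?_
    rw [norm_mul, pvg_E_norm, mul_one, Complex.norm_real, Real.norm_eq_abs]
    have h1 := hrad k
    have h2 : |‖g ((delPl h).toMap.src (c.e k) : ℂ)‖ - 1| ≤ ρ / 2 := by rw [abs_le]; constructor <;> linarith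
    linarith [pvg_E_sub_le (th k) t]
  refine ⟨h, ⟨c, m, th⟩, hc.fin, m1, m2, ?_, ?_, ?_, ?_, ?_, ?_, t1, t2, ?_, ?_, ?_, ?_, ?_⟩
  · intro v hv
    exact hc.int v ⟨v.2, v, vor_self_mem Y v, pvg_K_mono (by linarith) hv⟩
  · intro v hv
    exact pvg_K_mono (by linarith) (pvg_outer ch hm hμ hr0 hr hc v hv)
  · -- arc
    intro j hj k hk1 hk2
    have a1 := t3 _ _ hk1
    have a2 := t3 _ _ hk2
    have a3 := abs_le.1 (t4 j (by omega))
    have a4 := abs_le.1 (t4 (j + 1) (by omega))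
    have a5 := hθ.lt j hj
    refine ⟨max (θ j) (min (th k) (θ (j + 1))), le_max_left _ _, max_le a5.le (min_le_right _ _), hclose k _ ?_⟩
    rw [abs_le]
    constructor
    · rcases le_total (θ j) (min (th k) (θ (j + 1))) with h1 | h1
      · rw [max_eq_right h1]; linarith [min_le_left (th k) (θ (j + 1))]
      · rw [max_eq_left h1]; linarith
    · have h1 : min (th k) (θ (j + 1)) ≤ max (θ j) (min (th k) (θ (j + 1))) := le_max_right _ _
      rcases le_total (th k) (θ (j + 1)) with h2 | h2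
      · have h3 : min (th k) (θ (j + 1)) = th k := min_eq_left h2
        linarith
      · have h3 : min (th k) (θ (j + 1)) = θ (j + 1) := min_eq_right h2
        linarith
  · intro j hj
    exact hclose _ _ ((t4 j hj).trans (by linarith))
  · intro t
    obtain ⟨k, hk⟩ := pvg_near ch hm hμ hr0 hr hc t
    refine ⟨k, ?_⟩
    have e : g ((delPl h).toMap.src (c.e k) : ℂ) - pvgE t = (g ((delPl h).toMap.src (c.e k) : ℂ) - ((1 - ρ / 2 : ℝ) : ℂ) * pvgE t) + (-((ρ / 2 : ℝ) : ℂ)) * pvgE t := by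
      push_cast; ring
    show ‖g ((delPl h).toMap.src (c.e k) : ℂ) - pvgE t‖ ≤ ρ
    rw [e]
    refine (norm_add_le _ _).trans ?_
    rw [norm_mul, pvg_E_norm, mul_one, norm_neg, Complex.norm_real, Real.norm_of_nonneg (by positivity)]
    linarith
  · intro u hu v hv s hs
    obtain ⟨h1, h2⟩ := pvg_d4 ch hm hμ hr0 hr hc u hu v hv s hs
    have h1' : ‖g (u : ℂ) - g (u : ℂ)‖ ≤ s + 30 * μ := h1
    refine ⟨(le_trans h1' (by linarith) : ‖g (u : ℂ) - g (u : ℂ)‖ ≤ s + ρ), ?_⟩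
    refine ReflTransGen.mono (fun a b hab => ⟨hab.1, ?_⟩) _ _ h2
    have h3 : ‖g (b : ℂ) - g (u : ℂ)‖ ≤ s + 30 * μ := hab.2
    exact (le_trans h3 (by linarith) : ‖g (b : ℂ) - g (u : ℂ)‖ ≤ s + ρ)
  · intro k k' hkk
    exact (t3 k k' hkk).trans (by linarith)
  · intro j hj
    exact (t4 j hj).trans (by linarith)
  · intro k
    exact le_trans (by linarith) (hrad k).1
  · intro d hd
    exact (pvg_step ch hm hμ hr0 (by linarith) hc d hd).trans (by linarith)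
  · intro z hz
    obtain ⟨v, hv, hvz⟩ := pvg_dense ch hm hμ hr0 (by linarith) hc z (pvg_K_mono hR.le hz)
    refine ⟨v, hv, hvz.trans ?_⟩
    have h1 : max 0 (‖g z‖ - (1 - ρ / 2)) ≤ ρ / 2 := max_le (by positivity) (by linarith [hz.2])
    linarith

/-! ## 6. PROB  (block helper297) -/

/-- **EXIT (probability)**: the site set of the sample carries a disc of tolerance `ρ` with probability tending to one (inner form: a measurable event).
Plan: `pvg_disc_exists`, `pvg_mesh_of_dense`, `delgd_all_ae_law` + `DelGood.of_quad` (256, 219), `vormG` / `pvm_good_tendsto` (100, 127). -/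
theorem pvg_has_tendsto {N : Set ℂ} {g : ℂ → ℂ} {R1 : ℝ} (ch : PvgCh N g R1) {θ : ℕ → ℝ} (hθ : PvgMk θ) {ρ : ℝ} (hρ : 0 < ρ) (hρ1 : ρ ≤ 1 / 2) :
    ∃ G : ℝ → Set PVSample, (∀ ε, MeasurableSet (G ε)) ∧ (∀ ε, ∀ ω ∈ G ε, PvgHas N g θ ρ (cfSites (pvConf ω))) ∧
      Tendsto (fun ε => pvLaw ε (G ε)) (𝓝[>] 0) (𝓝 1) := by
  obtain ⟨μ, hμ, hdisc⟩ := pvg_disc_exists ch hθ hρ hρ1
  obtain ⟨ρ', hρ', hmesh⟩ := pvg_mesh_of_dense ch hμ
  obtain ⟨G, h1, h2, h3⟩ := pvgl_core_law (K := pvgK N g R1) (pvg_ch_compact ch le_rfl).isBounded hρ' 0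
  refine ⟨G, h1, fun ε ω hω => hdisc _ (h2 ε ω hω).good (hmesh _ (h2 ε ω hω).dense), ?_⟩
  have e : ∀ ε, pvLaw ε (G ε) = 1 - pvLaw ε (G ε)ᶜ := fun ε => by
    rw [prob_compl_eq_one_sub (h1 ε)]
    exact (ENNReal.sub_sub_cancel ENNReal.one_ne_top prob_le_one).symm
  simp only [e]
  have := ENNReal.Tendsto.sub (tendsto_const_nhds (x := (1 : ENNReal)) (f := 𝓝[>] (0 : ℝ))) h3 (Or.inl ENNReal.one_ne_top)
  rwa [tsub_zero] at this

/-! ## 7. ONE FAMILY FOR ALL TOLERANCES  (`PvTransport` takes ONE bulk family for the whole sequence `ε → 0`: remark of helper111)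

`pvgBest N g θ : PvBulk (Fin 3)`: the site set `Y` gets ITS disc of the best tolerance `pvgTol m = 2^-(m+1)`.      `PvgFine N g θ ρ Y` = the good event of the consumers: the disc of `pvgBest` at `Y` is `Ok` at tolerance `ρ`. -/

theorem PvgDk.Ok.mono {Y : Set ℂ} {h : DelGood Y} {Δ : PvgDk h} {N : Set ℂ} {g : ℂ → ℂ} {θ : ℕ → ℝ} {ρ ρ' : ℝ} (H : Δ.Ok N g θ ρ) (hρ : ρ ≤ ρ') : Δ.Ok N g θ ρ' where
  fin := H.fin
  m_lt := H.m_lt
  m_per := H.m_per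
  inner v hv := H.inner v (pvg_K_mono (by linarith) hv)
  outer := H.outer
  arc j hj k h1 h2 := by
    obtain ⟨t, t1, t2, t3⟩ := H.arc j hj k h1 h2
    exact ⟨t, t1, t2, t3.trans hρ⟩
  mark j hj := (H.mark j hj).trans hρ
  near t := by
    obtain ⟨k, hk⟩ := H.near t
    exact ⟨k, hk.trans hρ⟩
  d4 u hu v hv s hs := by
    obtain ⟨h1, h2⟩ := H.d4 u hu v hv s hs
    have h1' : ‖g (u : ℂ) - g (u : ℂ)‖ ≤ s + ρ := h1
    refine ⟨(le_trans h1' (by linarith) : ‖g (u : ℂ) - g (u : ℂ)‖ ≤ s + ρ'), ?_⟩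
    refine ReflTransGen.mono (fun a b hab => ⟨hab.1, ?_⟩) _ _ h2
    have h3 : ‖g (b : ℂ) - g (u : ℂ)‖ ≤ s + ρ := hab.2
    exact (le_trans h3 (by linarith) : ‖g (b : ℂ) - g (u : ℂ)‖ ≤ s + ρ')
  lift := H.lift
  th_per := H.th_per
  qmono k k' hk := (H.qmono k k' hk).trans (by linarith)
  th_mark j hj := (H.th_mark j hj).trans hρ
  rim k := le_trans (by linarith) (H.rim k)
  step d hd := (H.step d hd).trans hρ
  dense z hz := by
    obtain ⟨v, hv, h1⟩ := H.dense z hz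
    exact ⟨v, hv, h1.trans hρ⟩

theorem PvgHas.mono {N : Set ℂ} {g : ℂ → ℂ} {θ : ℕ → ℝ} {ρ ρ' : ℝ} {Y : Set ℂ} (H : PvgHas N g θ ρ Y) (hρ : ρ ≤ ρ') : PvgHas N g θ ρ' Y :=
  ⟨H.good, H.dk, H.ok.mono hρ⟩

/-- the tolerance number `m` -/
noncomputable def pvgTol (m : ℕ) : ℝ := (1 / 2) ^ (m + 1)

/-- the levels at which `Y` carries a disc -/
def pvgLevS (N : Set ℂ) (g : ℂ → ℂ) (θ : ℕ → ℝ) (Y : Set ℂ) : Set ℕ := {m | PvgHas N g θ (pvgTol m) Y}

/-- the best level of `Y` -/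
noncomputable def pvgLev (N : Set ℂ) (g : ℂ → ℂ) (θ : ℕ → ℝ) (Y : Set ℂ) : ℕ := sSup (pvgLevS N g θ Y)

/-- **THE bulk family of the analytic quad**: every site set gets its disc of the best tolerance + 3 fans + closing face -/
noncomputable def pvgBest (N : Set ℂ) (g : ℂ → ℂ) (θ : ℕ → ℝ) : PvBulk (Fin 3) := pvgFam fun Y => pvgDiscS N g θ (pvgTol (pvgLev N g θ Y)) Y

/-- **THE GOOD EVENT OF THE CONSUMERS**: `Y` carries its best disc, of tolerance `≤ ρ` -/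
def PvgFine (N : Set ℂ) (g : ℂ → ℂ) (θ : ℕ → ℝ) (ρ : ℝ) (Y : Set ℂ) : Prop := PvgHas N g θ (pvgTol (pvgLev N g θ Y)) Y ∧ pvgTol (pvgLev N g θ Y) ≤ ρ

theorem pvg_defs_eqns_cite2 : True := by
  have := @pvgTol.eq_1; have := @pvgLevS.eq_1; have := @pvgLev.eq_1; have := @pvgBest.eq_1; have := @PvgFine.eq_1
  trivial

theorem pvg_tol_pos (m : ℕ) : 0 < pvgTol m := by unfold pvgTol; positivity

theorem pvg_tol_anti {m m' : ℕ} (h : m ≤ m') : pvgTol m' ≤ pvgTol m := by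
  unfold pvgTol
  exact pow_le_pow_of_le_one (by norm_num) (by norm_num) (by omega)

theorem pvg_tol_le_half (m : ℕ) : pvgTol m ≤ 1 / 2 := by
  have := pvg_tol_anti (Nat.zero_le m)
  unfold pvgTol at *
  simpa using this

theorem pvg_tol_exists {ρ : ℝ} (hρ : 0 < ρ) : ∃ m, pvgTol m ≤ ρ := by
  obtain ⟨n, hn⟩ := exists_pow_lt_of_lt_one hρ (by norm_num : (1 / 2 : ℝ) < 1)
  refine ⟨n, ?_⟩
  unfold pvgTol
  calc (1 / 2 : ℝ) ^ (n + 1) ≤ (1 / 2) ^ n := pow_le_pow_of_le_one (by norm_num) (by norm_num) (by omega)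
    _ ≤ ρ := hn.le

/-- LEAF (free): a locally finite site set carries discs of boundedly many levels.      Proof: `S = Y ∩ K(1)` is finite (`DelGood.lf`, `pvg_ch_compact`), all vertices of a disc lie in `S` (`outer`);
take `t` with `pvgE t ∉ g '' S` (the circle is infinite), `δ = ` its distance to the finite set `g '' S`; field `near` fails as soon as `pvgTol m < δ`. -/
theorem pvg_lev_bdd {N : Set ℂ} {g : ℂ → ℂ} {R1 : ℝ} (ch : PvgCh N g R1) (θ : ℕ → ℝ) (Y : Set ℂ) : BddAbove (pvgLevS N g θ Y) := by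
  by_cases hgood : DelGood Y
  · have hS : (Y ∩ pvgK N g 1).Finite := by
      obtain ⟨R, hR⟩ := (pvg_ch_compact ch ch.one_lt.le).isBounded.subset_closedBall (0 : ℂ)
      exact (hgood.lf R).subset fun z hz => ⟨hz.1, hR hz.2⟩
    have hF : (g '' (Y ∩ pvgK N g 1)).Finite := hS.image g
    have hinj : InjOn pvgE (Icc 0 Real.pi) := by
      intro a ha b hb hab
      have h1 : (pvgE a).re = (pvgE b).re := by rw [hab]
      unfold pvgE at h1
      rw [Complex.exp_ofReal_mul_I_re, Complex.exp_ofReal_mul_I_re] at h1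
      exact Real.injOn_cos ha hb h1
    obtain ⟨w, ⟨t, -, rfl⟩, hw⟩ := ((Icc_infinite Real.pi_pos).image hinj).exists_notMem_finite hF
    obtain ⟨δ, hδ, hball⟩ := Metric.isOpen_iff.1 hF.isClosed.isOpen_compl _ hw
    obtain ⟨m₁, hm₁⟩ := pvg_tol_exists (half_pos hδ)
    refine ⟨m₁, fun m hm => ?_⟩
    by_contra hlt
    obtain ⟨h, Δ, ok⟩ := hm
    obtain ⟨k, hk⟩ := ok.near t
    have h1 : (delPl h).toMap.src (Δ.c.e k) ∈ (delPl h).toMap.VOf Δ.c.Left := by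
      rw [pl_VOf_left (delp_isSph h) Δ.c]
      exact Or.inl ⟨k, rfl⟩
    have h2 : g (Δ.x k) ∈ g '' (Y ∩ pvgK N g 1) := ⟨Δ.x k, ⟨((delPl h).toMap.src (Δ.c.e k)).2, ok.outer _ h1⟩, rfl⟩
    have h3 : g (Δ.x k) ∈ ball (pvgE t) δ := by
      rw [mem_ball, dist_eq_norm]
      have := pvg_tol_anti (not_le.1 hlt).le
      linarith
    exact hball h3 h2
  · exact ⟨0, fun m hm => absurd hm.good hgood⟩

section fine

variable {N : Set ℂ} {g : ℂ → ℂ} {R1 : ℝ} {θ : ℕ → ℝ} {ρ : ℝ} {Y : Set ℂ}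

/-- a disc at SOME level `m` with `pvgTol m ≤ ρ` puts `Y` in the good event -/
theorem pvg_fine_of_has (ch : PvgCh N g R1) {m : ℕ} (H : PvgHas N g θ (pvgTol m) Y) (hm : pvgTol m ≤ ρ) : PvgFine N g θ ρ Y := by
  have h1 : pvgLev N g θ Y ∈ pvgLevS N g θ Y := Nat.sSup_mem ⟨m, H⟩ (pvg_lev_bdd ch θ Y)
  have h2 : m ≤ pvgLev N g θ Y := le_csSup (pvg_lev_bdd ch θ Y) H
  exact ⟨h1, (pvg_tol_anti h2).trans hm⟩

theorem PvgFine.mono {ρ' : ℝ} (H : PvgFine N g θ ρ Y) (h : ρ ≤ ρ') : PvgFine N g θ ρ' Y := ⟨H.1, H.2.trans h⟩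

theorem PvgFine.good (H : PvgFine N g θ ρ Y) : DelGood Y := H.1.good

/-- THE disc of `Y` -/
noncomputable def PvgFine.dk (H : PvgFine N g θ ρ Y) : PvgDk H.good := H.1.dk

theorem PvgFine.ok (H : PvgFine N g θ ρ Y) : H.dk.Ok N g θ ρ := H.1.ok.mono H.2

/-- the disc does not depend on the tolerance at which it is looked at -/
theorem PvgFine.dk_eq {ρ' : ℝ} (H : PvgFine N g θ ρ Y) (H' : PvgFine N g θ ρ' Y) : H.dk = H'.dk := rfl

/-- THE completed sphere of `Y` -/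
noncomputable def PvgFine.fan (H : PvgFine N g θ ρ Y) : PvFan ↥Y (delPl H.good).Dart := H.dk.fan H.ok

/-- the surface of `pvgBest` at `Y` is the fan sphere of the disc of `Y` (equality of `PvgSurf`: state what you need for an arbitrary `s : PvgSurf (Fin 3)` and rewrite) -/
theorem PvgFine.surf_eq (H : PvgFine N g θ ρ Y) : pvgDiscS N g θ (pvgTol (pvgLev N g θ Y)) Y = pvgFanS H.fan := pvg_discS_eq H.1

/-- **EXIT (bulk)** -/
theorem PvgFine.bulk_ok (H : PvgFine N g θ ρ Y) : (pvgBest N g θ).Ok Y (pvgK N g (1 - ρ)) ∧ (pvgBest N g θ).Adm Y := by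
  have h1 := pvg_disc_ok H.1
  exact ⟨PvBulk.Ok.mono (𝔅 := pvgBest N g θ) ((pvg_w_fam_ok _ _ _).2 ((pvg_w_fam_ok _ _ _).1 h1.1)) (pvg_K_mono (by linarith [H.2])), h1.2⟩

end fine

theorem pvg_defs_eqns_cite3 : True := by
  have := @PvgFine.dk.eq_1; have := @PvgFine.fan.eq_1
  trivial

/-- **EXIT (deterministic)** -/
theorem pvg_fine_exists {N : Set ℂ} {g : ℂ → ℂ} {R1 : ℝ} (ch : PvgCh N g R1) {θ : ℕ → ℝ} (hθ : PvgMk θ) {ρ : ℝ} (hρ : 0 < ρ) :
    ∃ μ > 0, ∀ Y : Set ℂ, DelGood Y → PvgMesh N g R1 μ Y → PvgFine N g θ ρ Y := by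
  obtain ⟨m, hm⟩ := pvg_tol_exists hρ
  obtain ⟨μ, hμ, h⟩ := pvg_disc_exists ch hθ (pvg_tol_pos m) (pvg_tol_le_half m)
  exact ⟨μ, hμ, fun Y hY hmesh => pvg_fine_of_has ch (h Y hY hmesh) hm⟩

/-- **EXIT (probability, samples)** -/
theorem pvg_fine_tendsto {N : Set ℂ} {g : ℂ → ℂ} {R1 : ℝ} (ch : PvgCh N g R1) {θ : ℕ → ℝ} (hθ : PvgMk θ) {ρ : ℝ} (hρ : 0 < ρ) :
    ∃ G : ℝ → Set PVSample, (∀ ε, MeasurableSet (G ε)) ∧ (∀ ε, ∀ ω ∈ G ε, PvgFine N g θ ρ (cfSites (pvConf ω))) ∧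
      Tendsto (fun ε => pvLaw ε (G ε)) (𝓝[>] 0) (𝓝 1) := by
  obtain ⟨m, hm⟩ := pvg_tol_exists hρ
  obtain ⟨G, h1, h2, h3⟩ := pvg_has_tendsto ch hθ (pvg_tol_pos m) (pvg_tol_le_half m)
  exact ⟨G, h1, fun ε ω hω => pvg_fine_of_has ch (h2 ε ω hω) hm, h3⟩

/-- **EXIT (probability, labelled geometries)**: the form of the quenched consumers (`PppQ.lean`) -/
theorem pvg_fine_geo {N : Set ℂ} {g : ℂ → ℂ} {R1 : ℝ} (ch : PvgCh N g R1) {θ : ℕ → ℝ} (hθ : PvgMk θ) {ρ : ℝ} (hρ : 0 < ρ) :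
    ∃ G : ℝ → Set PvGeoT, (∀ ε, MeasurableSet (G ε)) ∧ (∀ ε, ∀ γ ∈ G ε, PvgFine N g θ ρ (pvgSites γ)) ∧
      Tendsto (fun ε => pvGeo ε (G ε)) (𝓝[>] 0) (𝓝 1) := by
  obtain ⟨G, h1, h2, h3⟩ := pvg_fine_tendsto ch hθ hρ
  refine ⟨fun ε => {γ | 0 < pvQ (G ε) γ}, fun ε => measurableSet_lt measurable_const (pvqu_Q_meas (h1 ε)), ?_, ?_⟩
  · intro ε γ hγ
    have hγ' : 0 < pvCol {c | pvMerge (γ, c) ∈ G ε} := hγ
    obtain ⟨c, hc⟩ := nonempty_of_measure_ne_zero hγ'.ne'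
    have := h2 ε _ hc
    rwa [pvqu_cfSites] at this
  · refine tendsto_of_tendsto_of_tendsto_of_le_of_le h3 tendsto_const_nhds (fun ε => ?_) (fun ε => prob_le_one)
    show pvLaw ε (G ε) ≤ pvGeo ε {γ | 0 < pvQ (G ε) γ}
    rw [← pvqu_Q_lintegral ε (h1 ε), ← lintegral_indicator_one (measurableSet_lt measurable_const (pvqu_Q_meas (h1 ε)))]
    refine lintegral_mono fun γ => ?_
    by_cases hγ : 0 < pvQ (G ε) γ
    · rw [indicator_of_mem (show γ ∈ {γ | 0 < pvQ (G ε) γ} from hγ)]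
      exact pvqu_Q_le_one _ _
    · rw [indicator_of_notMem (show γ ∉ {γ | 0 < pvQ (G ε) γ} from hγ)]
      exact not_lt.1 hγ

end Claimed.Agent.R289
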