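-- KEEP CAPOK
import Claimed.Agent.R289.Brg.Defs

/-!
# Row 289 (S0537), box BRIDGE, file Brg/Angle : THE ANGLE DICTIONARY OF AN ANALYTIC QUAD      (owner helper90; prefix `pvga_`; 0 sorry)

CONSUMER: the cut of `exit_pv_disc` (`PvgDk.Ok` in the chart `g` ⟹ `PvoFam.Good` in the plane): fields `arc densB sec` (+ `ok`).
In the chart `g` of `PvAn` (`pvg_ch_of_an`): `ψ = i (1 + g) / (1 - g)`, so on the unit circle `g z = e^{it}`:   `ψ z = tan ((t - π) / 2) = - cot (t / 2)`.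
MARKS `pvgaTh x` = `π` (`a = ψ⁻¹ 0`), `π + 2 arctan x` (`b = ψ⁻¹ x`), `3π/2` (`c = ψ⁻¹ 1`), `2π` (`d`), `3π` (`a` again).
ALL statements are UNFOLDED (bodies of `pvoArc D d ψ j` of `Obs/Sys.lean`): this file does not import `Obs/Sys`.
-/

set_option autoImplicit false

namespace Claimed.Agent.R289

open Set Metric
open scoped Real

/-! ## 1. the circle -/

theorem pvga_E_eq (t : ℝ) : pvgE t = ((Real.cos t : ℝ) : ℂ) + ((Real.sin t : ℝ) : ℂ) * Complex.I := by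
  unfold pvgE
  rw [Complex.exp_mul_I, Complex.ofReal_cos, Complex.ofReal_sin]

theorem pvga_E_sq (t : ℝ) : pvgE t = pvgE (t / 2) * pvgE (t / 2) := by
  unfold pvgE
  rw [← Complex.exp_add]
  congr 1
  push_cast
  ring

theorem pvga_E_ne (t : ℝ) : pvgE t ≠ 0 := Complex.exp_ne_zero _

theorem pvga_E_add (t : ℝ) : pvgE (t + 2 * π) = pvgE t := by
  unfold pvgE
  have e : ((t + 2 * π : ℝ) : ℂ) * Complex.I = (t : ℂ) * Complex.I + 2 * π * Complex.I := by push_cast; ring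
  rw [e, Complex.exp_add, Complex.exp_two_pi_mul_I, mul_one]

theorem pvga_E_two_pi : pvgE (2 * π) = 1 := by
  unfold pvgE
  have e : ((2 * π : ℝ) : ℂ) * Complex.I = 2 * π * Complex.I := by push_cast; ring
  rw [e, Complex.exp_two_pi_mul_I]

theorem pvga_one_sub (t : ℝ) : 1 - pvgE t = -2 * Complex.I * ((Real.sin (t / 2) : ℝ) : ℂ) * pvgE (t / 2) := by
  have h2 : ((Real.cos (t / 2) : ℝ) : ℂ) ^ 2 + ((Real.sin (t / 2) : ℝ) : ℂ) ^ 2 = 1 := by exact_mod_cast Real.cos_sq_add_sin_sq (t / 2)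
  rw [pvga_E_sq t, pvga_E_eq (t / 2)]
  linear_combination (-1 : ℂ) * h2 + ((Real.sin (t / 2) : ℝ) : ℂ) ^ 2 * Complex.I_sq

theorem pvga_one_add (t : ℝ) : 1 + pvgE t = 2 * ((Real.cos (t / 2) : ℝ) : ℂ) * pvgE (t / 2) := by
  have h2 : ((Real.cos (t / 2) : ℝ) : ℂ) ^ 2 + ((Real.sin (t / 2) : ℝ) : ℂ) ^ 2 = 1 := by exact_mod_cast Real.cos_sq_add_sin_sq (t / 2)
  rw [pvga_E_sq t, pvga_E_eq (t / 2)]
  linear_combination (-1 : ℂ) * h2 + ((Real.sin (t / 2) : ℝ) : ℂ) ^ 2 * Complex.I_sq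

theorem pvga_E_ne_one {t : ℝ} (ht : Real.sin (t / 2) ≠ 0) : pvgE t ≠ 1 := by
  intro h
  have h1 := pvga_one_sub t
  rw [h, sub_self] at h1
  have h2 : ((Real.sin (t / 2) : ℝ) : ℂ) ≠ 0 := by exact_mod_cast ht
  exact mul_ne_zero (mul_ne_zero (mul_ne_zero (by norm_num) Complex.I_ne_zero) h2) (pvga_E_ne _) h1.symm

/-- **the Cayley transform on the circle** -/
theorem pvga_cayley {t : ℝ} (ht : Real.sin (t / 2) ≠ 0) : Complex.I * (1 + pvgE t) / (1 - pvgE t) = ((Real.tan ((t - π) / 2) : ℝ) : ℂ) := by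
  have h2 : ((Real.sin (t / 2) : ℝ) : ℂ) ≠ 0 := by exact_mod_cast ht
  have h3 := pvga_E_ne (t / 2)
  have e : (t - π) / 2 = t / 2 - π / 2 := by ring
  rw [pvga_one_sub, pvga_one_add, Real.tan_eq_sin_div_cos, e, Real.sin_sub_pi_div_two, Real.cos_sub_pi_div_two]
  push_cast
  have hI := Complex.I_ne_zero
  field_simp

/-- the Cayley transform is injective -/
theorem pvga_cayley_inj {w w' : ℂ} (hw : w ≠ 1) (hw' : w' ≠ 1) (h : Complex.I * (1 + w) / (1 - w) = Complex.I * (1 + w') / (1 - w')) : w = w' := by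
  have h1 : (1 : ℂ) - w ≠ 0 := sub_ne_zero.2 (Ne.symm hw)
  have h2 : (1 : ℂ) - w' ≠ 0 := sub_ne_zero.2 (Ne.symm hw')
  rw [div_eq_div_iff h1 h2] at h
  have h3 : (1 + w) * (1 - w') = (1 + w') * (1 - w) := by
    apply mul_left_cancel₀ Complex.I_ne_zero
    linear_combination h
  linear_combination (1 / 2 : ℂ) * h3

/-! ## 2. signs of `sin (t/2)`, values of `tan ((t - π)/2)` -/

theorem pvga_sin_pos {t : ℝ} (h1 : 0 < t) (h2 : t < 2 * π) : Real.sin (t / 2) ≠ 0 :=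
  (Real.sin_pos_of_pos_of_lt_pi (by linarith) (by linarith)).ne'

theorem pvga_sin_neg {t : ℝ} (h1 : 2 * π < t) (h2 : t < 4 * π) : Real.sin (t / 2) ≠ 0 := by
  have h3 : 0 < Real.sin (t / 2 - π) := Real.sin_pos_of_pos_of_lt_pi (by linarith) (by linarith)
  rw [Real.sin_sub_pi] at h3
  intro h
  rw [h] at h3
  simp at h3

theorem pvga_tan_mono {u v : ℝ} (hu : -(π / 2) < u) (huv : u ≤ v) (hv : v < π / 2) : Real.tan u ≤ Real.tan v :=
  Real.strictMonoOn_tan.monotoneOn ⟨hu, by linarith⟩ ⟨by linarith, hv⟩ huv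

theorem pvga_tan_L {x t : ℝ} (h1 : π ≤ t) (h2 : t ≤ π + 2 * Real.arctan x) : 0 ≤ Real.tan ((t - π) / 2) ∧ Real.tan ((t - π) / 2) ≤ x := by
  have hp := Real.pi_pos
  have ha := Real.arctan_lt_pi_div_two x
  constructor
  · have := pvga_tan_mono (u := 0) (v := (t - π) / 2) (by linarith) (by linarith) (by linarith)
    rwa [Real.tan_zero] at this
  · have := pvga_tan_mono (u := (t - π) / 2) (v := Real.arctan x) (by linarith) (by linarith) ha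
    rwa [Real.tan_arctan] at this

theorem pvga_tan_0 {t : ℝ} (h1 : π ≤ t) (h2 : t ≤ 3 * π / 2) : 0 ≤ Real.tan ((t - π) / 2) ∧ Real.tan ((t - π) / 2) ≤ 1 :=
  pvga_tan_L h1 (by rw [Real.arctan_one]; linarith)

theorem pvga_tan_1 {t : ℝ} (h1 : 3 * π / 2 ≤ t) (h2 : t < 2 * π) : 1 ≤ Real.tan ((t - π) / 2) := by
  have hp := Real.pi_pos
  have := pvga_tan_mono (u := π / 4) (v := (t - π) / 2) (by linarith) (by linarith) (by linarith)
  rwa [Real.tan_pi_div_four] at this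

theorem pvga_tan_2 {t : ℝ} (h1 : 2 * π < t) (h2 : t ≤ 3 * π) : Real.tan ((t - π) / 2) ≤ 0 := by
  have hp := Real.pi_pos
  have e : Real.tan ((t - π) / 2 - π) = Real.tan ((t - π) / 2) := Real.tan_periodic.sub_eq _
  rw [← e]
  have := pvga_tan_mono (u := (t - π) / 2 - π) (v := 0) (by linarith) (by linarith) (by linarith)
  rwa [Real.tan_zero] at this

/-! ## 3. the marks -/

/-- the angles of the marks `a b c d a` -/
noncomputable def pvgaTh (x : ℝ) : ℕ → ℝ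
  | 0 => π
  | 1 => π + 2 * Real.arctan x
  | 2 => 3 * π / 2
  | 3 => 2 * π
  | _ => 3 * π

theorem pvga_eqns_cite : True := by
  have := @pvgaTh.eq_1
  trivial

theorem pvga_th0 (x : ℝ) : pvgaTh x 0 = π := rfl
theorem pvga_th1 (x : ℝ) : pvgaTh x 1 = π + 2 * Real.arctan x := rfl
theorem pvga_th2 (x : ℝ) : pvgaTh x 2 = 3 * π / 2 := rfl
theorem pvga_th3 (x : ℝ) : pvgaTh x 3 = 2 * π := rfl
theorem pvga_th4 (x : ℝ) : pvgaTh x 4 = 3 * π := rfl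

theorem pvga_mk {x : ℝ} (hx0 : 0 < x) (hx1 : x < 1) : PvgMk (pvgaTh x) := by
  have hp := Real.pi_pos
  have h0 : 0 < Real.arctan x := Real.arctan_pos.2 hx0
  have h1 : Real.arctan x < π / 4 := by rw [← Real.arctan_one]; exact Real.arctan_strictMono hx1
  refine ⟨fun j hj => ?_, ?_⟩
  · interval_cases j
    · rw [pvga_th0, pvga_th1]; linarith
    · rw [pvga_th1, pvga_th2]; linarith
    · rw [pvga_th2, pvga_th3]; linarith
    · rw [pvga_th3, pvga_th4]; linarith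
  · rw [pvga_th4, pvga_th0]; ring

/-! ## 4. the quad in its chart.      Hypotheses = `PvChart D d ψ` + the conclusion of `pvg_ch_of_an` -/

section quad

variable {D : Set ℂ} {d : ℂ} {ψ : ℂ → ℂ} {N : Set ℂ} {g : ℂ → ℂ} {R1 : ℝ}

/-- the frontier is the level `1` -/
theorem pvga_frontier (hc : PvChart D d ψ) (hDo : D = N ∩ g ⁻¹' ball 0 1) (hcl : closure D = pvgK N g 1) {z : ℂ} : z ∈ frontier D ↔ z ∈ N ∧ ‖g z‖ = 1 := by
  have hD : ∀ w, w ∈ D ↔ w ∈ N ∧ ‖g w‖ < 1 := fun w => by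
    constructor
    · intro hw
      rw [hDo] at hw
      exact ⟨hw.1, by simpa using hw.2⟩
    · intro hw
      rw [hDo]
      exact ⟨hw.1, by simpa using hw.2⟩
  rw [frontier, hc.isOpen.interior_eq, hcl]
  constructor
  · rintro ⟨⟨hN, hle⟩, hnot⟩
    refine ⟨hN, le_antisymm hle ?_⟩
    by_contra hlt
    push Not at hlt
    exact hnot ((hD z).2 ⟨hN, hlt⟩)
  · rintro ⟨hN, heq⟩
    exact ⟨⟨hN, heq.le⟩, fun hz => absurd ((hD z).1 hz).2 (by rw [heq]; exact lt_irrefl _)⟩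

theorem pvga_d_mem (hc : PvChart D d ψ) (hcl : closure D = pvgK N g 1) : d ∈ N := by
  have : d ∈ closure D := frontier_subset_closure hc.hd
  rw [hcl] at this
  exact this.1

/-- `d` is the point of angle `0` -/
theorem pvga_eq_d (ch : PvgCh N g R1) (hc : PvChart D d ψ) (hcl : closure D = pvgK N g 1) (hgd : g d = 1) {z : ℂ} (hz : z ∈ N) : g z = 1 ↔ z = d :=
  ⟨fun h => ch.inj hz (pvga_d_mem hc hcl) (h.trans hgd.symm), fun h => h ▸ hgd⟩

/-- **`ψ` at the point of angle `t`** -/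
theorem pvga_psi (ch : PvgCh N g R1) (hc : PvChart D d ψ) (hDo : D = N ∩ g ⁻¹' ball 0 1) (hcl : closure D = pvgK N g 1) (hgd : g d = 1)
    (hψ : ∀ z ∈ closure D \ {d}, ψ z = Complex.I * (1 + g z) / (1 - g z)) {z : ℂ} {t : ℝ} (hz : z ∈ N) (hgz : g z = pvgE t) (ht : Real.sin (t / 2) ≠ 0) :
    z ∈ frontier D ∧ z ≠ d ∧ ψ z = ((Real.tan ((t - π) / 2) : ℝ) : ℂ) := by
  have h1 : z ∈ frontier D := (pvga_frontier hc hDo hcl).2 ⟨hz, by rw [hgz, pvg_E_norm]⟩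
  have h2 : z ≠ d := fun h => pvga_E_ne_one ht (hgz ▸ (pvga_eq_d ch hc hcl hgd hz).2 h)
  exact ⟨h1, h2, by rw [hψ z ⟨frontier_subset_closure h1, h2⟩, hgz, pvga_cayley ht]⟩

/-- FORWARD, `[a, b]`: angles in `[π, π + 2 arctan x]` -/
theorem pvga_fwd_L (ch : PvgCh N g R1) (hc : PvChart D d ψ) (hDo : D = N ∩ g ⁻¹' ball 0 1) (hcl : closure D = pvgK N g 1) (hgd : g d = 1)
    (hψ : ∀ z ∈ closure D \ {d}, ψ z = Complex.I * (1 + g z) / (1 - g z)) {x : ℝ} {z : ℂ} {t : ℝ} (hz : z ∈ N) (hgz : g z = pvgE t)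
    (h1 : π ≤ t) (h2 : t ≤ π + 2 * Real.arctan x) : z ∈ pvArcL D d ψ x := by
  have hp := Real.pi_pos
  have ha := Real.arctan_lt_pi_div_two x
  obtain ⟨a1, a2, a3⟩ := pvga_psi ch hc hDo hcl hgd hψ hz hgz (pvga_sin_pos (by linarith) (by linarith))
  have h3 := pvga_tan_L h1 h2
  exact ⟨a1, a2, by rw [a3, Complex.ofReal_re]; exact h3.1, by rw [a3, Complex.ofReal_re]; exact h3.2⟩

/-- FORWARD, arc `0 = [a, c]`: angles in `[π, 3π/2]` -/
theorem pvga_fwd_0 (ch : PvgCh N g R1) (hc : PvChart D d ψ) (hDo : D = N ∩ g ⁻¹' ball 0 1) (hcl : closure D = pvgK N g 1) (hgd : g d = 1)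
    (hψ : ∀ z ∈ closure D \ {d}, ψ z = Complex.I * (1 + g z) / (1 - g z)) {z : ℂ} {t : ℝ} (hz : z ∈ N) (hgz : g z = pvgE t)
    (h1 : π ≤ t) (h2 : t ≤ 3 * π / 2) : z ∈ frontier D ∧ z ≠ d ∧ 0 ≤ (ψ z).re ∧ (ψ z).re ≤ 1 :=
  pvga_fwd_L ch hc hDo hcl hgd hψ (x := 1) hz hgz h1 (by rw [Real.arctan_one]; linarith)

/-- FORWARD, arc `1 = [c, d]`: angles in `[3π/2, 2π]` -/
theorem pvga_fwd_1 (ch : PvgCh N g R1) (hc : PvChart D d ψ) (hDo : D = N ∩ g ⁻¹' ball 0 1) (hcl : closure D = pvgK N g 1) (hgd : g d = 1)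
    (hψ : ∀ z ∈ closure D \ {d}, ψ z = Complex.I * (1 + g z) / (1 - g z)) {z : ℂ} {t : ℝ} (hz : z ∈ N) (hgz : g z = pvgE t)
    (h1 : 3 * π / 2 ≤ t) (h2 : t ≤ 2 * π) : z ∈ pvArcR D d ψ := by
  have hp := Real.pi_pos
  rcases h2.lt_or_eq with h2 | rfl
  · obtain ⟨a1, a2, a3⟩ := pvga_psi ch hc hDo hcl hgd hψ hz hgz (pvga_sin_pos (by linarith) h2)
    exact Or.inr ⟨a1, a2, by rw [a3, Complex.ofReal_re]; exact pvga_tan_1 h1 h2⟩
  · exact Or.inl ((pvga_eq_d ch hc hcl hgd hz).1 (hgz.trans pvga_E_two_pi))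

/-- FORWARD, arc `2 = [d, a]`: angles in `[2π, 3π]` -/
theorem pvga_fwd_2 (ch : PvgCh N g R1) (hc : PvChart D d ψ) (hDo : D = N ∩ g ⁻¹' ball 0 1) (hcl : closure D = pvgK N g 1) (hgd : g d = 1)
    (hψ : ∀ z ∈ closure D \ {d}, ψ z = Complex.I * (1 + g z) / (1 - g z)) {z : ℂ} {t : ℝ} (hz : z ∈ N) (hgz : g z = pvgE t)
    (h1 : 2 * π ≤ t) (h2 : t ≤ 3 * π) : z = d ∨ (z ∈ frontier D ∧ z ≠ d ∧ (ψ z).re ≤ 0) := by
  have hp := Real.pi_pos
  rcases h1.lt_or_eq with h1 | rfl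
  · obtain ⟨a1, a2, a3⟩ := pvga_psi ch hc hDo hcl hgd hψ hz hgz (pvga_sin_neg h1 (by linarith))
    exact Or.inr ⟨a1, a2, by rw [a3, Complex.ofReal_re]; exact pvga_tan_2 h1 h2⟩
  · exact Or.inl ((pvga_eq_d ch hc hcl hgd hz).1 (hgz.trans pvga_E_two_pi))

/-- **BACKWARD**: the angle of a boundary point -/
theorem pvga_bwd (ch : PvgCh N g R1) (hc : PvChart D d ψ) (hDo : D = N ∩ g ⁻¹' ball 0 1) (hcl : closure D = pvgK N g 1) (hgd : g d = 1)
    (hψ : ∀ z ∈ closure D \ {d}, ψ z = Complex.I * (1 + g z) / (1 - g z)) {p : ℂ} (hp : p ∈ frontier D) (hpd : p ≠ d) :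
    g p = pvgE (π + 2 * Real.arctan (ψ p).re) := by
  have hpN : p ∈ N := ((pvga_frontier hc hDo hcl).1 hp).1
  have him : (ψ p).im = 0 := by
    have : ψ p ∈ ψ '' (frontier D \ {d}) := ⟨p, ⟨hp, hpd⟩, rfl⟩
    rw [hc.imgB] at this
    exact this
  have hre : ψ p = (((ψ p).re : ℝ) : ℂ) := Complex.ext (by simp) (by simp [him])
  have hs : Real.sin ((π + 2 * Real.arctan (ψ p).re) / 2) ≠ 0 := by
    have h1 := Real.arctan_lt_pi_div_two (ψ p).re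
    have h2 := Real.neg_pi_div_two_lt_arctan (ψ p).re
    exact pvga_sin_pos (by linarith) (by linarith)
  have h1 := pvga_cayley hs
  have e : (π + 2 * Real.arctan (ψ p).re - π) / 2 = Real.arctan (ψ p).re := by ring
  rw [e, Real.tan_arctan, ← hre] at h1
  exact (pvga_cayley_inj (pvga_E_ne_one hs) (fun h => hpd ((pvga_eq_d ch hc hcl hgd hpN).1 h)) (h1.trans (hψ p ⟨frontier_subset_closure hp, hpd⟩))).symm

/-- BACKWARD, `[a, b]` -/
theorem pvga_bwd_L (ch : PvgCh N g R1) (hc : PvChart D d ψ) (hDo : D = N ∩ g ⁻¹' ball 0 1) (hcl : closure D = pvgK N g 1) (hgd : g d = 1)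
    (hψ : ∀ z ∈ closure D \ {d}, ψ z = Complex.I * (1 + g z) / (1 - g z)) {x : ℝ} {p : ℂ} (hp : p ∈ pvArcL D d ψ x) :
    ∃ t, π ≤ t ∧ t ≤ π + 2 * Real.arctan x ∧ g p = pvgE t := by
  obtain ⟨h1, h2, h3, h4⟩ := hp
  refine ⟨_, ?_, ?_, pvga_bwd ch hc hDo hcl hgd hψ h1 h2⟩
  · have := Real.arctan_nonneg.2 h3
    linarith
  · have := Real.arctan_strictMono.monotone h4
    linarith

/-- BACKWARD, arc `0` -/
theorem pvga_bwd_0 (ch : PvgCh N g R1) (hc : PvChart D d ψ) (hDo : D = N ∩ g ⁻¹' ball 0 1) (hcl : closure D = pvgK N g 1) (hgd : g d = 1)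
    (hψ : ∀ z ∈ closure D \ {d}, ψ z = Complex.I * (1 + g z) / (1 - g z)) {p : ℂ} (hp : p ∈ frontier D) (hpd : p ≠ d) (h0 : 0 ≤ (ψ p).re) (h1 : (ψ p).re ≤ 1) :
    ∃ t, π ≤ t ∧ t ≤ 3 * π / 2 ∧ g p = pvgE t := by
  obtain ⟨t, a1, a2, a3⟩ := pvga_bwd_L ch hc hDo hcl hgd hψ (x := 1) ⟨hp, hpd, h0, h1⟩
  rw [Real.arctan_one] at a2
  exact ⟨t, a1, by linarith, a3⟩

/-- BACKWARD, arc `1` -/
theorem pvga_bwd_1 (ch : PvgCh N g R1) (hc : PvChart D d ψ) (hDo : D = N ∩ g ⁻¹' ball 0 1) (hcl : closure D = pvgK N g 1) (hgd : g d = 1)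
    (hψ : ∀ z ∈ closure D \ {d}, ψ z = Complex.I * (1 + g z) / (1 - g z)) {p : ℂ} (hp : p ∈ pvArcR D d ψ) :
    ∃ t, 3 * π / 2 ≤ t ∧ t ≤ 2 * π ∧ g p = pvgE t := by
  have hpi := Real.pi_pos
  rcases hp with rfl | ⟨h1, h2, h3⟩
  · exact ⟨2 * π, by linarith, le_rfl, by rw [hgd, pvga_E_two_pi]⟩
  · refine ⟨_, ?_, ?_, pvga_bwd ch hc hDo hcl hgd hψ h1 h2⟩
    · have := Real.arctan_strictMono.monotone h3
      rw [Real.arctan_one] at this
      linarith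
    · have := Real.arctan_lt_pi_div_two (ψ p).re
      linarith

/-- BACKWARD, arc `2` -/
theorem pvga_bwd_2 (ch : PvgCh N g R1) (hc : PvChart D d ψ) (hDo : D = N ∩ g ⁻¹' ball 0 1) (hcl : closure D = pvgK N g 1) (hgd : g d = 1)
    (hψ : ∀ z ∈ closure D \ {d}, ψ z = Complex.I * (1 + g z) / (1 - g z)) {p : ℂ} (hp : p = d ∨ (p ∈ frontier D ∧ p ≠ d ∧ (ψ p).re ≤ 0)) :
    ∃ t, 2 * π ≤ t ∧ t ≤ 3 * π ∧ g p = pvgE t := by
  have hpi := Real.pi_pos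
  rcases hp with rfl | ⟨h1, h2, h3⟩
  · exact ⟨2 * π, le_rfl, by linarith, by rw [hgd, pvga_E_two_pi]⟩
  · refine ⟨π + 2 * Real.arctan (ψ p).re + 2 * π, ?_, ?_, by rw [pvga_E_add]; exact pvga_bwd ch hc hDo hcl hgd hψ h1 h2⟩
    · have := Real.neg_pi_div_two_lt_arctan (ψ p).re
      linarith
    · have := Real.arctan_strictMono.monotone h3
      rw [Real.arctan_zero] at this
      linarith

/-- the mark `b` -/
theorem pvga_b (ch : PvgCh N g R1) (hc : PvChart D d ψ) (hDo : D = N ∩ g ⁻¹' ball 0 1) (hcl : closure D = pvgK N g 1) (hgd : g d = 1)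
    (hψ : ∀ z ∈ closure D \ {d}, ψ z = Complex.I * (1 + g z) / (1 - g z)) {x : ℝ} {b : ℂ} (hb : b ∈ frontier D) (hbd : b ≠ d) (hx : ψ b = x) :
    g b = pvgE (pvgaTh x 1) := by
  have := pvga_bwd ch hc hDo hcl hgd hψ hb hbd
  rwa [hx, Complex.ofReal_re] at this

end quad

end Claimed.Agent.R289
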