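import Claimed.Agent.R289.Defs.Top
import Claimed.Agent.R289.Chart

/-!
# Row 289 (S0537, Cardy for Poisson-Voronoi), unit BRIDGE, box DISC-GEO, Brg/Chart : THE ANALYTIC CHART OF A NICE QUAD      (owner helper173; prefix `pvgc_`, record `PvgcCh`, sets `pvgcK pvgcU pvgcLev`; UPSTREAM of `Brg/Defs`: the leaves `pvg_ch_*` there are calls of §4')

Ruling 1 of 188 (CH): everything in the chart `g` of `PvAn` (`g` holomorphic and injective on an open `N ⊇ closure D`, `D = N ∩ g⁻¹ ball 0 1`).   NO Jordan curve theorem: inside / outside = level sets of `|g|`.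
Pure complex analysis and plane topology: no `PvMap`, no Voronoi cell.   Consumers: LOC (90, `Brg/Disc`), ORD (253, 19), D4 (10), OBS (111), EXT (61).

* §1 GENERAL   `pvgc_open_img` (an injective holomorphic map is open), `pvgc_inv_contAt`, `pvgc_inv_diff` (the inverse is holomorphic), `pvgc_lip_compact` (holomorphic ⟹ Lipschitz on compact sets)
* §2 RECORD    `pvgcK N g r = {z ∈ N | ‖g z‖ ≤ r}`, `pvgcU` (`<`), `pvgcLev` (`=`);   `PvgcCh N g h R1 L`: `h` = inverse chart on `closedBall 0 R1`, `1 < R1`, bi-Lipschitz constant `L`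
* §3 LEMMAS    `hg`, `K_eq`, `K_compact`, `K_conn`, `K_mono`, `U_open`;   **`cross`** (a preconnected set which meets `K r` and leaves `K r'` meets every level between);   **`fat`**, `thin` (a small set meeting `K r` lies in `K (r + L δ)`);
               `img_conn` (images of convex sets of the chart), `thales` (closed disc minus a ball centred on its boundary is star shaped about the antipode)
* §4 PRODUCER  **`pvgc_exists`** : `PvAn D d ψ → ∃ N g h R1 L, PvgcCh N g h R1 L ∧ D = pvgcU N g 1 ∧ closure D = pvgcK N g 1 ∧ frontier D = pvgcLev N g 1 ∧ g d = 1 ∧ ..`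
* §5 ANGLES    on the unit circle `ψ = - cot (θ / 2)`: the arcs `pvArcL`, `pvArcR` as intervals of angles
-/

set_option autoImplicit false
set_option linter.unusedSectionVars false
set_option linter.unusedVariables false

namespace Claimed.Agent.R289

open Complex Set Filter Topology Metric

/-! ## §1 general complex analysis -/

section gen

variable {N : Set ℂ} {g : ℂ → ℂ}

/-- an injective function is not locally constant -/
theorem pvgc_not_const (hN : IsOpen N) (hi : InjOn g N) {z : ℂ} (hz : z ∈ N) : ¬ ∀ᶠ w in 𝓝 z, g w = g z := by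
  intro h
  obtain ⟨r, hr, hball⟩ := Metric.eventually_nhds_iff_ball.1 (h.and (hN.eventually_mem hz))
  have hm : z + (r / 2 : ℝ) ∈ ball z r := by
    rw [Metric.mem_ball, dist_eq_norm]
    simp only [add_sub_cancel_left, norm_real, Real.norm_eq_abs]
    rw [abs_of_pos (by positivity)]
    linarith
  have h3 := hi (hball _ hm).2 hz (hball _ hm).1
  have h4 : ((r / 2 : ℝ) : ℂ) = 0 := by rwa [add_eq_left] at h3
  have h5 : r / 2 = 0 := by exact_mod_cast h4
  linarith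

/-- **an injective holomorphic map is open** -/
theorem pvgc_open_img (hN : IsOpen N) (hg : DifferentiableOn ℂ g N) (hi : InjOn g N) {U : Set ℂ} (hU : IsOpen U) (hUN : U ⊆ N) : IsOpen (g '' U) := by
  rw [isOpen_iff_mem_nhds]
  rintro _ ⟨z, hz, rfl⟩
  have han : AnalyticAt ℂ g z := hg.analyticAt (hN.mem_nhds (hUN hz))
  rcases han.eventually_constant_or_nhds_le_map_nhds with h | h
  · exact absurd h (pvgc_not_const hN hi (hUN hz))
  · exact h (Filter.image_mem_map (hU.mem_nhds hz))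

theorem pvgc_inv_mem {w : ℂ} (hw : w ∈ g '' N) : Function.invFunOn g N w ∈ N := Function.invFunOn_mem hw

theorem pvgc_inv_right {w : ℂ} (hw : w ∈ g '' N) : g (Function.invFunOn g N w) = w := Function.invFunOn_eq hw

theorem pvgc_inv_left (hi : InjOn g N) {z : ℂ} (hz : z ∈ N) : Function.invFunOn g N (g z) = z :=
  hi (pvgc_inv_mem ⟨z, hz, rfl⟩) hz (pvgc_inv_right ⟨z, hz, rfl⟩)

/-- the inverse is continuous -/
theorem pvgc_inv_contAt (hN : IsOpen N) (hg : DifferentiableOn ℂ g N) (hi : InjOn g N) {w : ℂ} (hw : w ∈ g '' N) :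
    ContinuousAt (Function.invFunOn g N) w := by
  intro U hU
  rw [Filter.mem_map]
  have h1 : IsOpen (interior U ∩ N) := isOpen_interior.inter hN
  have h2 : Function.invFunOn g N w ∈ interior U ∩ N := ⟨mem_interior_iff_mem_nhds.2 hU, pvgc_inv_mem hw⟩
  have h3 := pvgc_open_img hN hg hi h1 inter_subset_right
  refine mem_of_superset (h3.mem_nhds ⟨_, h2, pvgc_inv_right hw⟩) ?_
  rintro _ ⟨z, hz, rfl⟩
  show Function.invFunOn g N (g z) ∈ U
  rw [pvgc_inv_left hi hz.2]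
  exact interior_subset hz.1

/-- **the inverse of an injective holomorphic map is holomorphic** (the critical points are removable singularities) -/
theorem pvgc_inv_diff (hN : IsOpen N) (hg : DifferentiableOn ℂ g N) (hi : InjOn g N) : DifferentiableOn ℂ (Function.invFunOn g N) (g '' N) := by
  have ho : IsOpen (g '' N) := pvgc_open_img hN hg hi hN Subset.rfl
  intro w0 hw0
  have hz0 : Function.invFunOn g N w0 ∈ N := pvgc_inv_mem hw0
  have han : AnalyticAt ℂ g (Function.invFunOn g N w0) := hg.analyticAt (hN.mem_nhds hz0)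
  refine (Complex.analyticAt_of_differentiable_on_punctured_nhds_of_continuousAt ?_ (pvgc_inv_contAt hN hg hi hw0)).differentiableAt.differentiableWithinAt
  rcases han.deriv.eventually_eq_zero_or_eventually_ne_zero with hzero | hne
  · exfalso
    obtain ⟨r, hr, hball⟩ := Metric.eventually_nhds_iff_ball.1 (hzero.and (hN.eventually_mem hz0))
    refine pvgc_not_const hN hi hz0 ?_
    filter_upwards [Metric.ball_mem_nhds _ hr] with y hy
    exact Metric.isOpen_ball.is_const_of_deriv_eq_zero (convex_ball (Function.invFunOn g N w0) r).isPreconnected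
      (f := g) (hg.mono fun y hy => (hball y hy).2) (fun y hy => (hball y hy).1) hy (Metric.mem_ball_self hr)
  · have ht : Tendsto (Function.invFunOn g N) (𝓝[≠] w0) (𝓝[≠] (Function.invFunOn g N w0)) := by
      refine tendsto_nhdsWithin_iff.2 ⟨(pvgc_inv_contAt hN hg hi hw0).tendsto.mono_left nhdsWithin_le_nhds, ?_⟩
      filter_upwards [mem_nhdsWithin_of_mem_nhds (ho.mem_nhds hw0), self_mem_nhdsWithin] with w hw1 hw2 e
      apply hw2
      rw [mem_singleton_iff, ← pvgc_inv_right hw1, e, pvgc_inv_right hw0]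
    filter_upwards [ht.eventually hne, mem_nhdsWithin_of_mem_nhds (ho.mem_nhds hw0)] with w hw1 hw2
    have hwD : Function.invFunOn g N w ∈ N := pvgc_inv_mem hw2
    have hd1 : HasDerivAt g (deriv g (Function.invFunOn g N w)) (Function.invFunOn g N w) :=
      (hg.differentiableAt (hN.mem_nhds hwD)).hasDerivAt
    have hd2 : HasDerivAt (Function.invFunOn g N) (deriv g (Function.invFunOn g N w))⁻¹ w := by
      refine HasDerivAt.of_local_left_inverse (pvgc_inv_contAt hN hg hi hw2) hd1 hw1 ?_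
      filter_upwards [ho.mem_nhds hw2] with y hy
      exact pvgc_inv_right hy
    exact hd2.differentiableAt

/-- **a holomorphic function is Lipschitz on compact sets** -/
theorem pvgc_lip_compact (hN : IsOpen N) (hg : DifferentiableOn ℂ g N) {K : Set ℂ} (hK : IsCompact K) (hKN : K ⊆ N) :
    ∃ L : ℝ, 0 ≤ L ∧ ∀ z ∈ K, ∀ w ∈ K, ‖g z - g w‖ ≤ L * ‖z - w‖ := by
  obtain ⟨δ, hδ, hsub⟩ := hK.exists_cthickening_subset_open hN hKN
  have hc : IsCompact (cthickening δ K) := hK.cthickening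
  have hdc : ContinuousOn (deriv g) N := (hg.analyticOnNhd hN).deriv.continuousOn
  obtain ⟨M, hM⟩ := hc.exists_bound_of_continuousOn (hdc.mono hsub)
  obtain ⟨B, hB⟩ := hK.exists_bound_of_continuousOn (hg.continuousOn.mono hKN)
  have hM0 : 0 ≤ max M 0 := le_max_right _ _
  have hB0 : 0 ≤ max B 0 := le_max_right _ _
  refine ⟨max M 0 + 2 * max B 0 / δ, by positivity, fun z hz w hw => ?_⟩
  by_cases hzw : ‖z - w‖ ≤ δ
  · have hball : closedBall w δ ⊆ cthickening δ K := closedBall_subset_cthickening hw δ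
    have h1 := Convex.norm_image_sub_le_of_norm_deriv_le (𝕜 := ℂ) (f := g) (s := closedBall w δ) (C := max M 0) (x := w) (y := z)
      (fun x hx => hg.differentiableAt (hN.mem_nhds (hsub (hball hx)))) (fun x hx => (hM x (hball hx)).trans (le_max_left _ _))
      (convex_closedBall w δ) (mem_closedBall_self hδ.le) (by rw [mem_closedBall, dist_eq_norm]; exact hzw)
    have h2 : 0 ≤ 2 * max B 0 / δ * ‖z - w‖ := by positivity
    nlinarith [h1, h2]
  · rw [not_le] at hzw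
    have h1 : ‖g z - g w‖ ≤ 2 * max B 0 := by
      have := norm_sub_le (g z) (g w)
      have a1 := (hB z hz).trans (le_max_left B 0)
      have a2 := (hB w hw).trans (le_max_left B 0)
      linarith
    have h2 : 2 * max B 0 ≤ 2 * max B 0 / δ * ‖z - w‖ := by
      rw [div_mul_eq_mul_div, le_div_iff₀ hδ]
      nlinarith
    have h3 : 0 ≤ max M 0 * ‖z - w‖ := by positivity
    nlinarith [h1, h2, h3]

end gen

/-! ## §2 the record -/

/-- the closed sublevel set of the chart -/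
def pvgcK (N : Set ℂ) (g : ℂ → ℂ) (r : ℝ) : Set ℂ := {z | z ∈ N ∧ ‖g z‖ ≤ r}

/-- the open sublevel set of the chart -/
def pvgcU (N : Set ℂ) (g : ℂ → ℂ) (r : ℝ) : Set ℂ := {z | z ∈ N ∧ ‖g z‖ < r}

/-- the level set of the chart -/
def pvgcLev (N : Set ℂ) (g : ℂ → ℂ) (r : ℝ) : Set ℂ := {z | z ∈ N ∧ ‖g z‖ = r}

theorem pvgc_eqns_cite : True := by
  have := @pvgcK.eq_1; have := @pvgcU.eq_1; have := @pvgcLev.eq_1
  trivial

/-- **THE CHART RECORD**: `g` holomorphic injective on the open set `N`, `h` = its inverse on `closedBall 0 R1`, `1 < R1`, bi-Lipschitz constant `L` -/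
structure PvgcCh (N : Set ℂ) (g h : ℂ → ℂ) (R1 L : ℝ) : Prop where
  open_N : IsOpen N
  diff : DifferentiableOn ℂ g N
  inj : InjOn g N
  one_lt : 1 < R1
  one_le : 1 ≤ L
  hN : ∀ w ∈ closedBall (0 : ℂ) R1, h w ∈ N
  gh : ∀ w ∈ closedBall (0 : ℂ) R1, g (h w) = w
  hcont : ContinuousOn h (closedBall (0 : ℂ) R1)
  lipg : ∀ z ∈ pvgcK N g R1, ∀ w ∈ pvgcK N g R1, ‖g z - g w‖ ≤ L * ‖z - w‖
  liph : ∀ a ∈ closedBall (0 : ℂ) R1, ∀ b ∈ closedBall (0 : ℂ) R1, ‖h a - h b‖ ≤ L * ‖a - b‖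

/-! ## §3 lemmas on the record -/

theorem pvgc_K_mono (N : Set ℂ) (g : ℂ → ℂ) {r r' : ℝ} (h : r ≤ r') : pvgcK N g r ⊆ pvgcK N g r' := fun _ hz => ⟨hz.1, hz.2.trans h⟩

theorem pvgc_U_sub_K (N : Set ℂ) (g : ℂ → ℂ) (r : ℝ) : pvgcU N g r ⊆ pvgcK N g r := fun _ hz => ⟨hz.1, hz.2.le⟩

theorem pvgc_Lev_sub_K (N : Set ℂ) (g : ℂ → ℂ) (r : ℝ) : pvgcLev N g r ⊆ pvgcK N g r := fun _ hz => ⟨hz.1, hz.2.le⟩

theorem pvgc_K_sdiff_U (N : Set ℂ) (g : ℂ → ℂ) (r : ℝ) : pvgcK N g r \ pvgcU N g r = pvgcLev N g r := by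
  ext z
  constructor
  · rintro ⟨⟨h1, h2⟩, h3⟩
    exact ⟨h1, le_antisymm h2 (not_lt.1 fun h => h3 ⟨h1, h⟩)⟩
  · rintro ⟨h1, h2⟩
    exact ⟨⟨h1, h2.le⟩, fun h => absurd h.2 (by rw [h2]; exact lt_irrefl r)⟩

/-- a point of a segment is not farther from the first end than the second end -/
theorem pvgc_seg_norm {z w p : ℂ} (hp : p ∈ segment ℝ z w) : ‖p - z‖ ≤ ‖w - z‖ := by
  obtain ⟨a, b, ha, hb, hab, rfl⟩ := hp
  have e : a • z + b • w - z = b • (w - z) := by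
    have : a = 1 - b := by linarith
    rw [this]
    simp only [sub_smul, one_smul, smul_sub]
    ring
  rw [e, norm_smul, Real.norm_eq_abs, abs_of_nonneg hb]
  have : b ≤ 1 := by linarith
  nlinarith [norm_nonneg (w - z)]

namespace PvgcCh

variable {N : Set ℂ} {g h : ℂ → ℂ} {R1 L : ℝ}

theorem L_pos (C : PvgcCh N g h R1 L) : 0 < L := lt_of_lt_of_le one_pos C.one_le

theorem hg (C : PvgcCh N g h R1 L) {z : ℂ} (hz : z ∈ pvgcK N g R1) : h (g z) = z :=
  C.inj (C.hN _ (mem_closedBall_zero_iff.2 hz.2)) hz.1 (C.gh _ (mem_closedBall_zero_iff.2 hz.2))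

theorem K_eq (C : PvgcCh N g h R1 L) {r : ℝ} (hr : r ≤ R1) : pvgcK N g r = h '' closedBall (0 : ℂ) r := by
  ext z
  constructor
  · rintro ⟨hzN, hzr⟩
    exact ⟨g z, mem_closedBall_zero_iff.2 hzr, C.hg ⟨hzN, hzr.trans hr⟩⟩
  · rintro ⟨w, hw, rfl⟩
    have hw' := closedBall_subset_closedBall hr hw
    exact ⟨C.hN w hw', by rw [C.gh w hw']; exact mem_closedBall_zero_iff.1 hw⟩

theorem K_compact (C : PvgcCh N g h R1 L) {r : ℝ} (hr : r ≤ R1) : IsCompact (pvgcK N g r) := by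
  rw [C.K_eq hr]
  exact (isCompact_closedBall 0 r).image_of_continuousOn (C.hcont.mono (closedBall_subset_closedBall hr))

theorem K_conn (C : PvgcCh N g h R1 L) {r : ℝ} (h0 : 0 ≤ r) (hr : r ≤ R1) : IsConnected (pvgcK N g r) := by
  rw [C.K_eq hr]
  exact ((convex_closedBall (0 : ℂ) r).isConnected ⟨0, mem_closedBall_self h0⟩).image _ (C.hcont.mono (closedBall_subset_closedBall hr))

theorem U_open (C : PvgcCh N g h R1 L) (r : ℝ) : IsOpen (pvgcU N g r) :=
  C.diff.continuousOn.norm.isOpen_inter_preimage C.open_N isOpen_Iio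

/-- the images of the preconnected sets of the chart -/
theorem img_preconn (C : PvgcCh N g h R1 L) {A : Set ℂ} (hA : IsPreconnected A) (hsub : A ⊆ closedBall (0 : ℂ) R1) : IsPreconnected (h '' A) :=
  hA.image _ (C.hcont.mono hsub)

/-- the images of the convex sets of the chart -/
theorem img_conn (C : PvgcCh N g h R1 L) {A : Set ℂ} (hA : Convex ℝ A) (hsub : A ⊆ closedBall (0 : ℂ) R1) : IsPreconnected (h '' A) :=
  C.img_preconn hA.isPreconnected hsub

/-- **LEVEL CROSSING**: a preconnected set which meets `K r` and has a point off `K r'` meets every level between -/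
theorem cross (C : PvgcCh N g h R1 L) {S : Set ℂ} (hS : IsPreconnected S) {r r' t : ℝ} (h1 : (S ∩ pvgcK N g r).Nonempty) (h2 : ∃ z ∈ S, z ∉ pvgcK N g r')
    (hrt : r ≤ t) (htr : t ≤ r') (hR : t ≤ R1) : (S ∩ pvgcLev N g t).Nonempty := by
  by_contra hne
  have hlev : ∀ z ∈ S, z ∈ N → ‖g z‖ ≠ t := fun z hz hzN e => hne ⟨z, hz, hzN, e⟩
  obtain ⟨a, haS, haK⟩ := h1
  obtain ⟨b, hbS, hbK⟩ := h2
  have hcov : S ⊆ pvgcU N g t ∪ (pvgcK N g t)ᶜ := by
    intro z hz
    by_cases hzK : z ∈ pvgcK N g t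
    · exact Or.inl ⟨hzK.1, lt_of_le_of_ne hzK.2 (hlev z hz hzK.1)⟩
    · exact Or.inr hzK
  obtain ⟨z, -, hz1, hz2⟩ := hS _ _ (C.U_open t) (C.K_compact hR).isClosed.isOpen_compl hcov
    ⟨a, haS, haK.1, lt_of_le_of_ne (haK.2.trans hrt) (hlev a haS haK.1)⟩ ⟨b, hbS, fun hb => hbK (pvgc_K_mono N g htr hb)⟩
  exact hz2 (pvgc_U_sub_K N g t hz1)

/-- **FAT**: the points near `K r` lie in `K R1`, and the chart radius grows at most at speed `L` -/
theorem fat (C : PvgcCh N g h R1 L) {r : ℝ} {z w : ℂ} (hz : z ∈ pvgcK N g r) (hw : ‖w - z‖ < (R1 - r) / L) :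
    w ∈ pvgcK N g R1 ∧ ‖g w‖ ≤ r + L * ‖w - z‖ := by
  have hL := C.L_pos
  have hrR : r < R1 := by
    have : 0 < (R1 - r) / L := lt_of_le_of_lt (norm_nonneg _) hw
    have := (div_pos_iff_of_pos_right hL).1 this
    linarith
  have hzR : z ∈ pvgcK N g R1 := pvgc_K_mono N g hrR.le hz
  have hwK : w ∈ pvgcK N g R1 := by
    by_contra hcon
    obtain ⟨p, hpS, hpN, hpR⟩ := C.cross (convex_segment z w).isPreconnected ⟨z, left_mem_segment ℝ z w, hz⟩ ⟨w, right_mem_segment ℝ z w, hcon⟩ hrR.le le_rfl le_rfl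
    have h1 := C.lipg p ⟨hpN, hpR.le⟩ z hzR
    have h2 := pvgc_seg_norm hpS
    have h3 : ‖g p‖ - ‖g z‖ ≤ ‖g p - g z‖ := norm_sub_norm_le _ _
    have h4 : L * ‖w - z‖ < R1 - r := by rwa [lt_div_iff₀ hL, mul_comm] at hw
    have h5 := hz.2
    nlinarith
  refine ⟨hwK, ?_⟩
  have h1 := C.lipg w hwK z hzR
  have h3 : ‖g w‖ - ‖g z‖ ≤ ‖g w - g z‖ := norm_sub_norm_le _ _
  have h5 := hz.2
  linarith

/-- a small set which meets `K r` lies in `K (r + L δ)` -/
theorem fat_set (C : PvgcCh N g h R1 L) {r δ : ℝ} {S : Set ℂ} {z : ℂ} (hz : z ∈ pvgcK N g r) (hS : ∀ w ∈ S, ‖w - z‖ ≤ δ) (hδ : δ < (R1 - r) / L) :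
    S ⊆ pvgcK N g (r + L * δ) := by
  intro w hw
  obtain ⟨h1, h2⟩ := C.fat hz (lt_of_le_of_lt (hS w hw) hδ)
  refine ⟨h1.1, h2.trans ?_⟩
  have := mul_le_mul_of_nonneg_left (hS w hw) C.L_pos.le
  linarith

/-- **THIN**: the chart radius decreases at most at speed `L` -/
theorem thin (C : PvgcCh N g h R1 L) {z w : ℂ} (hz : z ∈ pvgcK N g R1) (hw : w ∈ pvgcK N g R1) : ‖g z‖ - L * ‖w - z‖ ≤ ‖g w‖ := by
  have h1 := C.lipg z hz w hw
  have h3 : ‖g z‖ - ‖g w‖ ≤ ‖g z - g w‖ := norm_sub_norm_le _ _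
  rw [norm_sub_rev z w] at h1
  linarith

/-- plane distance against chart distance -/
theorem dist_le (C : PvgcCh N g h R1 L) {z w : ℂ} (hz : z ∈ pvgcK N g R1) (hw : w ∈ pvgcK N g R1) : ‖z - w‖ ≤ L * ‖g z - g w‖ := by
  have := C.liph (g z) (mem_closedBall_zero_iff.2 hz.2) (g w) (mem_closedBall_zero_iff.2 hw.2)
  rwa [C.hg hz, C.hg hw] at this

end PvgcCh

/-! ## §4 the producer -/

/-- on `closure D` the analytic chart is the disc chart of `Chart.lean` -/
theorem pvgc_eq_disc {D : Set ℂ} {d : ℂ} {ψ : ℂ → ℂ} (H : PvChart D d ψ) {N : Set ℂ} {g : ℂ → ℂ} (hsub : closure D ⊆ N) (hi : InjOn g N) (hgd : g d = 1)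
    (hψ : ∀ z ∈ closure D \ {d}, ψ z = Complex.I * (1 + g z) / (1 - g z)) {z : ℂ} (hz : z ∈ closure D) : g z = H.disc z := by
  by_cases hzd : z = d
  · rw [hzd, hgd, H.disc_d]
  · have h1 : g z ≠ 1 := fun e => hzd (hi (hsub hz) (hsub (frontier_subset_closure H.hd)) (e.trans hgd.symm))
    rw [H.disc_of_ne hzd, hψ z ⟨hz, hzd⟩]
    exact (pvch_C_Ci h1).symm

/-- **THE RECORD FROM THE BARE HYPOTHESES** (the record `PvgCh N g R1` of `Brg/Defs`): the inverse chart is `Function.invFunOn g N` -/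
theorem pvgc_of_surj {N : Set ℂ} {g : ℂ → ℂ} {R1 : ℝ} (hNo : IsOpen N) (hg : DifferentiableOn ℂ g N) (hi : InjOn g N) (h1 : 1 < R1) (hs : closedBall (0 : ℂ) R1 ⊆ g '' N) :
    ∃ L : ℝ, PvgcCh N g (Function.invFunOn g N) R1 L := by
  have ho : IsOpen (g '' N) := pvgc_open_img hNo hg hi hNo Subset.rfl
  have hinvN : ∀ w ∈ closedBall (0 : ℂ) R1, Function.invFunOn g N w ∈ N := fun w hw => pvgc_inv_mem (hs hw)
  have hinvR : ∀ w ∈ closedBall (0 : ℂ) R1, g (Function.invFunOn g N w) = w := fun w hw => pvgc_inv_right (hs hw)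
  have hdiff := pvgc_inv_diff hNo hg hi
  have hcont : ContinuousOn (Function.invFunOn g N) (closedBall (0 : ℂ) R1) := hdiff.continuousOn.mono hs
  obtain ⟨L1, hL1, hl1⟩ := pvgc_lip_compact ho hdiff (isCompact_closedBall (0 : ℂ) R1) hs
  have hKeq : pvgcK N g R1 = Function.invFunOn g N '' closedBall (0 : ℂ) R1 := by
    ext z
    constructor
    · rintro ⟨hzN, hzr⟩
      exact ⟨g z, mem_closedBall_zero_iff.2 hzr, pvgc_inv_left hi hzN⟩
    · rintro ⟨w, hw, rfl⟩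
      exact ⟨hinvN w hw, by rw [hinvR w hw]; exact mem_closedBall_zero_iff.1 hw⟩
  have hKc : IsCompact (pvgcK N g R1) := by
    rw [hKeq]
    exact (isCompact_closedBall _ _).image_of_continuousOn hcont
  obtain ⟨L2, hL2, hl2⟩ := pvgc_lip_compact hNo hg hKc (fun z hz => hz.1)
  refine ⟨max 1 (max L1 L2), ⟨hNo, hg, hi, h1, le_max_left _ _, hinvN, hinvR, hcont, ?_, ?_⟩⟩
  · intro z hz w hw
    refine (hl2 z hz w hw).trans (mul_le_mul_of_nonneg_right ?_ (norm_nonneg _))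
    exact (le_max_right _ _).trans (le_max_right _ _)
  · intro a ha b hb
    refine (hl1 a ha b hb).trans (mul_le_mul_of_nonneg_right ?_ (norm_nonneg _))
    exact (le_max_left _ _).trans (le_max_right _ _)

/-- **THE PRODUCER, bare form** -/
theorem pvgc_an {D : Set ℂ} {d : ℂ} {ψ : ℂ → ℂ} (H : PvAn D d ψ) :
    ∃ (N : Set ℂ) (g : ℂ → ℂ) (R1 : ℝ), IsOpen N ∧ DifferentiableOn ℂ g N ∧ InjOn g N ∧ 1 < R1 ∧ closedBall (0 : ℂ) R1 ⊆ g '' N ∧ closure D ⊆ N ∧
      D = pvgcU N g 1 ∧ closure D = pvgcK N g 1 ∧ frontier D = pvgcLev N g 1 ∧ g d = 1 ∧ ∀ z ∈ closure D \ {d}, ψ z = Complex.I * (1 + g z) / (1 - g z) := by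
  obtain ⟨N, g, hNo, hsub, hg, hi, hD, hgd, hψ⟩ := H.an
  have Hc : PvChart D d ψ := H.toPvChart
  have hdisc : ∀ z ∈ closure D, g z = Hc.disc z := fun z hz => pvgc_eq_disc Hc hsub hi hgd hψ hz
  have ho : IsOpen (g '' N) := pvgc_open_img hNo hg hi hNo Subset.rfl
  have hB1 : closedBall (0 : ℂ) 1 ⊆ g '' N := by
    intro ζ hζ
    rw [← Hc.disc_img] at hζ
    obtain ⟨z, hz, rfl⟩ := hζ
    exact ⟨z, hsub hz, hdisc z hz⟩
  obtain ⟨δ, hδ, hthick⟩ := (isCompact_closedBall (0 : ℂ) 1).exists_cthickening_subset_open ho hB1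
  rw [cthickening_closedBall hδ.le zero_le_one] at hthick
  have hU : D = pvgcU N g 1 := by
    rw [hD]
    ext z
    simp only [pvgcU, mem_inter_iff, mem_preimage, mem_ball_zero_iff, mem_ofPred_eq]
  have hK : closure D = pvgcK N g 1 := by
    ext z
    constructor
    · intro hz
      exact ⟨hsub hz, by rw [hdisc z hz]; exact Hc.disc_norm_le hz⟩
    · rintro ⟨hzN, hz1⟩
      have : g z ∈ Hc.disc '' closure D := by rw [Hc.disc_img]; exact mem_closedBall_zero_iff.2 hz1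
      obtain ⟨z', hz', e⟩ := this
      have : z' = z := hi (hsub hz') hzN (by rw [hdisc z' hz', e])
      exact this ▸ hz'
  have hF : frontier D = pvgcLev N g 1 := by rw [Hc.isOpen.frontier_eq, hK, ← pvgc_K_sdiff_U, ← hU]
  exact ⟨N, g, δ + 1, hNo, hg, hi, by linarith, hthick, hsub, hU, hK, hF, hgd, hψ⟩

/-- **THE PRODUCER** -/
theorem pvgc_exists {D : Set ℂ} {d : ℂ} {ψ : ℂ → ℂ} (H : PvAn D d ψ) :
    ∃ (N : Set ℂ) (g h : ℂ → ℂ) (R1 L : ℝ), PvgcCh N g h R1 L ∧ D = pvgcU N g 1 ∧ closure D = pvgcK N g 1 ∧ frontier D = pvgcLev N g 1 ∧ g d = 1 ∧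
      ∀ z ∈ closure D \ {d}, ψ z = Complex.I * (1 + g z) / (1 - g z) := by
  obtain ⟨N, g, R1, hNo, hg, hi, h1, hs, -, hU, hK, hF, hgd, hψ⟩ := pvgc_an H
  obtain ⟨L, C⟩ := pvgc_of_surj hNo hg hi h1 hs
  exact ⟨N, g, _, R1, L, C, hU, hK, hF, hgd, hψ⟩

/-! ## §4' the five leaves CH of `Brg/Defs`, bare hypotheses -/

section bare

variable {N : Set ℂ} {g : ℂ → ℂ} {R1 : ℝ}

theorem pvgc_compact (hNo : IsOpen N) (hg : DifferentiableOn ℂ g N) (hi : InjOn g N) (h1 : 1 < R1) (hs : closedBall (0 : ℂ) R1 ⊆ g '' N) {r : ℝ} (hr : r ≤ R1) :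
    IsCompact {z | z ∈ N ∧ ‖g z‖ ≤ r} := by
  obtain ⟨L, C⟩ := pvgc_of_surj hNo hg hi h1 hs
  exact C.K_compact hr

theorem pvgc_conn (hNo : IsOpen N) (hg : DifferentiableOn ℂ g N) (hi : InjOn g N) (h1 : 1 < R1) (hs : closedBall (0 : ℂ) R1 ⊆ g '' N) {S : Set ℂ} (hS : IsPreconnected S)
    (hSR : S ⊆ closedBall 0 R1) : IsPreconnected {z | z ∈ N ∧ g z ∈ S} := by
  obtain ⟨L, C⟩ := pvgc_of_surj hNo hg hi h1 hs
  have e : {z | z ∈ N ∧ g z ∈ S} = Function.invFunOn g N '' S := by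
    ext z
    constructor
    · rintro ⟨hzN, hzS⟩
      exact ⟨g z, hzS, pvgc_inv_left hi hzN⟩
    · rintro ⟨w, hw, rfl⟩
      exact ⟨C.hN w (hSR hw), by rw [C.gh w (hSR hw)]; exact hw⟩
  rw [e]
  exact C.img_preconn hS hSR

theorem pvgc_level (hNo : IsOpen N) (hg : DifferentiableOn ℂ g N) (hi : InjOn g N) (h1 : 1 < R1) (hs : closedBall (0 : ℂ) R1 ⊆ g '' N) {S : Set ℂ} (hS : IsPreconnected S)
    {r r' s : ℝ} (h1' : (S ∩ {z | z ∈ N ∧ ‖g z‖ ≤ r}).Nonempty) (h2 : ¬ S ⊆ {z | z ∈ N ∧ ‖g z‖ ≤ r'}) (hrs : r ≤ s) (hsr : s ≤ r') (hr' : r' ≤ R1) :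
    ∃ z ∈ S, z ∈ N ∧ ‖g z‖ = s := by
  obtain ⟨L, C⟩ := pvgc_of_surj hNo hg hi h1 hs
  rw [not_subset] at h2
  obtain ⟨z, hz, hz2⟩ := C.cross hS h1' h2 hrs hsr (hsr.trans hr')
  exact ⟨z, hz, hz2⟩

theorem pvgc_lip (hNo : IsOpen N) (hg : DifferentiableOn ℂ g N) (hi : InjOn g N) (h1 : 1 < R1) (hs : closedBall (0 : ℂ) R1 ⊆ g '' N) :
    ∃ L δ : ℝ, 0 < L ∧ 0 < δ ∧ (∀ z ∈ {z | z ∈ N ∧ ‖g z‖ ≤ R1}, ∀ w : ℂ, ‖w - z‖ ≤ δ → w ∈ N ∧ ‖g w - g z‖ ≤ L * ‖w - z‖) ∧
      ∀ z ∈ {z | z ∈ N ∧ ‖g z‖ ≤ R1}, ∀ w ∈ {z | z ∈ N ∧ ‖g z‖ ≤ R1}, ‖w - z‖ ≤ L * ‖g w - g z‖ := by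
  obtain ⟨L, C⟩ := pvgc_of_surj hNo hg hi h1 hs
  have hK : IsCompact (pvgcK N g R1) := C.K_compact le_rfl
  obtain ⟨δ, hδ, hsub⟩ := hK.exists_cthickening_subset_open hNo (fun z hz => hz.1)
  obtain ⟨L', hL', hl'⟩ := pvgc_lip_compact hNo hg hK.cthickening hsub
  refine ⟨max L L', δ, lt_of_lt_of_le C.L_pos (le_max_left _ _), hδ, fun z hz w hw => ?_, fun z hz w hw => ?_⟩
  · have hwK : w ∈ cthickening δ (pvgcK N g R1) := closedBall_subset_cthickening hz δ (by rw [mem_closedBall, dist_eq_norm]; exact hw)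
    refine ⟨hsub hwK, (hl' w hwK z (self_subset_cthickening _ hz)).trans (mul_le_mul_of_nonneg_right (le_max_right _ _) (norm_nonneg _))⟩
  · exact (C.dist_le hw hz).trans (mul_le_mul_of_nonneg_right (le_max_left _ _) (norm_nonneg _))

end bare

end Claimed.Agent.R289
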