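-- KEEP
import Claimed.Agent.R289.Obs.Sys
import Claimed.Agent.R289.Fan.Dict
import Claimed.Agent.R289.Brg.Defs
import Claimed.Agent.R289.Del.BulkDisc

/-!
# Row 289 (S0537, Cardy for Poisson-Voronoi), box BRIDGE / FIT, file Brg/Fit : FROM A FAN SPHERE OVER SITES TO THE RECORD `PvoFam.Good` OF OBS      (owner helper92; prefix `pvgf_`, defs `pvgf*`, `Pvgf*`)

TEX: 08-observable.tex, Sec. 8.1 (the discrete disc, its three fans and the closing face).      CHART FREE: nothing here knows how the disc was produced, so the file serves the road BRIDGE (analytic chart, `Brg/Defs`, `Brg/Exit` of helper188)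
and the road MIX (soft chart of helper246).

* `pvgfDat F : PvoDat`      the datum of `Obs/Sys.lean` (helper111) of a fan sphere `F : PvFan ↥Y Dt` (`Fan/Sphere.lean`): `T = F.map`, names `= (pvgFanS F).lab`, closing dart `.s 0`
* `pvgfX F k`               the position of the rim vertex number `k`
* `PvgfRec F D d ψ x s t`   THE EUCLIDEAN RECORD: statements on `F.T`, `F.c`, the marks, positions.      No dart of the sphere, no `PvoFam`.
* **`pvgf_good`**           `𝔇 Y = pvgfDat F → (pvgFanS F).Ok Y {z | t ≤ infDist z Dᶜ} → PvgfRec F D d ψ x s t → 𝔇.Good D d ψ x Y s t`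
* `pvgf_good_congr`         `Good` at `Y` reads `𝔇 Y` only
* `pvgfFam sel : PvoFam`    the family of a choice `sel : ∀ Y, Option (DlbSel Y)` (helper271), junk = the double triangle; `pvgf_fam_some`, `pvgf_good_sel`
* `pvgf_whp`                the probabilistic glue: good events of the labelled geometries on which the record holds give `PvoFam.Whp`
DICTIONARY used: `adj_iv_iff adj_sv_iff tgt_probe rot_s_c rot_s_r` (`Fan/Sphere`), `join_iff sec_probe` (`Fan/Dict`).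
-/

set_option autoImplicit false

namespace Claimed.Agent.R289

open Set Relation Metric Filter Topology MeasureTheory Claims.C0465

/-! ## 0. vocabulary -/

/-- the datum of a fan sphere over sites -/
noncomputable def pvgfDat {Y : Set ℂ} {Dt : Type} (F : PvFan ↥Y Dt) : PvoDat where
  V := F.V'
  D := F.D'
  fV := Fintype.ofFinite _
  fD := Fintype.ofFinite _
  T := F.map
  lab := (pvgFanS F).lab
  q := .s 0

/-- the junk datum: the double triangle on the three extra vertices -/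
def pvgfJunk : PvoDat := ⟨Fin 3, Fin 3 × Bool, inferInstance, inferInstance, dlbTwo, Sum.inr, ((0 : Fin 3), true)⟩

/-- the position of the rim vertex number `k` -/
def pvgfX {Y : Set ℂ} {Dt : Type} (F : PvFan ↥Y Dt) (k : ℕ) : ℂ := ((F.T.src (F.c.e k) : ↥Y) : ℂ)

/-- **THE EUCLIDEAN RECORD** of a disc with three marks: input tolerance `s`, output tolerance `t` -/
structure PvgfRec {Y : Set ℂ} {Dt : Type} (F : PvFan ↥Y Dt) (D : Set ℂ) (d : ℂ) (ψ : ℂ → ℂ) (x s t : ℝ) : Prop where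
  /-- the disc sites lie near `D` -/
  inD : ∀ v ∈ F.T.VOf F.c.Left, (v : ℂ) ∈ thickening t D
  /-- the edges of the disc are Delaunay edges -/
  del : ∀ e ∈ F.c.Left, DelAdj Y ((F.T.src e : ↥Y) : ℂ) ((F.T.tgt e : ↥Y) : ℂ)
  /-- the edges of the disc are short -/
  short : ∀ e ∈ F.c.Left, ‖((F.T.src e : ↥Y) : ℂ) - ((F.T.tgt e : ↥Y) : ℂ)‖ < t
  /-- the index arc `j` runs near the closed arc `j` -/
  arc : ∀ (j : Fin 3) (k : ℕ), F.lo j ≤ k → k ≤ F.hi j → pvgfX F k ∈ thickening t (pvoArc D d ψ j)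
  /-- the disc sites are dense in `D` -/
  densD : ∀ p ∈ D, ∃ v ∈ F.T.VOf F.c.Left, ‖(v : ℂ) - p‖ < t
  /-- the vertices of the index arc `j` are dense on the closed arc `j` -/
  densB : ∀ (j : Fin 3), ∀ p ∈ pvoArc D d ψ j, ∃ k, F.lo j ≤ k ∧ k ≤ F.hi j ∧ ‖pvgfX F k - p‖ < t
  /-- (D4) short connections in the closed disc -/
  conn : ∀ (p : ℂ), ∀ u ∈ F.T.VOf F.c.Left, ∀ v ∈ F.T.VOf F.c.Left, ‖(u : ℂ) - p‖ < s → ‖(v : ℂ) - p‖ < s →
    F.T.Join F.c.Left {w | ‖(w : ℂ) - p‖ < t} u v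
  /-- (ORD) the rim from the mark `a` (index `0`) up to a vertex of the first index arc near `b` runs near `ψ⁻¹[0,x]` -/
  sec : ∀ b ∈ frontier D, b ≠ d → ψ b = x → ∀ k, k ≤ F.i1 → ‖pvgfX F k - b‖ < s → ∀ k', k' ≤ k → pvgfX F k' ∈ thickening t (pvArcL D d ψ x)

/-- the family of a choice of discs -/
noncomputable def pvgfFam (sel : ∀ Y : Set ℂ, Option (DlbSel Y)) : PvoFam := fun Y =>
  match sel Y with
  | some x => pvgfDat x.fan
  | none => pvgfJunk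

theorem pvgf_eqns_cite : True := by
  have := @pvgfDat.eq_1; have := @pvgfJunk.eq_1; have := @pvgfX.eq_1; have := @pvgfFam.eq_1
  trivial

/-! ## 1. `Good` at `Y` reads `𝔇 Y` only -/

theorem pvgf_good_const (𝔇 : PvoFam) {D : Set ℂ} {d : ℂ} {ψ : ℂ → ℂ} {x : ℝ} {Y : Set ℂ} {s t : ℝ} :
    𝔇.Good D d ψ x Y s t ↔ PvoFam.Good (fun _ => 𝔇 Y) D d ψ x Y s t :=
  ⟨fun h => ⟨⟨h.ok.sph, h.ok.simple, h.ok.inj, h.ok.site, h.ok.face, h.ok.del, h.ok.emb⟩, h.cl0, h.cl2, h.cl1, h.inD, h.adj, h.arc, h.densD, h.densB, h.conn, h.sec⟩,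
    fun h => ⟨⟨h.ok.sph, h.ok.simple, h.ok.inj, h.ok.site, h.ok.face, h.ok.del, h.ok.emb⟩, h.cl0, h.cl2, h.cl1, h.inD, h.adj, h.arc, h.densD, h.densB, h.conn, h.sec⟩⟩

theorem pvgf_good_congr {𝔇 𝔇' : PvoFam} {D : Set ℂ} {d : ℂ} {ψ : ℂ → ℂ} {x : ℝ} {Y : Set ℂ} {s t : ℝ} (h : 𝔇 Y = 𝔇' Y) :
    𝔇.Good D d ψ x Y s t ↔ 𝔇'.Good D d ψ x Y s t := by
  rw [pvgf_good_const 𝔇, pvgf_good_const 𝔇', h]

/-! ## 2. names -/

section names

variable {Y : Set ℂ} {Dt : Type} (F : PvFan ↥Y Dt)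

theorem pvgf_lab_iv (u : ↥Y) (hu : u ∈ F.T.VOf F.c.Left) : (pvgFanS F).lab (F.iv u hu) = Sum.inl (u : ℂ) := rfl

theorem pvgf_lab_sv (j : Fin 3) : (pvgFanS F).lab (F.sv j) = Sum.inr j := rfl

theorem pvgf_lab_inl {v : F.V'} {p : ℂ} (h : (pvgFanS F).lab v = Sum.inl p) : ∃ (u : ↥Y) (hu : u ∈ F.T.VOf F.c.Left), v = F.iv u hu ∧ (u : ℂ) = p := by
  rcases v with w | j
  · exact ⟨w.1, w.2, rfl, Sum.inl.inj h⟩
  · exact absurd h (by intro h'; cases h')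

theorem pvgf_lab_inr {v : F.V'} {j : Fin 3} (h : (pvgFanS F).lab v = Sum.inr j) : v = F.sv j := by
  rcases v with w | i
  · exact absurd h (by intro h'; cases h')
  · have : i = j := Sum.inr.inj h
    rw [this]; rfl

/-- an edge of the closed disc, read in either direction -/
theorem pvgf_edge {D : Set ℂ} {d : ℂ} {ψ : ℂ → ℂ} {x s t : ℝ} (R : PvgfRec F D d ψ x s t) {u v : ↥Y} (h : F.T.EdgeIn F.c.Left u v) :
    DelAdj Y (u : ℂ) (v : ℂ) ∧ ‖(u : ℂ) - (v : ℂ)‖ < t := by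
  obtain ⟨e, he, rfl, rfl⟩ := h
  rcases he with he | he
  · exact ⟨R.del e he, R.short e he⟩
  · have h1 := R.del _ he
    have h2 := R.short _ he
    rw [F.T.src_opp', F.T.tgt_opp] at h1 h2
    exact ⟨h1.symm, by rw [norm_sub_rev]; exact h2⟩

/-- the fan darts issued from `s_j` towards the disc are the probes -/
theorem pvgf_probe {e : F.D'} {j : Fin 3} (h1 : F.map.src e = F.sv j) {u : ↥Y} {hu : u ∈ F.T.VOf F.c.Left} (h2 : F.map.tgt e = F.iv u hu) :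
    ∃ τ, τ ≤ F.hi j - F.lo j ∧ e = F.map.rot^[2 + τ] (.s j) := by
  cases e with
  | inn a => cases h1
  | a k => cases h1
  | b k => cases h1
  | p i => cases h1
  | q i => cases h2
  | s i => cases h2
  | r i =>
    have : i = j := Sum.inr.inj h1
    subst this
    exact ⟨F.hi i - F.lo i, le_rfl, (F.rot_s_r i).symm⟩
  | c k =>
    have hk : F.lab k = j := Sum.inr.inj h1
    have a1 := F.lo_lab k
    have a2 := F.lt_hi_lab k.2
    rw [hk] at a1 a2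
    refine ⟨F.hi j - 1 - k, by omega, ?_⟩
    rw [F.rot_s_c j _ (by omega)]
    congr 1
    apply Fin.ext
    show k.1 = F.hi j - 1 - (F.hi j - 1 - k.1)
    omega

/-- the head of a probe -/
theorem pvgf_probe_tgt (j : Fin 3) {τ : ℕ} (hτ : τ ≤ F.hi j - F.lo j) {p : ℂ} (h : (pvgFanS F).lab (F.map.tgt (F.map.rot^[2 + τ] (.s j))) = Sum.inl p) :
    pvgfX F (F.hi j - τ) = p := by
  rw [F.tgt_probe j τ hτ] at h
  exact Sum.inl.inj h

/-- a vertex of the inclusive index arc `j` carries a fan dart towards `s_j` -/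
theorem pvgf_spoke (j : Fin 3) {k : ℕ} (h1 : F.lo j ≤ k) (h2 : k ≤ F.hi j) :
    ∃ e : F.D', (pvgFanS F).lab (F.map.src e) = Sum.inl (pvgfX F k) ∧ (pvgFanS F).lab (F.map.tgt e) = Sum.inr j := by
  have hv : F.T.src (F.c.e k) ∈ F.T.VOf F.c.Left := ⟨F.c.e k, F.memL k, rfl⟩
  obtain ⟨e, e1, e2⟩ := F.map.adj_symm ((F.adj_sv_iff j hv).2 ⟨k, h1, h2, rfl⟩)
  exact ⟨e, by rw [e1]; rfl, by rw [e2]; rfl⟩

/-- the foot of a fan dart towards `s_j` is a vertex of the inclusive index arc `j` -/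
theorem pvgf_foot {e : F.D'} {a : ℂ} {j : Fin 3} (h1 : (pvgFanS F).lab (F.map.src e) = Sum.inl a) (h2 : (pvgFanS F).lab (F.map.tgt e) = Sum.inr j) :
    ∃ k, F.lo j ≤ k ∧ k ≤ F.hi j ∧ pvgfX F k = a := by
  obtain ⟨u, hu, e1, rfl⟩ := pvgf_lab_inl F h1
  have e2 := pvgf_lab_inr F h2
  obtain ⟨k, k1, k2, k3⟩ := (F.adj_sv_iff j hu).1 (F.map.adj_symm ⟨e, e1, e2⟩)
  exact ⟨k, k1, k2, by unfold pvgfX; rw [k3]⟩

end names

/-! ## 3. the record of OBS -/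

section main

variable {Y : Set ℂ} {Dt : Type} (F : PvFan ↥Y Dt) {D : Set ℂ} {d : ℂ} {ψ : ℂ → ℂ} {x s t : ℝ}

/-- (D4) in the sphere -/
theorem pvgf_conn (R : PvgfRec F D d ψ x s t) (p : ℂ) {u v : ↥Y} (hu : u ∈ F.T.VOf F.c.Left) (hv : v ∈ F.T.VOf F.c.Left) (h1 : ‖(u : ℂ) - p‖ < s) (h2 : ‖(v : ℂ) - p‖ < s) :
    ReflTransGen (fun u' v' => F.map.Adj u' v' ∧ ∃ c : ℂ, (pvgFanS F).lab v' = Sum.inl c ∧ ‖c - p‖ < t) (F.iv u hu) (F.iv v hv) := by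
  set X : Set F.V' := {y | ∃ (w : ↥Y) (hw : w ∈ F.T.VOf F.c.Left), y = F.iv w hw ∧ ‖(w : ℂ) - p‖ < t} with hX
  have hXd : ∀ y ∈ X, ∃ w hw, y = F.iv w hw := fun y ⟨w, hw, e, _⟩ => ⟨w, hw, e⟩
  obtain ⟨j0, j1⟩ := R.conn p u hu v hv h1 h2
  have key : F.T.Join F.c.Left (F.tr X) u v := by
    refine ⟨⟨hu, u, hu, rfl, j0⟩, ReflTransGen.mono (fun a b hab => ⟨hab.1, ?_⟩) _ _ j1⟩
    obtain ⟨e, he, -, rfl⟩ := hab.1
    have hb : F.T.tgt e ∈ F.T.VOf F.c.Left := by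
      rcases he with he | he
      · exact F.tgt_mem he
      · rw [← F.T.src_opp']; exact F.src_mem he
    exact ⟨hb, _, hb, rfl, hab.2⟩
  obtain ⟨-, k1⟩ := (F.join_iff hXd hu hv).2 key
  refine ReflTransGen.mono (fun a b hab => ⟨F.edgeIn_univ.1 hab.1, ?_⟩) _ _ k1
  obtain ⟨w, hw, rfl, hwp⟩ := hab.2
  exact ⟨w, rfl, hwp⟩

/-- **FAN ⟹ OBS** for the constant family -/
theorem pvgf_good_fan (hok : (pvgFanS F).Ok Y {z | t ≤ infDist z Dᶜ}) (R : PvgfRec F D d ψ x s t) :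
    PvoFam.Good (fun _ => pvgfDat F) D d ψ x Y s t where
  ok := ⟨hok.sph, hok.simple, hok.inj, hok.site, hok.face, hok.del, hok.emb⟩
  cl0 := rfl
  cl2 := rfl
  cl1 := rfl
  inD v p hv := by
    obtain ⟨u, hu, -, rfl⟩ := pvgf_lab_inl F hv
    exact R.inD u hu
  adj e a b h1 h2 := by
    obtain ⟨u, hu, e1, rfl⟩ := pvgf_lab_inl F h1
    obtain ⟨v, hv, e2, rfl⟩ := pvgf_lab_inl F h2
    exact pvgf_edge F R ((F.adj_iv_iff hu hv).1 ⟨e, e1, e2⟩)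
  arc e a j h1 h2 := by
    obtain ⟨k, k1, k2, rfl⟩ := pvgf_foot F h1 h2
    exact R.arc j k k1 k2
  densD p hp := by
    obtain ⟨v, ⟨e, he, rfl⟩, hvp⟩ := R.densD p hp
    exact ⟨(PvFanD.inn ⟨e, he⟩ : F.D'), _, _, rfl, rfl, hvp⟩
  densB j p hp := by
    obtain ⟨k, k1, k2, k3⟩ := R.densB j p hp
    obtain ⟨e, e1, e2⟩ := pvgf_spoke F j k1 k2
    exact ⟨e, _, e1, e2, k3⟩
  conn p u v a b hu hv h1 h2 := by
    obtain ⟨u, hu', rfl, rfl⟩ := pvgf_lab_inl F hu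
    obtain ⟨v, hv', rfl, rfl⟩ := pvgf_lab_inl F hv
    exact pvgf_conn F R p hu' hv' h1 h2
  sec b hb hbd hψ e a h1 h2 hab e' he' a' h3 := by
    have e1 := pvgf_lab_inr F h1
    obtain ⟨u, hu, e2, rfl⟩ := pvgf_lab_inl F h2
    obtain ⟨τ, hτ, rfl⟩ := pvgf_probe F e1 e2
    obtain ⟨τ', t1, t2, rfl⟩ := (F.sec_probe 0 τ hτ e').1 he'
    have x1 := pvgf_probe_tgt F 0 hτ h2
    have x2 := pvgf_probe_tgt F 0 t2 h3
    rw [← x2]
    refine R.sec b hb hbd hψ (F.hi 0 - τ) (Nat.sub_le _ _) (by rw [x1]; exact hab) _ (by omega)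

/-- **FAN ⟹ OBS** -/
theorem pvgf_good (𝔇 : PvoFam) (h : 𝔇 Y = pvgfDat F) (hok : (pvgFanS F).Ok Y {z | t ≤ infDist z Dᶜ}) (R : PvgfRec F D d ψ x s t) :
    𝔇.Good D d ψ x Y s t :=
  (pvgf_good_congr (𝔇' := fun _ => pvgfDat F) h).2 (pvgf_good_fan F hok R)

end main

/-! ## 4. families of choices, Delaunay discs, the probabilistic glue -/

theorem pvgf_fam_some {sel : ∀ Y : Set ℂ, Option (DlbSel Y)} {Y : Set ℂ} {x : DlbSel Y} (h : sel Y = some x) : pvgfFam sel Y = pvgfDat x.fan := by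
  unfold pvgfFam
  rw [h]

theorem pvgf_fam_none {sel : ∀ Y : Set ℂ, Option (DlbSel Y)} {Y : Set ℂ} (h : sel Y = none) : pvgfFam sel Y = pvgfJunk := by
  unfold pvgfFam
  rw [h]

/-- the darts of the Delaunay plane are Delaunay edges -/
theorem pvgf_del {Y : Set ℂ} {h : DelGood Y} (F : PvFan ↥Y (delPl h).Dart) (hF : F.T = (delPl h).toMap) (e : (delPl h).Dart) :
    DelAdj Y ((F.T.src e : ↥Y) : ℂ) ((F.T.tgt e : ↥Y) : ℂ) := by
  rw [hF]
  exact e.2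

/-- the surface of a fan over a Delaunay disc is `Ok` at depth `t` as soon as the deep sites are interior vertices -/
theorem pvgf_ok {Y : Set ℂ} {h : DelGood Y} (F : PvFan ↥Y (delPl h).Dart) (hF : F.T = (delPl h).toMap) {D : Set ℂ} {t : ℝ}
    (hdeep : ∀ v : ↥Y, t ≤ infDist (v : ℂ) Dᶜ → v ∈ F.T.Int F.c.Left) : (pvgFanS F).Ok Y {z | t ≤ infDist z Dᶜ} :=
  (pvg_surf_ok F hF hdeep).1

/-- **FAN ⟹ OBS** for a family of choices -/
theorem pvgf_good_sel {sel : ∀ Y : Set ℂ, Option (DlbSel Y)} {Y : Set ℂ} {x : DlbSel Y} (h : sel Y = some x) {D : Set ℂ} {d : ℂ} {ψ : ℂ → ℂ} {xx s t : ℝ}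
    (hdeep : ∀ v : ↥Y, t ≤ infDist (v : ℂ) Dᶜ → v ∈ (delMap x.good).Int x.c.Left) (R : PvgfRec x.fan D d ψ xx s t) :
    (pvgfFam sel).Good D d ψ xx Y s t :=
  pvgf_good x.fan _ (pvgf_fam_some h) (pvgf_ok x.fan rfl hdeep) R

/-- the probabilistic glue, complement form (OUTER measure) -/
theorem pvgf_whp {𝔇 : PvoFam} {D : Set ℂ} {d : ℂ} {ψ : ℂ → ℂ} {x : ℝ}
    (h : ∀ t : ℝ, 0 < t → ∃ s : ℝ, 0 < s ∧ ∃ G : ℝ → Set PvGeoT, (∀ ε, ∀ γ ∈ G ε, 𝔇.Good D d ψ x (pvgSites γ) s t) ∧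
      Tendsto (fun ε => pvGeo ε (G ε)ᶜ) (𝓝[>] 0) (𝓝 0)) : 𝔇.Whp D d ψ x := by
  intro t ht
  obtain ⟨s, hs, G, h1, h2⟩ := h t ht
  refine ⟨s, hs, tendsto_of_tendsto_of_tendsto_of_le_of_le tendsto_const_nhds h2 (fun _ => zero_le) fun ε => measure_mono fun γ hγ hG => hγ (h1 ε γ hG)⟩

/-- from `P(G) → 1`, `G` measurable, to `P(Gᶜ) → 0` -/
theorem pvgf_compl_tendsto {G : ℝ → Set PvGeoT} (hm : ∀ ε, MeasurableSet (G ε)) (h : Tendsto (fun ε => pvGeo ε (G ε)) (𝓝[>] 0) (𝓝 1)) :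
    Tendsto (fun ε => pvGeo ε (G ε)ᶜ) (𝓝[>] 0) (𝓝 0) := by
  have e : ∀ ε, pvGeo ε (G ε)ᶜ = 1 - pvGeo ε (G ε) := fun ε => prob_compl_eq_one_sub (hm ε)
  simp only [e]
  have := ENNReal.Tendsto.sub (tendsto_const_nhds (x := (1 : ENNReal)) (f := 𝓝[>] (0 : ℝ))) h (Or.inl ENNReal.one_ne_top)
  simpa using this

/-- two good events -/
theorem pvgf_inter_tendsto {G G' : ℝ → Set PvGeoT} (h : Tendsto (fun ε => pvGeo ε (G ε)ᶜ) (𝓝[>] 0) (𝓝 0)) (h' : Tendsto (fun ε => pvGeo ε (G' ε)ᶜ) (𝓝[>] 0) (𝓝 0)) :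
    Tendsto (fun ε => pvGeo ε (G ε ∩ G' ε)ᶜ) (𝓝[>] 0) (𝓝 0) := by
  have := h.add h'
  rw [add_zero] at this
  refine tendsto_of_tendsto_of_tendsto_of_le_of_le tendsto_const_nhds this (fun _ => zero_le) fun ε => ?_
  rw [compl_inter]
  exact measure_union_le _ _

end Claimed.Agent.R289
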