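-- KEEP
import Claimed.Agent.R289.Brg.Defs

/-!
# Row 289 (S0537), box BRIDGE, file Brg/FitKit : THE CIRCLE KIT OF THE FIT      (helper271, second of helper92; prefix `pvgk_`)

Everything is said IN THE CHART, on the record v2 `Δ.Ok N g θ ρ` of `Brg/Defs.lean` (helper188).      No `PvoFam`, no fan: the consumers (`Brg/Fit.lean` of 92, `Brg/Exit.lean` of 188) translate darts of the fan sphere into indices of the cycle.

## 0. the circle
* `pvgk_E_norm`, `pvgk_E_dist`  `‖E s - E t‖ = 2 |sin ((s - t)/2)|`;   `pvgk_E_le`  `≤ |s - t|`;   `pvgk_E_per`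
* `pvgk_sin_ge`              `x ∈ [α, π - γ] ⟹ min (sin α) (sin γ) ≤ sin x`
* `pvgk_E_ge`                `|s - t| ≤ π ⟹ 2/π |s - t| ≤ ‖E s - E t‖`
* `pvgk_E_small`             `0 ≤ u = s - t ≤ 2π - γ`, `‖E s - E t‖ < 2/π γ` `⟹ u ≤ π/2 ‖E s - E t‖`
* `pvgk_arcs`                ARCS LEMMA: `τ ∈ [α, β]`, `t' ∈ [β, α + 2π]` `⟹ min ‖E τ - E α‖ ‖E τ - E β‖ ≤ ‖E τ - E t'‖`
## 1. the record
* `pvgk_x_per`, `pvgk_x_mem`, `pvgk_x_norm`, `pvgk_x_E` (`‖g x_k - E (th k)‖ ≤ ρ`), `pvgk_x_step`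
* `pvgk_idx`                 every index is congruent mod `n` to an index of `[m j, m (j+1))` for some `j < 4`
* **K1** `pvgk_adj`, **K2** `pvgk_dense` (fields `step`, `dense` of v2, in the shapes of 92)
* **K3** `pvgk_densB`         `j < 4`, `t ∈ [θ j, θ (j+1)]` `⟹ ∃ k ∈ [m j, m (j+1)], ‖g x_k - E t‖ ≤ 3ρ`      (no smallness of `ρ`)
*        `pvgk_arc_range`, `pvgk_densB_range`   the same for `[m i, m j]` against `[θ i, θ j]`, `i < j ≤ 4` (the fan `s₀` sits on `[m 0, m 2]`);   `pvgk_m_mono`, `pvgk_mk_mono`, `pvgk_th_lo`, `pvgk_th_hi`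
* **K4** `pvgk_sec`           `k ≤ m 2`, `‖g x_k - E (θ 1)‖ ≤ s`, `π/2 (s + ρ) + 2ρ < θ 4 - θ 2` `⟹ ∀ k' ∈ [m 0, k] ∃ t ∈ [θ 0, θ 1], ‖g x_k' - E t‖ ≤ 2 s + 5 ρ`
*        `pvgk_sec'`          the same without smallness, with the modulus `(1 + 2/(θ 4 - θ 2)) (2 s + 5 ρ)`
-/

set_option autoImplicit false

namespace Claimed.Agent.R289

open Set Metric Real

/-! ## 0. the circle -/

theorem pvgk_E_norm (t : ℝ) : ‖pvgE t‖ = 1 := by unfold pvgE; exact Complex.norm_exp_ofReal_mul_I t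

theorem pvgk_E_add (s t : ℝ) : pvgE (s + t) = pvgE s * pvgE t := by
  unfold pvgE
  rw [← Complex.exp_add]; congr 1; push_cast; ring

theorem pvgk_E_per (t : ℝ) : pvgE (t + 2 * π) = pvgE t := by
  unfold pvgE
  have : ((t + 2 * π : ℝ) : ℂ) * Complex.I = (t : ℂ) * Complex.I + 2 * π * Complex.I := by push_cast; ring
  rw [this, Complex.exp_add, Complex.exp_two_pi_mul_I, mul_one]

/-- the chord -/
theorem pvgk_E_dist (s t : ℝ) : ‖pvgE s - pvgE t‖ = 2 * |sin ((s - t) / 2)| := by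
  have e : pvgE s - pvgE t = pvgE t * (Complex.exp (Complex.I * ((s - t : ℝ) : ℂ)) - 1) := by
    have h1 : pvgE s = pvgE t * pvgE (s - t) := by rw [← pvgk_E_add]; congr 1; ring
    rw [h1, mul_sub, mul_one]
    unfold pvgE
    rw [mul_comm Complex.I]
  rw [e, norm_mul, pvgk_E_norm, one_mul, Complex.norm_exp_I_mul_ofReal_sub_one, norm_mul]
  simp

theorem pvgk_E_le (s t : ℝ) : ‖pvgE s - pvgE t‖ ≤ |s - t| := by
  rw [pvgk_E_dist]
  have := Real.abs_sin_le_abs (x := (s - t) / 2)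
  rw [abs_div, abs_two] at this
  linarith

/-- `sin` on `[α, π - γ]` -/
theorem pvgk_sin_ge {α γ x : ℝ} (hα : 0 ≤ α) (hγ : 0 ≤ γ) (h1 : α ≤ x) (h2 : x ≤ π - γ) : min (sin α) (sin γ) ≤ sin x := by
  rcases le_total x (π / 2) with h | h
  · exact (min_le_left _ _).trans (Real.sin_le_sin_of_le_of_le_pi_div_two (by linarith [pi_pos]) h h1)
  · refine (min_le_right _ _).trans ?_
    rw [← Real.sin_pi_sub x]
    exact Real.sin_le_sin_of_le_of_le_pi_div_two (by linarith [pi_pos]) (by linarith) (by linarith)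

theorem pvgk_E_ge {s t : ℝ} (h : |s - t| ≤ π) : 2 / π * |s - t| ≤ ‖pvgE s - pvgE t‖ := by
  rw [pvgk_E_dist]
  have h1 : |(s - t) / 2| ≤ π / 2 := by rw [abs_div, abs_two]; linarith
  have h2 := Real.mul_abs_le_abs_sin h1
  rw [abs_div, abs_two] at h2
  have e : 2 / π * |s - t| = 2 * (2 / π * (|s - t| / 2)) := by ring
  rw [e]; linarith

/-- a short chord with an angle which does not come back from the other side -/
theorem pvgk_E_small {s t γ : ℝ} (h0 : 0 ≤ s - t) (h1 : s - t ≤ 2 * π - γ) (h2 : ‖pvgE s - pvgE t‖ < 2 / π * γ) : s - t ≤ π / 2 * ‖pvgE s - pvgE t‖ := by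
  have hπ := pi_pos
  have hγ : 0 < γ := by
    have h3 : 0 < 2 / π * γ := lt_of_le_of_lt (norm_nonneg _) h2
    exact (mul_pos_iff_of_pos_left (by positivity)).1 h3
  rcases le_total (s - t) π with h | h
  · have h3 := pvgk_E_ge (s := s) (t := t) (by rw [abs_of_nonneg h0]; exact h)
    rw [abs_of_nonneg h0] at h3
    calc s - t = π / 2 * (2 / π * (s - t)) := by field_simp
      _ ≤ _ := mul_le_mul_of_nonneg_left h3 (by positivity)
  · exfalso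
    have h3 := pvgk_E_ge (s := s) (t := t + 2 * π) (by rw [abs_le]; constructor <;> linarith)
    rw [pvgk_E_per, abs_of_nonpos (by linarith)] at h3
    have h4 : 2 / π * γ ≤ 2 / π * -(s - (t + 2 * π)) := mul_le_mul_of_nonneg_left (by linarith) (by positivity)
    linarith

/-- **ARCS LEMMA**: from a point of an arc, the complementary arc is not nearer than the nearer end -/
theorem pvgk_arcs {α β τ t' : ℝ} (h1 : α ≤ τ) (h2 : τ ≤ β) (h3 : β ≤ t') (h4 : t' ≤ α + 2 * π) :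
    min ‖pvgE τ - pvgE α‖ ‖pvgE τ - pvgE β‖ ≤ ‖pvgE τ - pvgE t'‖ := by
  have hπ := pi_pos
  rw [pvgk_E_dist, pvgk_E_dist, pvgk_E_dist]
  have a1 : |sin ((τ - α) / 2)| = sin ((τ - α) / 2) := abs_of_nonneg (Real.sin_nonneg_of_nonneg_of_le_pi (by linarith) (by linarith))
  have a2 : |sin ((τ - β) / 2)| = sin ((β - τ) / 2) := by
    rw [← abs_neg, ← Real.sin_neg, abs_of_nonneg (Real.sin_nonneg_of_nonneg_of_le_pi (by linarith) (by linarith))]; congr 1; ring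
  have a3 : |sin ((τ - t') / 2)| = sin ((t' - τ) / 2) := by
    rw [← abs_neg, ← Real.sin_neg, abs_of_nonneg (Real.sin_nonneg_of_nonneg_of_le_pi (by linarith) (by linarith))]; congr 1; ring
  rw [a1, a2, a3]
  have := pvgk_sin_ge (α := (β - τ) / 2) (γ := (τ - α) / 2) (x := (t' - τ) / 2) (by linarith) (by linarith) (by linarith) (by linarith)
  rcases le_total (sin ((β - τ) / 2)) (sin ((τ - α) / 2)) with h | h
  · rw [min_eq_left h] at this
    exact (min_le_right _ _).trans (by linarith)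
  · rw [min_eq_right h] at this
    exact (min_le_left _ _).trans (by linarith)

/-- the mirror form -/
theorem pvgk_arcs' {α β τ t' : ℝ} (h1 : α ≤ τ) (h2 : τ ≤ β) (h3 : β - 2 * π ≤ t') (h4 : t' ≤ α) :
    min ‖pvgE τ - pvgE α‖ ‖pvgE τ - pvgE β‖ ≤ ‖pvgE τ - pvgE t'‖ := by
  rw [← pvgk_E_per t']
  exact pvgk_arcs h1 h2 (by linarith) (by linarith)

/-- a point of modulus `r` and angle `a` against the point of the circle of angle `t` -/
theorem pvgk_polar (r a t : ℝ) : ‖(r : ℂ) * pvgE a - pvgE t‖ ≤ |r - 1| + |a - t| := by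
  have e : (r : ℂ) * pvgE a - pvgE t = ((r - 1 : ℝ) : ℂ) * pvgE a + (pvgE a - pvgE t) := by push_cast; ring
  rw [e]
  refine (norm_add_le _ _).trans (add_le_add ?_ (pvgk_E_le a t))
  rw [norm_mul, pvgk_E_norm, mul_one, Complex.norm_real, Real.norm_eq_abs]

/-! ## 1. the record -/

section record

variable {Y : Set ℂ} {h : DelGood Y} {Δ : PvgDk h} {N : Set ℂ} {g : ℂ → ℂ} {θ : ℕ → ℝ} {ρ : ℝ}

theorem pvgk_x_per (Δ : PvgDk h) (k : ℕ) : Δ.x (k + Δ.c.n) = Δ.x k := by unfold PvgDk.x; rw [Δ.c.per]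

theorem pvgk_x_per_mul (Δ : PvgDk h) (k a : ℕ) : Δ.x (k + a * Δ.c.n) = Δ.x k := by
  induction a with
  | zero => simp
  | succ a ih => rw [Nat.succ_mul, ← add_assoc, pvgk_x_per, ih]

/-- the vertices of the cycle are vertices of the closed disc -/
theorem pvgk_x_VOf (Δ : PvgDk h) (k : ℕ) : (delPl h).toMap.src (Δ.c.e k) ∈ (delPl h).toMap.VOf Δ.c.Left := by
  rw [pl_VOf_left (delp_isSph h) Δ.c]
  exact Or.inl ⟨k, rfl⟩

theorem pvgk_x_mem (H : Δ.Ok N g θ ρ) (k : ℕ) : Δ.x k ∈ pvgK N g 1 := H.outer _ (pvgk_x_VOf Δ k)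

theorem pvgk_x_norm (H : Δ.Ok N g θ ρ) (k : ℕ) : 1 - ρ ≤ ‖g (Δ.x k)‖ ∧ ‖g (Δ.x k)‖ ≤ 1 := ⟨H.rim k, (pvgk_x_mem H k).2⟩

/-- the vertex number `k` against a point of the circle -/
theorem pvgk_x_E (H : Δ.Ok N g θ ρ) (k : ℕ) (t : ℝ) : ‖g (Δ.x k) - pvgE t‖ ≤ ρ + |Δ.th k - t| := by
  obtain ⟨h1, h2⟩ := pvgk_x_norm H k
  rw [H.lift k]
  refine (pvgk_polar _ _ _).trans (add_le_add ?_ le_rfl)
  rw [abs_le]; constructor <;> linarith

/-- consecutive vertices of the cycle -/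
theorem pvgk_x_step (H : Δ.Ok N g θ ρ) (k : ℕ) : ‖g (Δ.x (k + 1)) - g (Δ.x k)‖ ≤ ρ := by
  have h1 := H.step (Δ.c.e k) ((pl_jordan (delp_isSph h) Δ.c).2.1 k)
  rw [Δ.c.chain k] at h1
  exact h1

theorem pvgk_rho_nonneg (H : Δ.Ok N g θ ρ) : 0 ≤ ρ := (norm_nonneg _).trans (pvgk_x_step H 0)

/-- every index is congruent to an index of one of the four index arcs -/
theorem pvgk_idx (H : Δ.Ok N g θ ρ) (k : ℕ) : ∃ j k', j < 4 ∧ Δ.m j ≤ k' ∧ k' < Δ.m (j + 1) ∧ Δ.x k' = Δ.x k := by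
  have hn : 0 < Δ.c.n := lt_of_lt_of_le (by norm_num) Δ.c.three
  -- an index of `[m 0, m 0 + n)`
  obtain ⟨k', h1, h2, h3⟩ : ∃ k', Δ.m 0 ≤ k' ∧ k' < Δ.m 0 + Δ.c.n ∧ Δ.x k' = Δ.x k := by
    -- `k + m0 * n ≥ m0`; reduce
    set K := k + Δ.m 0 * Δ.c.n with hK
    have hK0 : Δ.m 0 ≤ K := by
      have : Δ.m 0 * 1 ≤ Δ.m 0 * Δ.c.n := Nat.mul_le_mul_left _ hn
      omega
    refine ⟨Δ.m 0 + (K - Δ.m 0) % Δ.c.n, Nat.le_add_right _ _, Nat.add_lt_add_left (Nat.mod_lt _ hn) _, ?_⟩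
    have e : K = (Δ.m 0 + (K - Δ.m 0) % Δ.c.n) + ((K - Δ.m 0) / Δ.c.n) * Δ.c.n := by
      have := Nat.mod_add_div (K - Δ.m 0) Δ.c.n
      rw [mul_comm] at this
      omega
    have e1 : Δ.x K = Δ.x k := pvgk_x_per_mul Δ k _
    rw [← e1]
    conv_rhs => rw [e]
    rw [pvgk_x_per_mul]
  rw [← H.m_per] at h2
  by_cases c1 : k' < Δ.m 1
  · exact ⟨0, k', by norm_num, h1, c1, h3⟩
  by_cases c2 : k' < Δ.m 2
  · exact ⟨1, k', by norm_num, not_lt.1 c1, c2, h3⟩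
  by_cases c3 : k' < Δ.m 3
  · exact ⟨2, k', by norm_num, not_lt.1 c2, c3, h3⟩
  · exact ⟨3, k', by norm_num, not_lt.1 c3, h2, h3⟩

/-- **K1** -/
theorem pvgk_adj (H : Δ.Ok N g θ ρ) {d : (delPl h).Dart} (hd : d ∈ Δ.c.Left ∨ (delPl h).toMap.opp d ∈ Δ.c.Left) :
    ‖g ((delPl h).toMap.src d : ℂ) - g ((delPl h).toMap.tgt d : ℂ)‖ ≤ ρ := by
  rcases hd with hd | hd
  · rw [norm_sub_rev]; exact H.step d hd
  · have := H.step _ hd
    rwa [(delPl h).toMap.tgt_opp, (delPl h).toMap.src_opp'] at this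

/-- **K2** -/
theorem pvgk_dense (H : Δ.Ok N g θ ρ) {z : ℂ} (hz : z ∈ pvgK N g 1) : ∃ v ∈ (delPl h).toMap.Int Δ.c.Left, ‖g (v : ℂ) - g z‖ ≤ ρ := H.dense z hz

theorem pvgk_mk_mono (hθ : PvgMk θ) {i j : ℕ} (hij : i ≤ j) (hj : j ≤ 4) : θ i ≤ θ j := by
  induction j with
  | zero => rw [Nat.le_zero.1 hij]
  | succ j ih =>
    rcases Nat.lt_or_ge i (j + 1) with h1 | h1
    · exact (ih (Nat.lt_succ_iff.1 h1) (by omega)).trans (hθ.lt j (by omega)).le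
    · rw [le_antisymm hij h1]

/-- **K3 (densB)**: the index arc `j` is `3ρ`-dense on the geometric arc `j` -/
theorem pvgk_densB (hθ : PvgMk θ) (H : Δ.Ok N g θ ρ) {j : ℕ} (hj : j < 4) {t : ℝ} (h1 : θ j ≤ t) (h2 : t ≤ θ (j + 1)) :
    ∃ k, Δ.m j ≤ k ∧ k ≤ Δ.m (j + 1) ∧ ‖g (Δ.x k) - pvgE t‖ ≤ 3 * ρ := by
  have hρ := pvgk_rho_nonneg H
  obtain ⟨k0, hk0⟩ := H.near t
  obtain ⟨j', k, hj', hk1, hk2, hk3⟩ := pvgk_idx H k0
  rw [← hk3] at hk0
  by_cases hjj : j' = j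
  · subst hjj
    exact ⟨k, hk1, hk2.le, hk0.trans (by linarith)⟩
  obtain ⟨t', ht1, ht2, ht3⟩ := H.arc j' hj' k hk1 hk2.le
  have hd : ‖pvgE t - pvgE t'‖ ≤ 2 * ρ := by
    have := norm_sub_le (g (Δ.x k) - pvgE t') (g (Δ.x k) - pvgE t)
    rw [sub_sub_sub_cancel_left] at this
    linarith
  have hmin : min ‖pvgE t - pvgE (θ j)‖ ‖pvgE t - pvgE (θ (j + 1))‖ ≤ 2 * ρ := by
    refine le_trans ?_ hd
    rcases Nat.lt_or_gt_of_ne hjj with hlt | hgt
    · -- `j' < j`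
      refine pvgk_arcs' h1 h2 ?_ (ht2.trans (pvgk_mk_mono hθ hlt (by omega)))
      have a1 : θ (j + 1) ≤ θ 4 := pvgk_mk_mono hθ (by omega) le_rfl
      have a2 : θ 0 ≤ θ j' := pvgk_mk_mono hθ (Nat.zero_le _) (by omega)
      have := hθ.per
      linarith
    · refine pvgk_arcs h1 h2 ((pvgk_mk_mono hθ hgt (by omega)).trans ht1) ?_
      have a1 : θ (j' + 1) ≤ θ 4 := pvgk_mk_mono hθ (by omega) le_rfl
      have a2 : θ 0 ≤ θ j := pvgk_mk_mono hθ (Nat.zero_le _) (by omega)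
      have := hθ.per
      linarith
  rcases min_le_iff.1 hmin with hm | hm
  · refine ⟨Δ.m j, le_rfl, (H.m_lt j hj).le, ?_⟩
    have h3 := H.mark j (by omega)
    have := norm_sub_le (g (Δ.x (Δ.m j)) - pvgE (θ j)) (pvgE t - pvgE (θ j))
    rw [sub_sub_sub_cancel_right] at this
    linarith
  · refine ⟨Δ.m (j + 1), (H.m_lt j hj).le, le_rfl, ?_⟩
    have h3 := H.mark (j + 1) (by omega)
    have := norm_sub_le (g (Δ.x (Δ.m (j + 1))) - pvgE (θ (j + 1))) (pvgE t - pvgE (θ (j + 1)))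
    rw [sub_sub_sub_cancel_right] at this
    linarith

theorem pvgk_m_mono (H : Δ.Ok N g θ ρ) {i j : ℕ} (hij : i ≤ j) (hj : j ≤ 4) : Δ.m i ≤ Δ.m j := by
  induction j with
  | zero => rw [Nat.le_zero.1 hij]
  | succ j ih =>
    rcases Nat.lt_or_ge i (j + 1) with h1 | h1
    · exact (ih (Nat.lt_succ_iff.1 h1) (by omega)).trans (H.m_lt j (by omega)).le
    · rw [le_antisymm hij h1]

/-- (arc) for a union of consecutive index arcs (the fan `s₀` sits on `[m 0, m 2]`) -/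
theorem pvgk_arc_range (hθ : PvgMk θ) (H : Δ.Ok N g θ ρ) {i j : ℕ} (hij : i < j) (hj : j ≤ 4) {k : ℕ} (h1 : Δ.m i ≤ k) (h2 : k ≤ Δ.m j) :
    ∃ t, θ i ≤ t ∧ t ≤ θ j ∧ ‖g (Δ.x k) - pvgE t‖ ≤ ρ := by
  induction j with
  | zero => omega
  | succ j ih =>
    by_cases hk : Δ.m j ≤ k
    · obtain ⟨t, t1, t2, t3⟩ := H.arc j (by omega) k hk h2
      exact ⟨t, (pvgk_mk_mono hθ (Nat.lt_succ_iff.1 hij) (by omega)).trans t1, t2, t3⟩
    · have hij' : i < j := by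
        rcases Nat.lt_or_ge i j with h3 | h3
        · exact h3
        · exfalso
          have : i = j := by omega
          subst this
          exact hk h1
      obtain ⟨t, t1, t2, t3⟩ := ih hij' (by omega) (not_le.1 hk).le
      exact ⟨t, t1, t2.trans (hθ.lt j (by omega)).le, t3⟩

/-- (densB) for a union of consecutive arcs -/
theorem pvgk_densB_range (hθ : PvgMk θ) (H : Δ.Ok N g θ ρ) {i j : ℕ} (hij : i < j) (hj : j ≤ 4) {t : ℝ} (h1 : θ i ≤ t) (h2 : t ≤ θ j) :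
    ∃ k, Δ.m i ≤ k ∧ k ≤ Δ.m j ∧ ‖g (Δ.x k) - pvgE t‖ ≤ 3 * ρ := by
  induction j with
  | zero => omega
  | succ j ih =>
    by_cases ht : θ j ≤ t
    · obtain ⟨k, k1, k2, k3⟩ := pvgk_densB hθ H (j := j) (by omega) ht h2
      exact ⟨k, (pvgk_m_mono H (Nat.lt_succ_iff.1 hij) (by omega)).trans k1, k2, k3⟩
    · have hij' : i < j := by
        rcases Nat.lt_or_ge i j with h3 | h3
        · exact h3
        · exfalso
          have : i = j := by omega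
          subst this
          exact ht h1
      obtain ⟨k, k1, k2, k3⟩ := ih hij' (by omega) (not_le.1 ht).le
      exact ⟨k, k1, k2.trans (H.m_lt j (by omega)).le, k3⟩

/-- the angles after a mark -/
theorem pvgk_th_lo (H : Δ.Ok N g θ ρ) {i : ℕ} (hi : i ≤ 4) {k : ℕ} (h1 : Δ.m i ≤ k) : θ i - 2 * ρ ≤ Δ.th k := by
  have a1 := H.qmono _ _ h1
  have a3 := abs_le.1 (H.th_mark i hi)
  linarith

/-- the angles before a mark -/
theorem pvgk_th_hi (H : Δ.Ok N g θ ρ) {j : ℕ} (hj : j ≤ 4) {k : ℕ} (h2 : k ≤ Δ.m j) : Δ.th k ≤ θ j + 2 * ρ := by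
  have a2 := H.qmono _ _ h2
  have a4 := abs_le.1 (H.th_mark j hj)
  linarith

/-- **K4 (sec)**: a vertex of the index arc `[m 0, m 2]` near the mark `b`: all the vertices before it run near the geometric arc `[a, b]` -/
theorem pvgk_sec (hθ : PvgMk θ) (H : Δ.Ok N g θ ρ) {s : ℝ} (hs : π / 2 * (s + ρ) + 2 * ρ < θ 4 - θ 2) {k : ℕ} (hk2 : k ≤ Δ.m 2)
    (hk : ‖g (Δ.x k) - pvgE (θ 1)‖ ≤ s) {k' : ℕ} (h0 : Δ.m 0 ≤ k') (h1 : k' ≤ k) :
    ∃ t, θ 0 ≤ t ∧ t ≤ θ 1 ∧ ‖g (Δ.x k') - pvgE t‖ ≤ 2 * s + 5 * ρ := by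
  have hπ := pi_pos
  have hπ4 := pi_le_four
  have hρ := pvgk_rho_nonneg H
  have hs0 : 0 ≤ s := (norm_nonneg _).trans hk
  have h01 : θ 0 ≤ θ 1 := (hθ.lt 0 (by norm_num)).le
  -- the chord between `th k` and `θ 1`
  have hc : ‖pvgE (Δ.th k) - pvgE (θ 1)‖ ≤ s + ρ := by
    have a1 := pvgk_x_E H k (Δ.th k)
    rw [sub_self, abs_zero, add_zero] at a1
    have := norm_sub_le (g (Δ.x k) - pvgE (θ 1)) (g (Δ.x k) - pvgE (Δ.th k))
    rw [sub_sub_sub_cancel_left] at this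
    linarith
  -- `th k ≤ θ 1 + π/2 (s + ρ)`
  have hup : Δ.th k - θ 1 ≤ π / 2 * (s + ρ) := by
    rcases le_total (Δ.th k - θ 1) 0 with hneg | hpos
    · exact hneg.trans (by positivity)
    · have b1 := pvgk_th_hi H (j := 2) (by norm_num) hk2
      have b2 : Δ.th k - θ 1 ≤ 2 * π - (θ 4 - θ 2 - 2 * ρ) := by
        have := hθ.per
        linarith
      have b3 : ‖pvgE (Δ.th k) - pvgE (θ 1)‖ < 2 / π * (θ 4 - θ 2 - 2 * ρ) := by
        refine lt_of_le_of_lt hc ?_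
        have : s + ρ = 2 / π * (π / 2 * (s + ρ)) := by field_simp
        rw [this]
        exact mul_lt_mul_of_pos_left (by linarith) (by positivity)
      exact (pvgk_E_small hpos b2 b3).trans (mul_le_mul_of_nonneg_left hc (by positivity))
  have c1 := H.qmono _ _ h1
  have c2 := pvgk_th_lo H (i := 0) (by norm_num) h0
  -- clamp the angle
  refine ⟨max (θ 0) (min (Δ.th k') (θ 1)), le_max_left _ _, max_le h01 (min_le_right _ _), ?_⟩
  refine (pvgk_x_E H k' _).trans ?_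
  have hcl : |Δ.th k' - max (θ 0) (min (Δ.th k') (θ 1))| ≤ π / 2 * (s + ρ) + 2 * ρ := by
    have p0 : 0 ≤ π / 2 * (s + ρ) := by positivity
    rw [abs_le]
    constructor
    · have : max (θ 0) (min (Δ.th k') (θ 1)) ≤ Δ.th k' + 2 * ρ := max_le (by linarith) ((min_le_left _ _).trans (by linarith))
      linarith
    · have hM : min (Δ.th k') (θ 1) ≤ max (θ 0) (min (Δ.th k') (θ 1)) := le_max_right _ _
      rcases le_total (Δ.th k') (θ 1) with hh | hh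
      · have : Δ.th k' ≤ max (θ 0) (min (Δ.th k') (θ 1)) := (min_eq_left hh).symm.le.trans hM
        linarith
      · have : θ 1 ≤ max (θ 0) (min (Δ.th k') (θ 1)) := (min_eq_right hh).symm.le.trans hM
        linarith
  have p1 : π / 2 * (s + ρ) ≤ 2 * (s + ρ) := mul_le_mul_of_nonneg_right (by linarith) (by linarith)
  linarith

/-- **K4 without smallness** -/
theorem pvgk_sec' (hθ : PvgMk θ) (H : Δ.Ok N g θ ρ) {s : ℝ} {k : ℕ} (hk2 : k ≤ Δ.m 2)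
    (hk : ‖g (Δ.x k) - pvgE (θ 1)‖ ≤ s) {k' : ℕ} (h0 : Δ.m 0 ≤ k') (h1 : k' ≤ k) :
    ∃ t, θ 0 ≤ t ∧ t ≤ θ 1 ∧ ‖g (Δ.x k') - pvgE t‖ ≤ (1 + 2 / (θ 4 - θ 2)) * (2 * s + 5 * ρ) := by
  have hπ4 := pi_le_four
  have hρ := pvgk_rho_nonneg H
  have hs0 : 0 ≤ s := (norm_nonneg _).trans hk
  have hγ : 0 < θ 4 - θ 2 := by
    have a1 := hθ.lt 2 (by norm_num)
    have a2 := hθ.lt 3 (by norm_num)
    linarith
  have hq : 0 ≤ 2 / (θ 4 - θ 2) := by positivity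
  have hw : 0 ≤ 2 * s + 5 * ρ := by positivity
  by_cases hs : π / 2 * (s + ρ) + 2 * ρ < θ 4 - θ 2
  · obtain ⟨t, t0, t1, ht⟩ := pvgk_sec hθ H hs hk2 hk h0 h1
    refine ⟨t, t0, t1, ht.trans ?_⟩
    nlinarith [mul_nonneg hq hw]
  · refine ⟨θ 0, le_rfl, (hθ.lt 0 (by norm_num)).le, ?_⟩
    have a1 : ‖g (Δ.x k') - pvgE (θ 0)‖ ≤ 2 := by
      refine (norm_sub_le _ _).trans ?_
      rw [pvgk_E_norm]
      linarith [(pvgk_x_norm H k').2]
    have p1 : π / 2 * (s + ρ) ≤ 2 * (s + ρ) := mul_le_mul_of_nonneg_right (by linarith) (by linarith)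
    have a2 : θ 4 - θ 2 ≤ 2 * s + 5 * ρ := by linarith [not_lt.1 hs]
    have a3 : 2 ≤ 2 / (θ 4 - θ 2) * (2 * s + 5 * ρ) := by
      calc (2 : ℝ) = 2 / (θ 4 - θ 2) * (θ 4 - θ 2) := by field_simp
        _ ≤ _ := mul_le_mul_of_nonneg_left a2 hq
    nlinarith

end record

end Claimed.Agent.R289
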