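import Claimed.Agent.R289.Brg.Defs

/-!
# Row 289 (S0537, Cardy for Poisson-Voronoi), box BRIDGE, file Brg/Quad : THE CHART DICTIONARY OF AN ANALYTIC QUAD      (helper258, node of helper31 (FIT), request of helper271; prefix `pvgq_`, defs `Pvgq*`, `pvgq*`; 0 sorry)

`PvAn D d ψ` gives the disc chart `g` (`pvg_ch_of_an`, Brg/Defs): `ψ = i (1 + g)/(1 - g)`, `g d = 1`.      On the circle `ψ(g⁻¹ e^{it}) = tan ((t - π)/2)`, i.e. `g z = pvgE (π + 2 arctan (Re ψ z))`.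
PRODUCERS speak the chart (angles, `‖g u - g v‖`; record `PvgDk.Ok N g θ ρ`), CONSUMERS speak the plane (`ψ`, `pvArcL`, `pvArcR`, `pvoArc`, thickenings, `infDist · Dᶜ`; record `PvoFam.Good`, `PvonQuad`).   This file translates.

* §1  `pvgE`: `pvgq_E_add _per _inj _cont`;   `pvgq_cayley`: `i (1 + E(π+2s)) / (1 - E(π+2s)) = tan s`.
* §2  `PvgqCh D d ψ N g R1` = the output of `pvg_ch_of_an` as a record (`pvgq_of_an`);   `Q.frontier_eq` (`frontier D = {z ∈ N | ‖g z‖ = 1}`), `Q.mem_D_iff`, `Q.pt` (boundary point of angle `t`),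
      **`Q.psi_of_angle`**, **`Q.angle_of_psi`**.
* §3  `pvgqTh x = (π, π + 2 arctan x, 3π/2, 2π, 3π)` = angles of `a b c d a`;   `pvgq_mk : PvgMk (pvgqTh x)`;   `Q.g_a g_b g_c g_d`.
* §4  `Q.arcL_of_angle`, `Q.arcR_of_angle`;   the three cases of `PvoBd`: `Q.angle_01`, `Q.angle_1`, `Q.angle_0`;   `Q.cases` (points of `closure D \ {a,c,d}`).
* §5  chart distance ⟹ Euclid: `Q.close`, **`Q.thick`** (the three thickenings of `PvNice`), `Q.far_of_gap`, `Q.gap_D`, `gap_Icc`, `gap_angle`.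
* §6  the arcs of the three fans `pvgqLo l`, `pvgqHi l` (`a→c`, `c→d`, `d→a`);   `pvgq_gap_fan`.
* §7  UNIFORM gaps: `PvgqGap g p l0 γ`, `PvgqGapD g p γ`, `.near` (stable under small moves), `Q.close'` (Euclid ⟹ chart), **`Q.far`** (`r` depends on the gap only), `Q.gap_cases`.
* §8  the record `PvgDk.Ok`: `pvgq_x_K`, `pvgq_uv` (vertex `k` of the fan sphere = `Δ.x (k + Δ.m 0)`), `pvgq_fan_lo/hi`, **`pvgq_fan_arc`**, **`pvgq_link`** (positions for LINK), **`pvgq_far`**, `pvgq_far_D` (positions for ARM).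
* §9  `↔`: **`Q.arcL_iff`**, **`Q.arc_iff`** (`PvgqArc D d ψ j z` is `z ∈ pvoArc D d ψ j` of Obs/Sys by `Iff.rfl`), `Q.thick_arc`, **`Q.depth`** (`{τ ≤ infDist z Dᶜ} ⊆ K(1 - ρ)`).
-/

set_option autoImplicit false

namespace Claimed.Agent.R289

open Set Metric Filter Topology Claims.C0465
open scoped Real

/-! ## 1. the circle: `pvgE`, the Cayley formula -/

theorem pvgq_E_add (s t : ℝ) : pvgE (s + t) = pvgE s * pvgE t := by
  unfold pvgE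
  rw [← Complex.exp_add]; congr 1; push_cast; ring

theorem pvgq_E_zero : pvgE 0 = 1 := by simp [pvgE]

theorem pvgq_E_pi : pvgE π = -1 := by
  unfold pvgE; exact Complex.exp_pi_mul_I

theorem pvgq_E_two_pi : pvgE (2 * π) = 1 := by
  unfold pvgE; push_cast; exact Complex.exp_two_pi_mul_I

theorem pvgq_E_per (t : ℝ) : pvgE (t + 2 * π) = pvgE t := by rw [pvgq_E_add, pvgq_E_two_pi, mul_one]

theorem pvgq_E_cont : Continuous pvgE := by unfold pvgE; fun_prop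

theorem pvgq_E_eq (t : ℝ) : pvgE t = (Real.cos t : ℂ) + (Real.sin t : ℂ) * Complex.I := by
  unfold pvgE
  rw [Complex.exp_mul_I, Complex.ofReal_cos, Complex.ofReal_sin]

/-- `pvgE` is injective on windows of length `< 2π` -/
theorem pvgq_E_inj {s t : ℝ} (h : pvgE s = pvgE t) (hst : |s - t| < 2 * π) : s = t := by
  unfold pvgE at h
  rw [Complex.exp_eq_exp_iff_exists_int] at h
  obtain ⟨n, hn⟩ := h
  have h1 : s = t + n * (2 * π) := by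
    have h2 : ((s : ℂ)) * Complex.I = ((t + n * (2 * π) : ℝ) : ℂ) * Complex.I := by rw [hn]; push_cast; ring
    exact_mod_cast mul_right_cancel₀ Complex.I_ne_zero h2
  have h3 : |(n : ℝ)| * (2 * π) < 1 * (2 * π) := by
    have : s - t = n * (2 * π) := by linarith
    rw [this, abs_mul, abs_of_pos Real.two_pi_pos] at hst
    linarith
  have h4 : |(n : ℝ)| < 1 := lt_of_mul_lt_mul_right h3 Real.two_pi_pos.le
  have h5 : n = 0 := by
    have : |n| < 1 := by exact_mod_cast h4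
    exact Int.abs_lt_one_iff.1 this
  rw [h1, h5]; simp

/-- **the Cayley formula on the circle**: `i (1 + e^{it}) / (1 - e^{it}) = tan ((t - π)/2)`, written with `t = π + 2 s` -/
theorem pvgq_cayley (s : ℝ) (hs : Real.cos s ≠ 0) : Complex.I * (1 + pvgE (π + 2 * s)) / (1 - pvgE (π + 2 * s)) = ((Real.tan s : ℝ) : ℂ) := by
  have e1 : pvgE (π + 2 * s) = -(pvgE s * pvgE s) := by
    rw [pvgq_E_add, pvgq_E_pi, two_mul, pvgq_E_add]; ring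
  have hc : (Real.cos s : ℂ) ≠ 0 := by exact_mod_cast hs
  have hE : pvgE s ≠ 0 := by unfold pvgE; exact Complex.exp_ne_zero _
  have h1 : (Real.cos s : ℂ) ^ 2 + (Real.sin s : ℂ) ^ 2 = 1 := by exact_mod_cast Real.cos_sq_add_sin_sq s
  have e2 : 1 + -(pvgE s * pvgE s) = -2 * Complex.I * (Real.sin s : ℂ) * pvgE s := by
    rw [pvgq_E_eq]
    linear_combination (-1 : ℂ) * h1 + ((Real.sin s : ℂ) ^ 2) * Complex.I_sq
  have e3 : 1 - -(pvgE s * pvgE s) = 2 * (Real.cos s : ℂ) * pvgE s := by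
    rw [pvgq_E_eq]
    linear_combination (-1 : ℂ) * h1 + ((Real.sin s : ℂ) ^ 2) * Complex.I_sq
  rw [e1, e2, e3, Real.tan_eq_sin_div_cos, Complex.ofReal_div, div_eq_div_iff (mul_ne_zero (mul_ne_zero two_ne_zero hc) hE) hc]
  linear_combination (-2 * (Real.sin s : ℂ) * pvgE s * (Real.cos s : ℂ)) * Complex.I_sq

/-! ## 2. the chart of an analytic quad -/

/-- the chart data of an analytic quad (output of `pvg_ch_of_an`) -/
structure PvgqCh (D : Set ℂ) (d : ℂ) (ψ : ℂ → ℂ) (N : Set ℂ) (g : ℂ → ℂ) (R1 : ℝ) : Prop where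
  chart : PvChart D d ψ
  ch : PvgCh N g R1
  sub : closure D ⊆ N
  dom : D = N ∩ g ⁻¹' ball 0 1
  clo : closure D = pvgK N g 1
  gd : g d = 1
  psi : ∀ z ∈ closure D \ {d}, ψ z = Complex.I * (1 + g z) / (1 - g z)

theorem pvgq_of_an {D : Set ℂ} {d : ℂ} {ψ : ℂ → ℂ} (h : PvAn D d ψ) : ∃ (N : Set ℂ) (g : ℂ → ℂ) (R1 : ℝ), PvgqCh D d ψ N g R1 := by
  obtain ⟨N, g, R1, h1, h2, h3, h4, h5, h6⟩ := pvg_ch_of_an h
  exact ⟨N, g, R1, h.toPvChart, h1, h2, h3, h4, h5, h6⟩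

namespace PvgqCh

variable {D : Set ℂ} {d : ℂ} {ψ : ℂ → ℂ} {N : Set ℂ} {g : ℂ → ℂ} {R1 : ℝ}

theorem frontier_eq (Q : PvgqCh D d ψ N g R1) : frontier D = {z | z ∈ N ∧ ‖g z‖ = 1} := by
  rw [Q.chart.isOpen.frontier_eq, Q.clo]
  ext z
  constructor
  · rintro ⟨⟨h1, h2⟩, h3⟩
    refine ⟨h1, le_antisymm h2 (not_lt.1 fun h4 => h3 ?_)⟩
    rw [Q.dom]; exact ⟨h1, by simpa using h4⟩
  · rintro ⟨h1, h2⟩
    refine ⟨⟨h1, h2.le⟩, fun h3 => ?_⟩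
    rw [Q.dom] at h3
    have : ‖g z‖ < 1 := by simpa using h3.2
    linarith

theorem d_mem (Q : PvgqCh D d ψ N g R1) : d ∈ N := Q.sub (frontier_subset_closure Q.chart.hd)

theorem eq_d (Q : PvgqCh D d ψ N g R1) {z : ℂ} (hz : z ∈ N) (h : g z = 1) : z = d := Q.ch.inj hz Q.d_mem (h.trans Q.gd.symm)

theorem K_sub (Q : PvgqCh D d ψ N g R1) : pvgK N g 1 ⊆ pvgK N g R1 := pvg_K_mono Q.ch.one_lt.le

theorem mem_D_iff (Q : PvgqCh D d ψ N g R1) {z : ℂ} : z ∈ D ↔ z ∈ N ∧ ‖g z‖ < 1 := by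
  conv_lhs => rw [Q.dom]
  simp

/-- the boundary point of angle `t` -/
theorem pt (Q : PvgqCh D d ψ N g R1) (t : ℝ) : ∃ z ∈ frontier D, g z = pvgE t := by
  obtain ⟨z, hz, hgz⟩ := Q.ch.surj (show pvgE t ∈ closedBall (0 : ℂ) R1 by
    rw [mem_closedBall_zero_iff, pvg_E_norm]; exact Q.ch.one_lt.le)
  refine ⟨z, ?_, hgz⟩
  rw [Q.frontier_eq]; exact ⟨hz, by rw [hgz, pvg_E_norm]⟩

theorem mem_frontier_of_angle (Q : PvgqCh D d ψ N g R1) {z : ℂ} (hz : z ∈ N) {t : ℝ} (h : g z = pvgE t) : z ∈ frontier D := by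
  rw [Q.frontier_eq]; exact ⟨hz, by rw [h, pvg_E_norm]⟩

/-- **angle ⟹ `ψ`** -/
theorem psi_of_angle (Q : PvgqCh D d ψ N g R1) {z : ℂ} (hz : z ∈ N) {s : ℝ} (h : g z = pvgE (π + 2 * s)) (h1 : -(π / 2) < s) (h2 : s < π / 2) :
    z ∈ frontier D ∧ z ≠ d ∧ ψ z = ((Real.tan s : ℝ) : ℂ) := by
  have hf := Q.mem_frontier_of_angle hz h
  have hd : z ≠ d := by
    rintro rfl
    rw [Q.gd, ← pvgq_E_two_pi] at h
    have := pvgq_E_inj h (by rw [abs_lt]; constructor <;> linarith [Real.pi_pos])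
    linarith
  refine ⟨hf, hd, ?_⟩
  rw [Q.psi z ⟨frontier_subset_closure hf, hd⟩, h]
  exact pvgq_cayley s (Real.cos_pos_of_mem_Ioo ⟨h1, h2⟩).ne'

theorem psi_real (Q : PvgqCh D d ψ N g R1) {z : ℂ} (hz : z ∈ frontier D) (hd : z ≠ d) : ψ z = (((ψ z).re : ℝ) : ℂ) := by
  have : ψ z ∈ ψ '' (frontier D \ {d}) := ⟨z, ⟨hz, hd⟩, rfl⟩
  rw [Q.chart.imgB] at this
  exact Complex.ext (by simp) (by simpa using this)

/-- **`ψ` ⟹ angle** -/
theorem angle_of_psi (Q : PvgqCh D d ψ N g R1) {z : ℂ} (hz : z ∈ frontier D) (hd : z ≠ d) : g z = pvgE (π + 2 * Real.arctan (ψ z).re) := by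
  obtain ⟨z', hz', hg'⟩ := Q.pt (π + 2 * Real.arctan (ψ z).re)
  obtain ⟨-, hd', hψ'⟩ := Q.psi_of_angle (Q.sub (frontier_subset_closure hz')) hg' (Real.neg_pi_div_two_lt_arctan _) (Real.arctan_lt_pi_div_two _)
  rw [Real.tan_arctan, ← Q.psi_real hz hd] at hψ'
  have : z' = z := Q.chart.inj ⟨frontier_subset_closure hz', hd'⟩ ⟨frontier_subset_closure hz, hd⟩ hψ'
  subst this; exact hg'

end PvgqCh

/-! ## 3. the marks as angles -/

/-- the angles of the marks `a b c d a`: `ψ = 0, x, 1, ∞, 0` -/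
noncomputable def pvgqTh (x : ℝ) : ℕ → ℝ
  | 0 => π
  | 1 => π + 2 * Real.arctan x
  | 2 => 3 * π / 2
  | 3 => 2 * π
  | _ => 3 * π

theorem pvgq_eqns_cite : True := by
  have := @pvgqTh.eq_1
  trivial

@[simp] theorem pvgq_th0 (x : ℝ) : pvgqTh x 0 = π := rfl
@[simp] theorem pvgq_th1 (x : ℝ) : pvgqTh x 1 = π + 2 * Real.arctan x := rfl
@[simp] theorem pvgq_th2 (x : ℝ) : pvgqTh x 2 = 3 * π / 2 := rfl
@[simp] theorem pvgq_th3 (x : ℝ) : pvgqTh x 3 = 2 * π := rfl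
@[simp] theorem pvgq_th4 (x : ℝ) : pvgqTh x 4 = 3 * π := rfl

theorem pvgq_arctan_lt {x : ℝ} (hx1 : x < 1) : Real.arctan x < π / 4 := by
  rw [← Real.arctan_one]; exact Real.arctan_strictMono hx1

theorem pvgq_mk {x : ℝ} (hx0 : 0 < x) (hx1 : x < 1) : PvgMk (pvgqTh x) := by
  have h0 := Real.arctan_pos.2 hx0
  have h1 := pvgq_arctan_lt hx1
  have hp := Real.pi_pos
  refine ⟨fun j hj => ?_, by simp; ring⟩
  interval_cases j <;> simp <;> linarith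

namespace PvgqCh

variable {D : Set ℂ} {d : ℂ} {ψ : ℂ → ℂ} {N : Set ℂ} {g : ℂ → ℂ} {R1 : ℝ}

theorem g_a (Q : PvgqCh D d ψ N g R1) (x : ℝ) {a : ℂ} (ha : a ∈ frontier D) (had : a ≠ d) (h : ψ a = 0) : g a = pvgE (pvgqTh x 0) := by
  rw [Q.angle_of_psi ha had, h]; simp

theorem g_b (Q : PvgqCh D d ψ N g R1) {x : ℝ} {b : ℂ} (hb : b ∈ frontier D) (hbd : b ≠ d) (h : ψ b = x) : g b = pvgE (pvgqTh x 1) := by
  rw [Q.angle_of_psi hb hbd, h]; simp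

theorem g_c (Q : PvgqCh D d ψ N g R1) (x : ℝ) {c : ℂ} (hc : c ∈ frontier D) (hcd : c ≠ d) (h : ψ c = 1) : g c = pvgE (pvgqTh x 2) := by
  rw [Q.angle_of_psi hc hcd, h]
  simp only [Complex.one_re, Real.arctan_one, pvgq_th2]
  congr 1; ring

theorem g_d (Q : PvgqCh D d ψ N g R1) (x : ℝ) : g d = pvgE (pvgqTh x 3) := by
  rw [Q.gd, pvgq_th3, pvgq_E_two_pi]

/-! ## 4. the arcs -/

/-- index arc `0` = `[a, b]` = `pvArcL` -/
theorem arcL_of_angle (Q : PvgqCh D d ψ N g R1) {x : ℝ} {z : ℂ} (hz : z ∈ N) {t : ℝ} (h : g z = pvgE t) (h0 : pvgqTh x 0 ≤ t) (h1 : t ≤ pvgqTh x 1) :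
    z ∈ pvArcL D d ψ x := by
  simp only [pvgq_th0, pvgq_th1] at h0 h1
  have hp := Real.pi_pos
  have hx := Real.arctan_lt_pi_div_two x
  have e : t = π + 2 * ((t - π) / 2) := by ring
  rw [e] at h
  obtain ⟨hf, hd, hψ⟩ := Q.psi_of_angle hz h (by linarith) (by linarith)
  refine ⟨hf, hd, ?_, ?_⟩
  · rw [hψ, Complex.ofReal_re]
    exact Real.tan_nonneg_of_nonneg_of_le_pi_div_two (by linarith) (by linarith)
  · rw [hψ, Complex.ofReal_re]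
    calc Real.tan ((t - π) / 2) ≤ Real.tan (Real.arctan x) :=
          Real.strictMonoOn_tan.monotoneOn ⟨by linarith, by linarith⟩ ⟨Real.neg_pi_div_two_lt_arctan x, hx⟩ (by linarith)
      _ = x := Real.tan_arctan x

/-- index arc `2` = `[c, d]` = `pvArcR` -/
theorem arcR_of_angle (Q : PvgqCh D d ψ N g R1) {x : ℝ} {z : ℂ} (hz : z ∈ N) {t : ℝ} (h : g z = pvgE t) (h0 : pvgqTh x 2 ≤ t) (h1 : t ≤ pvgqTh x 3) :
    z ∈ pvArcR D d ψ := by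
  simp only [pvgq_th2, pvgq_th3] at h0 h1
  have hp := Real.pi_pos
  rcases h1.eq_or_lt with rfl | h1
  · left; exact Q.eq_d hz (by rw [h, pvgq_E_two_pi])
  · right
    have e : t = π + 2 * ((t - π) / 2) := by ring
    rw [e] at h
    obtain ⟨hf, hd, hψ⟩ := Q.psi_of_angle hz h (by linarith) (by linarith)
    refine ⟨hf, hd, ?_⟩
    rw [hψ, Complex.ofReal_re, ← Real.tan_pi_div_four]
    exact Real.strictMonoOn_tan.monotoneOn ⟨by linarith, by linarith⟩ ⟨by linarith, by linarith⟩ (by linarith)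

/-- the open arc `(a, c)`: first case of `PvoBd` -/
theorem angle_01 (Q : PvgqCh D d ψ N g R1) (x : ℝ) {z : ℂ} (hz : z ∈ frontier D) (hd : z ≠ d) (h0 : 0 < (ψ z).re) (h1 : (ψ z).re < 1) :
    ∃ t, pvgqTh x 0 < t ∧ t < pvgqTh x 2 ∧ g z = pvgE t := by
  refine ⟨_, ?_, ?_, Q.angle_of_psi hz hd⟩
  · have := Real.arctan_pos.2 h0
    simp only [pvgq_th0]; linarith
  · have := pvgq_arctan_lt h1
    simp only [pvgq_th2]; linarith

/-- the open arc `(c, d)`: second case of `PvoBd` -/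
theorem angle_1 (Q : PvgqCh D d ψ N g R1) (x : ℝ) {z : ℂ} (hz : z ∈ frontier D) (hd : z ≠ d) (h1 : 1 < (ψ z).re) :
    ∃ t, pvgqTh x 2 < t ∧ t < pvgqTh x 3 ∧ g z = pvgE t := by
  refine ⟨_, ?_, ?_, Q.angle_of_psi hz hd⟩
  · have : π / 4 < Real.arctan (ψ z).re := by rw [← Real.arctan_one]; exact Real.arctan_strictMono h1
    simp only [pvgq_th2]; linarith
  · have := Real.arctan_lt_pi_div_two (ψ z).re
    simp only [pvgq_th3]; linarith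

/-- the open arc `(d, a)`: third case of `PvoBd` -/
theorem angle_0 (Q : PvgqCh D d ψ N g R1) (x : ℝ) {z : ℂ} (hz : z ∈ frontier D) (hd : z ≠ d) (h0 : (ψ z).re < 0) :
    ∃ t, pvgqTh x 3 < t ∧ t < pvgqTh x 4 ∧ g z = pvgE t := by
  refine ⟨π + 2 * Real.arctan (ψ z).re + 2 * π, ?_, ?_, by rw [pvgq_E_per]; exact Q.angle_of_psi hz hd⟩
  · have := Real.neg_pi_div_two_lt_arctan (ψ z).re
    simp only [pvgq_th3]; linarith
  · have : Real.arctan (ψ z).re < 0 := by rw [← Real.arctan_zero]; exact Real.arctan_strictMono h0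
    simp only [pvgq_th4]; linarith

/-- the points of `X = closure D \ {a, c, d}`: the domain and the three open arcs of the fans -/
theorem cases (Q : PvgqCh D d ψ N g R1) {a c p : ℂ} (ha : a ∈ frontier D) (had : a ≠ d) (hψa : ψ a = 0) (hc : c ∈ frontier D) (hcd : c ≠ d) (hψc : ψ c = 1)
    (hp : p ∈ closure D \ {a, c, d}) :
    p ∈ D ∨ (p ∈ frontier D ∧ p ≠ d ∧ ((0 < (ψ p).re ∧ (ψ p).re < 1) ∨ 1 < (ψ p).re ∨ (ψ p).re < 0)) := by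
  obtain ⟨hp1, hp2⟩ := hp
  simp only [mem_insert_iff, mem_singleton_iff, not_or] at hp2
  by_cases hD : p ∈ D
  · exact Or.inl hD
  · right
    have hf : p ∈ frontier D := by rw [Q.chart.isOpen.frontier_eq]; exact ⟨hp1, hD⟩
    refine ⟨hf, hp2.2.2, ?_⟩
    have hne0 : (ψ p).re ≠ 0 := fun h => hp2.1 (Q.chart.inj ⟨hp1, hp2.2.2⟩ ⟨frontier_subset_closure ha, had⟩ (by rw [Q.psi_real hf hp2.2.2, h, hψa]; simp))
    have hne1 : (ψ p).re ≠ 1 := fun h => hp2.2.1 (Q.chart.inj ⟨hp1, hp2.2.2⟩ ⟨frontier_subset_closure hc, hcd⟩ (by rw [Q.psi_real hf hp2.2.2, h, hψc]; simp))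
    rcases lt_trichotomy (ψ p).re 0 with h | h | h
    · exact Or.inr (Or.inr h)
    · exact absurd h hne0
    · rcases lt_trichotomy (ψ p).re 1 with h' | h' | h'
      · exact Or.inl ⟨h, h'⟩
      · exact absurd h' hne1
      · exact Or.inr (Or.inl h')

end PvgqCh

/-! ## 5. chart distance ⟹ Euclidean distance -/

namespace PvgqCh

variable {D : Set ℂ} {d : ℂ} {ψ : ℂ → ℂ} {N : Set ℂ} {g : ℂ → ℂ} {R1 : ℝ}

theorem frontier_K (Q : PvgqCh D d ψ N g R1) {z : ℂ} (hz : z ∈ frontier D) : z ∈ pvgK N g R1 := by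
  have : z ∈ pvgK N g 1 := by rw [← Q.clo]; exact frontier_subset_closure hz
  exact Q.K_sub this

theorem closure_K (Q : PvgqCh D d ψ N g R1) {z : ℂ} (hz : z ∈ closure D) : z ∈ pvgK N g R1 := by
  rw [Q.clo] at hz; exact Q.K_sub hz

/-- a point of `K(R1)` which is chart-close to the boundary point of angle `t` is Euclid-close to it -/
theorem close (Q : PvgqCh D d ψ N g R1) {ρ' : ℝ} (hρ' : 0 < ρ') :
    ∃ ρ > 0, ∀ v ∈ pvgK N g R1, ∀ z ∈ pvgK N g R1, ‖g v - g z‖ ≤ ρ → dist v z < ρ' := by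
  obtain ⟨L, δ, hL, -, -, h2⟩ := pvg_ch_lip Q.ch
  refine ⟨ρ' / (2 * L), by positivity, fun v hv z hz ht => ?_⟩
  rw [dist_eq_norm]
  calc ‖v - z‖ ≤ L * ‖g v - g z‖ := h2 z hz v hv
    _ ≤ L * (ρ' / (2 * L)) := by gcongr
    _ = ρ' / 2 := by field_simp
    _ < ρ' := by linarith

/-- **the three thickenings of `PvNice`**: tolerance `ρ` in the chart ⟹ tolerance `ρ'` in the plane -/
theorem thick (Q : PvgqCh D d ψ N g R1) (x : ℝ) {ρ' : ℝ} (hρ' : 0 < ρ') :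
    ∃ ρ > 0, (∀ v ∈ pvgK N g 1, v ∈ thickening ρ' D) ∧
      (∀ v ∈ pvgK N g R1, ∀ t, pvgqTh x 0 ≤ t → t ≤ pvgqTh x 1 → ‖g v - pvgE t‖ ≤ ρ → v ∈ thickening ρ' (pvArcL D d ψ x)) ∧
      (∀ v ∈ pvgK N g R1, ∀ t, pvgqTh x 2 ≤ t → t ≤ pvgqTh x 3 → ‖g v - pvgE t‖ ≤ ρ → v ∈ thickening ρ' (pvArcR D d ψ)) := by
  obtain ⟨ρ, hρ, h⟩ := Q.close hρ'
  refine ⟨ρ, hρ, fun v hv => ?_, fun v hv t h0 h1 ht => ?_, fun v hv t h0 h1 ht => ?_⟩
  · rw [← Q.clo] at hv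
    exact closure_subset_thickening hρ' D hv
  · obtain ⟨z, hz, hgz⟩ := Q.pt t
    rw [mem_thickening_iff]
    exact ⟨z, Q.arcL_of_angle (Q.sub (frontier_subset_closure hz)) hgz h0 h1, h v hv z (Q.frontier_K hz) (by rw [hgz]; exact ht)⟩
  · obtain ⟨z, hz, hgz⟩ := Q.pt t
    rw [mem_thickening_iff]
    exact ⟨z, Q.arcR_of_angle (x := x) (Q.sub (frontier_subset_closure hz)) hgz h0 h1, h v hv z (Q.frontier_K hz) (by rw [hgz]; exact ht)⟩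

/-- a gap in the chart is a gap in the plane -/
theorem far_of_gap (Q : PvgqCh D d ψ N g R1) {p : ℂ} (hp : p ∈ pvgK N g R1) {J : Set ℝ} {ρ0 : ℝ} (hρ0 : 0 < ρ0) (h : ∀ t ∈ J, ρ0 ≤ ‖g p - pvgE t‖) :
    ∃ r > 0, ∀ (v : ℂ) (t : ℝ), t ∈ J → ‖g v - pvgE t‖ ≤ ρ0 / 2 → r ≤ ‖v - p‖ := by
  obtain ⟨L, δ, hL, hδ, h1, -⟩ := pvg_ch_lip Q.ch
  refine ⟨min δ (ρ0 / (2 * L)), lt_min hδ (by positivity), fun v t ht hv => ?_⟩
  by_contra hcon
  rw [not_le, lt_min_iff] at hcon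
  have h2 := (h1 p hp v hcon.1.le).2
  have h3 : L * ‖v - p‖ < ρ0 / 2 := by
    calc L * ‖v - p‖ < L * (ρ0 / (2 * L)) := by gcongr; exact hcon.2
      _ = ρ0 / 2 := by field_simp
  have h4 : ‖g p - pvgE t‖ ≤ ‖g v - g p‖ + ‖g v - pvgE t‖ := by
    have e : g p - pvgE t = -(g v - g p) + (g v - pvgE t) := by ring
    rw [e]; exact (norm_add_le _ _).trans (by rw [norm_neg])
  linarith [h t ht]

theorem gap_D (Q : PvgqCh D d ψ N g R1) {p : ℂ} (hp : p ∈ D) : ∃ ρ0 > 0, ∀ t, ρ0 ≤ ‖g p - pvgE t‖ := by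
  have h1 := (Q.mem_D_iff.1 hp).2
  refine ⟨1 - ‖g p‖, by linarith, fun t => ?_⟩
  have := norm_sub_norm_le (pvgE t) (g p)
  rw [pvg_E_norm, norm_sub_rev] at this
  exact this

theorem gap_Icc {w : ℂ} {lo hi : ℝ} (h : ∀ t ∈ Icc lo hi, w ≠ pvgE t) : ∃ ρ0 > 0, ∀ t ∈ Icc lo hi, ρ0 ≤ ‖w - pvgE t‖ := by
  rcases (Icc lo hi).eq_empty_or_nonempty with he | hne
  · exact ⟨1, one_pos, fun t ht => by rw [he] at ht; exact absurd ht (notMem_empty t)⟩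
  · obtain ⟨t0, ht0, hmin⟩ := isCompact_Icc.exists_isMinOn hne (f := fun t => ‖w - pvgE t‖) (by have := pvgq_E_cont; fun_prop)
    exact ⟨‖w - pvgE t0‖, norm_pos_iff.2 (sub_ne_zero.2 (h t0 ht0)), fun t ht => hmin ht⟩

theorem gap_angle {s lo hi : ℝ} (h1 : ∀ t ∈ Icc lo hi, s ≠ t) (h2 : ∀ t ∈ Icc lo hi, |s - t| < 2 * π) : ∃ ρ0 > 0, ∀ t ∈ Icc lo hi, ρ0 ≤ ‖pvgE s - pvgE t‖ :=
  gap_Icc fun t ht he => h1 t ht (pvgq_E_inj he (h2 t ht))

end PvgqCh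

/-! ## 6. the three arcs of the fans -/

/-- first angle of the arc of the fan `s_l`: `a → c`, `c → d`, `d → a` -/
noncomputable def pvgqLo : Fin 3 → ℝ
  | 0 => π
  | 1 => 3 * π / 2
  | 2 => 2 * π

/-- last angle of the arc of the fan `s_l` -/
noncomputable def pvgqHi : Fin 3 → ℝ
  | 0 => 3 * π / 2
  | 1 => 2 * π
  | 2 => 3 * π

theorem pvgq_eqns_cite1 : True := by
  have := @pvgqLo.eq_1; have := @pvgqHi.eq_1
  trivial

@[simp] theorem pvgq_lo0 : pvgqLo 0 = π := rfl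
@[simp] theorem pvgq_lo1 : pvgqLo 1 = 3 * π / 2 := rfl
@[simp] theorem pvgq_lo2 : pvgqLo 2 = 2 * π := rfl
@[simp] theorem pvgq_hi0 : pvgqHi 0 = 3 * π / 2 := rfl
@[simp] theorem pvgq_hi1 : pvgqHi 1 = 2 * π := rfl
@[simp] theorem pvgq_hi2 : pvgqHi 2 = 3 * π := rfl

/-- a point of the OPEN arc `l` is at positive chart distance from the two other CLOSED arcs and from the two ends of its own arc -/
theorem pvgq_gap_fan {l : Fin 3} {s : ℝ} (h1 : pvgqLo l < s) (h2 : s < pvgqHi l) :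
    ∃ ρ0 > 0, (∀ l' : Fin 3, l' ≠ l → ∀ t, pvgqLo l' ≤ t → t ≤ pvgqHi l' → ρ0 ≤ ‖pvgE s - pvgE t‖) ∧ ρ0 ≤ ‖pvgE s - pvgE (pvgqLo l)‖ ∧ ρ0 ≤ ‖pvgE s - pvgE (pvgqHi l)‖ := by
  have hp := Real.pi_pos
  have key : ∀ l' : Fin 3, l' ≠ l → ∃ ρ0 > 0, ∀ t ∈ Icc (pvgqLo l') (pvgqHi l'), ρ0 ≤ ‖pvgE s - pvgE t‖ := by
    intro l' hl'
    refine PvgqCh.gap_angle (fun t ht => ?_) (fun t ht => ?_)
    · obtain ⟨ht1, ht2⟩ := ht
      fin_cases l <;> fin_cases l' <;> simp at hl' h1 h2 ht1 ht2 <;> intro h <;> linarith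
    · obtain ⟨ht1, ht2⟩ := ht
      rw [abs_lt]
      fin_cases l <;> fin_cases l' <;> simp at hl' h1 h2 ht1 ht2 <;> constructor <;> linarith
  have hlo : ∃ ρ0 > 0, ∀ t ∈ Icc (pvgqLo l) (pvgqLo l), ρ0 ≤ ‖pvgE s - pvgE t‖ := by
    refine PvgqCh.gap_angle (fun t ht => ?_) (fun t ht => ?_)
    · have : t = pvgqLo l := le_antisymm ht.2 ht.1
      rw [this]; exact h1.ne'
    · have : t = pvgqLo l := le_antisymm ht.2 ht.1
      rw [this, abs_lt]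
      fin_cases l <;> simp at h1 h2 ⊢ <;> constructor <;> linarith
  have hhi : ∃ ρ0 > 0, ∀ t ∈ Icc (pvgqHi l) (pvgqHi l), ρ0 ≤ ‖pvgE s - pvgE t‖ := by
    refine PvgqCh.gap_angle (fun t ht => ?_) (fun t ht => ?_)
    · have : t = pvgqHi l := le_antisymm ht.2 ht.1
      rw [this]; exact h2.ne
    · have : t = pvgqHi l := le_antisymm ht.2 ht.1
      rw [this, abs_lt]
      fin_cases l <;> simp at h1 h2 ⊢ <;> constructor <;> linarith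
  obtain ⟨r1, hr1, k1⟩ := hlo
  obtain ⟨r2, hr2, k2⟩ := hhi
  choose! f hf0 hf using key
  refine ⟨min (min r1 r2) (min (min (if (0 : Fin 3) ≠ l then f 0 else 1) (if (1 : Fin 3) ≠ l then f 1 else 1)) (if (2 : Fin 3) ≠ l then f 2 else 1)), ?_, ?_, ?_, ?_⟩
  · refine lt_min (lt_min hr1 hr2) (lt_min (lt_min ?_ ?_) ?_) <;> split_ifs with h <;> first | exact hf0 _ h | exact one_pos
  · intro l' hl' t ht1 ht2
    refine le_trans ?_ (hf l' hl' t ⟨ht1, ht2⟩)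
    refine (min_le_right _ _).trans ?_
    match l', hl' with
    | 0, hl' => exact (min_le_left _ _).trans ((min_le_left _ _).trans (if_pos hl').le)
    | 1, hl' => exact (min_le_left _ _).trans ((min_le_right _ _).trans (if_pos hl').le)
    | 2, hl' => exact (min_le_right _ _).trans (if_pos hl').le
  · exact (min_le_left _ _).trans ((min_le_left _ _).trans (k1 _ ⟨le_rfl, le_rfl⟩))
  · exact (min_le_left _ _).trans ((min_le_right _ _).trans (k2 _ ⟨le_rfl, le_rfl⟩))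

/-! ## 7. gaps: the uniform form -/

/-- `p` is at chart distance `≥ γ` from the closed arcs of the fans `l ≠ l0` -/
def PvgqGap (g : ℂ → ℂ) (p : ℂ) (l0 : Fin 3) (γ : ℝ) : Prop := ∀ l : Fin 3, l ≠ l0 → ∀ t, pvgqLo l ≤ t → t ≤ pvgqHi l → γ ≤ ‖g p - pvgE t‖

/-- `p` is at chart distance `≥ γ` from the circle -/
def PvgqGapD (g : ℂ → ℂ) (p : ℂ) (γ : ℝ) : Prop := ∀ t, γ ≤ ‖g p - pvgE t‖

theorem pvgq_eqns_cite2 : True := by
  have := @PvgqGap.eq_1; have := @PvgqGapD.eq_1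
  trivial

theorem PvgqGapD.gap {g : ℂ → ℂ} {p : ℂ} {γ : ℝ} (h : PvgqGapD g p γ) (l0 : Fin 3) : PvgqGap g p l0 γ := fun _ _ t _ _ => h t

theorem PvgqGap.near {g : ℂ → ℂ} {p p' : ℂ} {l0 : Fin 3} {γ : ℝ} (h : PvgqGap g p l0 γ) (hpp : ‖g p' - g p‖ ≤ γ / 2) : PvgqGap g p' l0 (γ / 2) := by
  intro l hl t h1 h2
  have h3 := h l hl t h1 h2
  have h4 : ‖g p - pvgE t‖ ≤ ‖g p' - g p‖ + ‖g p' - pvgE t‖ := by
    have e : g p - pvgE t = -(g p' - g p) + (g p' - pvgE t) := by ring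
    rw [e]; exact (norm_add_le _ _).trans (by rw [norm_neg])
  linarith

theorem PvgqGapD.near {g : ℂ → ℂ} {p p' : ℂ} {γ : ℝ} (h : PvgqGapD g p γ) (hpp : ‖g p' - g p‖ ≤ γ / 2) : PvgqGapD g p' (γ / 2) := by
  intro t
  have h3 := h t
  have h4 : ‖g p - pvgE t‖ ≤ ‖g p' - g p‖ + ‖g p' - pvgE t‖ := by
    have e : g p - pvgE t = -(g p' - g p) + (g p' - pvgE t) := by ring
    rw [e]; exact (norm_add_le _ _).trans (by rw [norm_neg])
  linarith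

namespace PvgqCh

variable {D : Set ℂ} {d : ℂ} {ψ : ℂ → ℂ} {N : Set ℂ} {g : ℂ → ℂ} {R1 : ℝ}

/-- Euclid-close ⟹ chart-close, uniformly on `K(R1)` -/
theorem close' (Q : PvgqCh D d ψ N g R1) {γ : ℝ} (hγ : 0 < γ) : ∃ s > 0, ∀ p ∈ pvgK N g R1, ∀ p' : ℂ, ‖p' - p‖ < s → p' ∈ N ∧ ‖g p' - g p‖ ≤ γ := by
  obtain ⟨L, δ, hL, hδ, h1, -⟩ := pvg_ch_lip Q.ch
  refine ⟨min δ (γ / L), lt_min hδ (by positivity), fun p hp p' hpp => ?_⟩
  rw [lt_min_iff] at hpp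
  obtain ⟨h2, h3⟩ := h1 p hp p' hpp.1.le
  refine ⟨h2, h3.trans ?_⟩
  calc L * ‖p' - p‖ ≤ L * (γ / L) := by gcongr; exact hpp.2.le
    _ = γ := by field_simp

/-- a gap in the chart is a gap in the plane, UNIFORMLY: `r` depends on the size of the gap only -/
theorem far (Q : PvgqCh D d ψ N g R1) {γ : ℝ} (hγ : 0 < γ) :
    ∃ r > 0, ∀ p ∈ pvgK N g R1, ∀ v w : ℂ, γ ≤ ‖g p - w‖ → ‖g v - w‖ ≤ γ / 2 → r ≤ ‖v - p‖ := by
  obtain ⟨s, hs, h⟩ := Q.close' (γ := γ / 4) (by positivity)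
  refine ⟨s, hs, fun p hp v w h1 h2 => ?_⟩
  by_contra hcon
  have h3 := (h p hp v (not_le.1 hcon)).2
  have h4 : ‖g p - w‖ ≤ ‖g v - g p‖ + ‖g v - w‖ := by
    have e : g p - w = -(g v - g p) + (g v - w) := by ring
    rw [e]; exact (norm_add_le _ _).trans (by rw [norm_neg])
  linarith

/-- the gap of a point of the domain -/
theorem gapD (Q : PvgqCh D d ψ N g R1) {p : ℂ} (hp : p ∈ D) : ∃ γ > 0, PvgqGapD g p γ := Q.gap_D hp

/-- the gap of a point of the open arc `l0` -/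
theorem gap_of_angle {p : ℂ} {l0 : Fin 3} {s : ℝ} (h : g p = pvgE s) (h1 : pvgqLo l0 < s) (h2 : s < pvgqHi l0) : ∃ γ > 0, PvgqGap g p l0 γ := by
  obtain ⟨γ, hγ, h3, -, -⟩ := pvgq_gap_fan h1 h2
  exact ⟨γ, hγ, fun l hl t ht1 ht2 => by rw [h]; exact h3 l hl t ht1 ht2⟩

/-- every boundary point has an angle in the window `[π, 3π)` -/
theorem angle (Q : PvgqCh D d ψ N g R1) {z : ℂ} (hz : z ∈ frontier D) : ∃ t, g z = pvgE t := by
  by_cases hd : z = d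
  · exact ⟨2 * π, by rw [hd, Q.gd, pvgq_E_two_pi]⟩
  · exact ⟨_, Q.angle_of_psi hz hd⟩

/-- **the points of `X = closure D \\ {a, c, d}` have a gap**: `p ∈ D`, or `p` on the open arc of ONE fan (`0`: `0 < Re ψ < 1`;  `1`: `1 < Re ψ`;  `2`: `Re ψ < 0`) -/
theorem gap_cases (Q : PvgqCh D d ψ N g R1) {a c p : ℂ} (ha : a ∈ frontier D) (had : a ≠ d) (hψa : ψ a = 0) (hc : c ∈ frontier D) (hcd : c ≠ d) (hψc : ψ c = 1)
    (hp : p ∈ closure D \ {a, c, d}) :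
    (p ∈ D ∧ ∃ γ > 0, PvgqGapD g p γ) ∨ (p ∈ frontier D ∧ p ≠ d ∧
      ((0 < (ψ p).re ∧ (ψ p).re < 1 ∧ ∃ γ > 0, PvgqGap g p 0 γ) ∨ (1 < (ψ p).re ∧ ∃ γ > 0, PvgqGap g p 1 γ) ∨ ((ψ p).re < 0 ∧ ∃ γ > 0, PvgqGap g p 2 γ))) := by
  rcases Q.cases ha had hψa hc hcd hψc hp with h | ⟨hf, hd, h | h | h⟩
  · exact Or.inl ⟨h, Q.gapD h⟩
  · obtain ⟨t, h1, h2, h3⟩ := Q.angle_01 0 hf hd h.1 h.2
    exact Or.inr ⟨hf, hd, Or.inl ⟨h.1, h.2, gap_of_angle (l0 := 0) h3 h1 h2⟩⟩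
  · obtain ⟨t, h1, h2, h3⟩ := Q.angle_1 0 hf hd h
    exact Or.inr ⟨hf, hd, Or.inr (Or.inl ⟨h, gap_of_angle (l0 := 1) h3 h1 h2⟩)⟩
  · obtain ⟨t, h1, h2, h3⟩ := Q.angle_0 0 hf hd h
    exact Or.inr ⟨hf, hd, Or.inr (Or.inr ⟨h, gap_of_angle (l0 := 2) h3 h1 h2⟩)⟩

end PvgqCh

/-! ## 8. the record of the disc (`PvgDk.Ok`, Brg/Defs) read in the plane and on the fan sphere -/

section disc

variable {D : Set ℂ} {d : ℂ} {ψ : ℂ → ℂ} {N : Set ℂ} {g : ℂ → ℂ} {R1 x ρ : ℝ} {θ : ℕ → ℝ} {Y : Set ℂ} {h : DelGood Y} {Δ : PvgDk h}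

theorem pvgq_x_VOf (Δ : PvgDk h) (k : ℕ) : (delPl h).toMap.src (Δ.c.e k) ∈ (delPl h).toMap.VOf Δ.c.Left :=
  ⟨Δ.c.e k, (pl_jordan (delp_isSph h) Δ.c).2.1 k, rfl⟩

theorem pvgq_x_K (H : Δ.Ok N g θ ρ) (k : ℕ) : Δ.x k ∈ pvgK N g 1 := H.outer _ (pvgq_x_VOf Δ k)

theorem pvgq_x_per (Δ : PvgDk h) (k : ℕ) : Δ.x (k + Δ.c.n) = Δ.x k := by
  unfold PvgDk.x; rw [Δ.c.per]

theorem pvgq_x_mod (Δ : PvgDk h) {i j : ℕ} (hij : i % Δ.c.n = j % Δ.c.n) : Δ.x i = Δ.x j := by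
  unfold PvgDk.x; rw [pl_cyc_eq_of_mod Δ.c hij]

/-- position of the `k`-th vertex of the cycle of the fan sphere: the cycle is read from the mark `a` -/
theorem pvgq_uv (H : Δ.Ok N g θ ρ) (k : ℕ) : ((((Δ.fan H).uv k).1 : ↥Y) : ℂ) = Δ.x (k + Δ.m 0) := rfl

theorem pvgq_fan_n (H : Δ.Ok N g θ ρ) : (Δ.fan H).c.n = Δ.c.n := rfl

theorem pvgq_fan_lo (H : Δ.Ok N g θ ρ) : (Δ.fan H).lo 0 + Δ.m 0 = Δ.m 0 ∧ (Δ.fan H).lo 1 + Δ.m 0 = Δ.m 2 ∧ (Δ.fan H).lo 2 + Δ.m 0 = Δ.m 3 := by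
  have h0 := H.m_lt 0 (by norm_num); have h1 := H.m_lt 1 (by norm_num); have h2 := H.m_lt 2 (by norm_num)
  refine ⟨Nat.zero_add _, ?_, ?_⟩
  · show Δ.m 2 - Δ.m 0 + Δ.m 0 = Δ.m 2; simp only [Nat.reduceAdd, zero_add] at h0 h1 h2; omega
  · show Δ.m 3 - Δ.m 0 + Δ.m 0 = Δ.m 3; simp only [Nat.reduceAdd, zero_add] at h0 h1 h2; omega

theorem pvgq_fan_hi (H : Δ.Ok N g θ ρ) : (Δ.fan H).hi 0 + Δ.m 0 = Δ.m 2 ∧ (Δ.fan H).hi 1 + Δ.m 0 = Δ.m 3 ∧ (Δ.fan H).hi 2 + Δ.m 0 = Δ.m 4 := by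
  have h0 := H.m_lt 0 (by norm_num); have h1 := H.m_lt 1 (by norm_num); have h2 := H.m_lt 2 (by norm_num)
  refine ⟨?_, ?_, ?_⟩
  · show Δ.m 2 - Δ.m 0 + Δ.m 0 = Δ.m 2; simp only [Nat.reduceAdd, zero_add] at h0 h1 h2; omega
  · show Δ.m 3 - Δ.m 0 + Δ.m 0 = Δ.m 3; simp only [Nat.reduceAdd, zero_add] at h0 h1 h2; omega
  · show Δ.c.n + Δ.m 0 = Δ.m 4; rw [H.m_per]; omega

/-- **the inclusive index arc of the fan `s_l` runs `ρ`-close to the geometric arc of the fan** -/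
theorem pvgq_fan_arc (hx0 : 0 < x) (hx1 : x < 1) (H : Δ.Ok N g (pvgqTh x) ρ) (l : Fin 3) {k : ℕ} (h1 : (Δ.fan H).lo l ≤ k) (h2 : k ≤ (Δ.fan H).hi l) :
    ∃ t, pvgqLo l ≤ t ∧ t ≤ pvgqHi l ∧ ‖g (Δ.x (k + Δ.m 0)) - pvgE t‖ ≤ ρ := by
  obtain ⟨a0, a1, a2⟩ := pvgq_fan_lo H
  obtain ⟨b0, b1, b2⟩ := pvgq_fan_hi H
  have hA0 := Real.arctan_pos.2 hx0
  have hA1 := pvgq_arctan_lt hx1
  match l, h1, h2 with
  | 0, h1, h2 =>
    rcases le_total (k + Δ.m 0) (Δ.m 1) with hk | hk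
    · obtain ⟨t, t1, t2, t3⟩ := H.arc 0 (by norm_num) (k + Δ.m 0) (by omega) hk
      simp only [pvgq_th0, zero_add, pvgq_th1] at t1 t2
      exact ⟨t, t1, by simp only [pvgq_hi0]; linarith, t3⟩
    · obtain ⟨t, t1, t2, t3⟩ := H.arc 1 (by norm_num) (k + Δ.m 0) hk (by show k + Δ.m 0 ≤ Δ.m 2; omega)
      simp only [pvgq_th1, Nat.reduceAdd, pvgq_th2] at t1 t2
      exact ⟨t, by simp only [pvgq_lo0]; linarith, t2, t3⟩
  | 1, h1, h2 =>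
    obtain ⟨t, t1, t2, t3⟩ := H.arc 2 (by norm_num) (k + Δ.m 0) (by omega) (by show k + Δ.m 0 ≤ Δ.m 3; omega)
    exact ⟨t, t1, t2, t3⟩
  | 2, h1, h2 =>
    obtain ⟨t, t1, t2, t3⟩ := H.arc 3 (by norm_num) (k + Δ.m 0) (by omega) (by show k + Δ.m 0 ≤ Δ.m 4; omega)
    exact ⟨t, t1, t2, t3⟩

/-- **(LINK)** positions: the closed disc inside `thickening ρ' D`, the index arc `[a,b]` inside `thickening ρ' pvArcL`, the index arc `[c,d]` inside `thickening ρ' pvArcR` -/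
theorem pvgq_link (Q : PvgqCh D d ψ N g R1) (x : ℝ) {ρ' : ℝ} (hρ' : 0 < ρ') :
    ∃ ρ0 > 0, ∀ ρ ≤ ρ0, ∀ (Y : Set ℂ) (h : DelGood Y) (Δ : PvgDk h), Δ.Ok N g (pvgqTh x) ρ →
      (∀ v ∈ (delPl h).toMap.VOf Δ.c.Left, (v : ℂ) ∈ thickening ρ' D) ∧
      (∀ k, Δ.m 0 ≤ k → k ≤ Δ.m 1 → Δ.x k ∈ thickening ρ' (pvArcL D d ψ x)) ∧
      (∀ k, Δ.m 2 ≤ k → k ≤ Δ.m 3 → Δ.x k ∈ thickening ρ' (pvArcR D d ψ)) := by
  obtain ⟨ρ0, hρ0, k1, k2, k3⟩ := Q.thick x hρ'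
  refine ⟨ρ0, hρ0, fun ρ hρ Y h Δ H => ⟨fun v hv => k1 _ (H.outer v hv), fun k h1 h2 => ?_, fun k h1 h2 => ?_⟩⟩
  · obtain ⟨t, t1, t2, t3⟩ := H.arc 0 (by norm_num) k h1 h2
    exact k2 _ (Q.K_sub (pvgq_x_K H k)) t t1 t2 (t3.trans hρ)
  · obtain ⟨t, t1, t2, t3⟩ := H.arc 2 (by norm_num) k h1 h2
    exact k3 _ (Q.K_sub (pvgq_x_K H k)) t t1 t2 (t3.trans hρ)

/-- **(FAR)** the vertices of the arcs of the OTHER fans stay at distance `≥ r` from `p`; `r` depends on the gap only -/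
theorem pvgq_far (Q : PvgqCh D d ψ N g R1) (hx0 : 0 < x) (hx1 : x < 1) {γ : ℝ} (hγ : 0 < γ) :
    ∃ r > 0, ∀ p ∈ pvgK N g R1, ∀ l0 : Fin 3, PvgqGap g p l0 γ → ∀ ρ ≤ γ / 2, ∀ (Y : Set ℂ) (h : DelGood Y) (Δ : PvgDk h) (H : Δ.Ok N g (pvgqTh x) ρ),
      ∀ l : Fin 3, l ≠ l0 → ∀ k, (Δ.fan H).lo l ≤ k → k ≤ (Δ.fan H).hi l → r ≤ ‖Δ.x (k + Δ.m 0) - p‖ := by
  obtain ⟨r, hr, hfar⟩ := Q.far hγ
  refine ⟨r, hr, fun p hp l0 hg ρ hρ Y h Δ H l hl k h1 h2 => ?_⟩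
  obtain ⟨t, t1, t2, t3⟩ := pvgq_fan_arc hx0 hx1 H l h1 h2
  exact hfar p hp _ (pvgE t) (hg l hl t t1 t2) (t3.trans hρ)

/-- **(FAR, bulk)** the whole cycle stays at distance `≥ r` from a point of the domain -/
theorem pvgq_far_D (Q : PvgqCh D d ψ N g R1) {γ : ℝ} (hγ : 0 < γ) :
    ∃ r > 0, ∀ p ∈ pvgK N g R1, PvgqGapD g p γ → ∀ ρ ≤ γ / 2, ∀ (θ : ℕ → ℝ) (Y : Set ℂ) (h : DelGood Y) (Δ : PvgDk h), Δ.Ok N g θ ρ →
      ∀ k, r ≤ ‖Δ.x k - p‖ := by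
  obtain ⟨r, hr, hfar⟩ := Q.far hγ
  refine ⟨r, hr, fun p hp hg ρ hρ θ Y h Δ H k => ?_⟩
  -- bring the index into the window `[m 0, m 4)`
  obtain ⟨k', hk1, hk2, hk3⟩ : ∃ k', Δ.m 0 ≤ k' ∧ k' < Δ.m 4 ∧ Δ.x k' = Δ.x k := by
    have hn := pl_cyc_pos Δ.c
    refine ⟨Δ.m 0 + (k + (Δ.c.n - Δ.m 0 % Δ.c.n)) % Δ.c.n, Nat.le_add_right _ _, ?_, pvgq_x_mod Δ ?_⟩
    · rw [H.m_per]; exact Nat.add_lt_add_left (Nat.mod_lt _ hn) _
    · have hm := Nat.mod_lt (Δ.m 0) hn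
      rw [Nat.add_mod, Nat.mod_mod, ← Nat.add_mod]
      have e : Δ.m 0 + (k + (Δ.c.n - Δ.m 0 % Δ.c.n)) = k + Δ.c.n * (Δ.m 0 / Δ.c.n + 1) := by
        have := Nat.div_add_mod (Δ.m 0) Δ.c.n
        have e2 : Δ.c.n * (Δ.m 0 / Δ.c.n + 1) = Δ.c.n * (Δ.m 0 / Δ.c.n) + Δ.c.n := by ring
        omega
      rw [e, Nat.add_mul_mod_self_left]
  have h0 := H.m_lt 0 (by norm_num); have h1 := H.m_lt 1 (by norm_num); have h2 := H.m_lt 2 (by norm_num); have h3 := H.m_lt 3 (by norm_num)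
  simp only [Nat.reduceAdd, zero_add] at h0 h1 h2 h3
  obtain ⟨j, hj, hj1, hj2⟩ : ∃ j, j < 4 ∧ Δ.m j ≤ k' ∧ k' ≤ Δ.m (j + 1) := by
    by_cases c1 : k' ≤ Δ.m 1
    · exact ⟨0, by norm_num, hk1, c1⟩
    · by_cases c2 : k' ≤ Δ.m 2
      · exact ⟨1, by norm_num, by omega, c2⟩
      · by_cases c3 : k' ≤ Δ.m 3
        · exact ⟨2, by norm_num, by omega, c3⟩
        · exact ⟨3, by norm_num, by omega, hk2.le⟩
  obtain ⟨t, -, -, t3⟩ := H.arc j hj k' hj1 hj2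
  rw [← hk3]
  exact hfar p hp _ (pvgE t) (hg t) (t3.trans hρ)

end disc

/-! ## 9. the closed arcs as angle intervals (`↔`), depth -/

namespace PvgqCh

variable {D : Set ℂ} {d : ℂ} {ψ : ℂ → ℂ} {N : Set ℂ} {g : ℂ → ℂ} {R1 : ℝ}

/-- `pvArcL = [a, b]` is the angle interval `[θ 0, θ 1]` -/
theorem arcL_iff (Q : PvgqCh D d ψ N g R1) (x : ℝ) (z : ℂ) :
    z ∈ pvArcL D d ψ x ↔ ∃ t, pvgqTh x 0 ≤ t ∧ t ≤ pvgqTh x 1 ∧ z ∈ N ∧ g z = pvgE t := by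
  constructor
  · rintro ⟨hf, hd, h0, h1⟩
    refine ⟨_, ?_, ?_, Q.sub (frontier_subset_closure hf), Q.angle_of_psi hf hd⟩
    · have : 0 ≤ Real.arctan (ψ z).re := by rw [← Real.arctan_zero]; exact Real.arctan_strictMono.monotone h0
      simp only [pvgq_th0]; linarith
    · have : Real.arctan (ψ z).re ≤ Real.arctan x := Real.arctan_strictMono.monotone h1
      simp only [pvgq_th1]; linarith
  · rintro ⟨t, h0, h1, hz, hg⟩
    exact Q.arcL_of_angle hz hg h0 h1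

/-- the set `pvoArc D d ψ j` of `Obs/Sys.lean` (helper111), UNFOLDED (this file sits below `Obs/Sys.lean`): `z ∈ pvoArc D d ψ j` is this proposition by `Iff.rfl` -/
def PvgqArc (D : Set ℂ) (d : ℂ) (ψ : ℂ → ℂ) (j : Fin 3) (z : ℂ) : Prop :=
  (z = d ∧ j ≠ 0) ∨ (z ∈ frontier D ∧ z ≠ d ∧ ((j = 0 ∧ 0 ≤ (ψ z).re ∧ (ψ z).re ≤ 1) ∨ (j = 1 ∧ 1 ≤ (ψ z).re) ∨ (j = 2 ∧ (ψ z).re ≤ 0)))

theorem _root_.Claimed.Agent.R289.pvgq_eqns_cite3 : True := by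
  have := @PvgqArc.eq_1
  trivial

/-- **the three CLOSED arcs of the fans are the angle intervals `[pvgqLo j, pvgqHi j]`** -/
theorem arc_iff (Q : PvgqCh D d ψ N g R1) (j : Fin 3) (z : ℂ) :
    PvgqArc D d ψ j z ↔ ∃ t, pvgqLo j ≤ t ∧ t ≤ pvgqHi j ∧ z ∈ N ∧ g z = pvgE t := by
  have hp := Real.pi_pos
  constructor
  · rintro (⟨rfl, hj⟩ | ⟨hf, hd, h⟩)
    · refine ⟨2 * π, ?_, ?_, Q.d_mem, by rw [Q.gd, pvgq_E_two_pi]⟩
      · match j, hj with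
        | 1, _ => simp only [pvgq_lo1]; linarith
        | 2, _ => simp only [pvgq_lo2]; exact le_rfl
      · match j, hj with
        | 1, _ => simp only [pvgq_hi1]; exact le_rfl
        | 2, _ => simp only [pvgq_hi2]; linarith
    · have hN := Q.sub (frontier_subset_closure hf)
      have hg := Q.angle_of_psi hf hd
      rcases h with ⟨rfl, h0, h1⟩ | ⟨rfl, h1⟩ | ⟨rfl, h0⟩
      · refine ⟨_, ?_, ?_, hN, hg⟩
        · have : 0 ≤ Real.arctan (ψ z).re := by rw [← Real.arctan_zero]; exact Real.arctan_strictMono.monotone h0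
          simp only [pvgq_lo0]; linarith
        · have : Real.arctan (ψ z).re ≤ π / 4 := by rw [← Real.arctan_one]; exact Real.arctan_strictMono.monotone h1
          simp only [pvgq_hi0]; linarith
      · refine ⟨_, ?_, ?_, hN, hg⟩
        · have : π / 4 ≤ Real.arctan (ψ z).re := by rw [← Real.arctan_one]; exact Real.arctan_strictMono.monotone h1
          simp only [pvgq_lo1]; linarith
        · have := Real.arctan_lt_pi_div_two (ψ z).re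
          simp only [pvgq_hi1]; linarith
      · refine ⟨π + 2 * Real.arctan (ψ z).re + 2 * π, ?_, ?_, hN, by rw [pvgq_E_per]; exact hg⟩
        · have := Real.neg_pi_div_two_lt_arctan (ψ z).re
          simp only [pvgq_lo2]; linarith
        · have : Real.arctan (ψ z).re ≤ 0 := by rw [← Real.arctan_zero]; exact Real.arctan_strictMono.monotone h0
          simp only [pvgq_hi2]; linarith
  · rintro ⟨t, h0, h1, hz, hg⟩
    match j, h0, h1 with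
    | 0, h0, h1 =>
      simp only [pvgq_lo0, pvgq_hi0] at h0 h1
      have e : t = π + 2 * ((t - π) / 2) := by ring
      rw [e] at hg
      obtain ⟨hf, hd, hψ⟩ := Q.psi_of_angle hz hg (by linarith) (by linarith)
      refine Or.inr ⟨hf, hd, Or.inl ⟨rfl, ?_, ?_⟩⟩
      · rw [hψ, Complex.ofReal_re]
        exact Real.tan_nonneg_of_nonneg_of_le_pi_div_two (by linarith) (by linarith)
      · rw [hψ, Complex.ofReal_re, ← Real.tan_pi_div_four]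
        exact Real.strictMonoOn_tan.monotoneOn ⟨by linarith, by linarith⟩ ⟨by linarith, by linarith⟩ (by linarith)
    | 1, h0, h1 =>
      simp only [pvgq_lo1, pvgq_hi1] at h0 h1
      rcases h1.eq_or_lt with rfl | h1
      · exact Or.inl ⟨Q.eq_d hz (by rw [hg, pvgq_E_two_pi]), by decide⟩
      · have e : t = π + 2 * ((t - π) / 2) := by ring
        rw [e] at hg
        obtain ⟨hf, hd, hψ⟩ := Q.psi_of_angle hz hg (by linarith) (by linarith)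
        refine Or.inr ⟨hf, hd, Or.inr (Or.inl ⟨rfl, ?_⟩)⟩
        rw [hψ, Complex.ofReal_re, ← Real.tan_pi_div_four]
        exact Real.strictMonoOn_tan.monotoneOn ⟨by linarith, by linarith⟩ ⟨by linarith, by linarith⟩ (by linarith)
    | 2, h0, h1 =>
      simp only [pvgq_lo2, pvgq_hi2] at h0 h1
      rcases h0.eq_or_lt with rfl | h0
      · exact Or.inl ⟨Q.eq_d hz (by rw [hg, pvgq_E_two_pi]), by decide⟩
      · have e : t = π + 2 * ((t - 3 * π) / 2) + 2 * π := by ring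
        rw [e, pvgq_E_per] at hg
        obtain ⟨hf, hd, hψ⟩ := Q.psi_of_angle hz hg (by linarith) (by linarith)
        refine Or.inr ⟨hf, hd, Or.inr (Or.inr ⟨rfl, ?_⟩)⟩
        rw [hψ, Complex.ofReal_re, ← Real.tan_zero]
        exact Real.strictMonoOn_tan.monotoneOn ⟨by linarith, by linarith⟩ ⟨by linarith, by linarith⟩ (by linarith)

/-- chart-close to the angle interval of the fan `j` ⟹ inside the thickening of the closed arc `j` -/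
theorem thick_arc (Q : PvgqCh D d ψ N g R1) {ρ' : ℝ} (hρ' : 0 < ρ') :
    ∃ ρ > 0, ∀ j : Fin 3, ∀ v ∈ pvgK N g R1, ∀ t, pvgqLo j ≤ t → t ≤ pvgqHi j → ‖g v - pvgE t‖ ≤ ρ → v ∈ thickening ρ' {z | PvgqArc D d ψ j z} := by
  obtain ⟨ρ, hρ, h⟩ := Q.close hρ'
  refine ⟨ρ, hρ, fun j v hv t h0 h1 ht => ?_⟩
  obtain ⟨z, hz, hgz⟩ := Q.pt t
  rw [mem_thickening_iff]
  exact ⟨z, (Q.arc_iff j z).2 ⟨t, h0, h1, Q.sub (frontier_subset_closure hz), hgz⟩, h v hv z (Q.frontier_K hz) (by rw [hgz]; exact ht)⟩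

/-- **DEPTH**: Euclidean depth `≥ τ` in `D` ⟹ chart depth `≥ ρ`:   the set of agreement of the field `ok` of `PvoFam.Good` lies in `K(1 - ρ)` -/
theorem depth (Q : PvgqCh D d ψ N g R1) {τ : ℝ} (hτ : 0 < τ) : ∃ ρ0 > 0, ∀ ρ ≤ ρ0, {z | τ ≤ infDist z Dᶜ} ⊆ pvgK N g (1 - ρ) := by
  obtain ⟨ρ1, hρ1, h⟩ := Q.close hτ
  refine ⟨min ρ1 (1 / 2), lt_min hρ1 (by norm_num), fun ρ hρ z hz => ?_⟩
  have hρa : ρ ≤ ρ1 := hρ.trans (min_le_left _ _)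
  have hρb : ρ ≤ 1 / 2 := hρ.trans (min_le_right _ _)
  have hzD : z ∈ D := by
    by_contra hcon
    have : infDist z Dᶜ = 0 := infDist_zero_of_mem hcon
    have hz' : τ ≤ infDist z Dᶜ := hz
    linarith
  obtain ⟨hzN, hz1⟩ := Q.mem_D_iff.1 hzD
  refine ⟨hzN, ?_⟩
  by_contra hcon
  rw [not_le] at hcon
  have hpos : 0 < ‖g z‖ := by linarith
  -- the radial projection on the circle
  obtain ⟨z', hz'N, hgz'⟩ := Q.ch.surj (show g z / (‖g z‖ : ℂ) ∈ closedBall (0 : ℂ) R1 by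
    rw [mem_closedBall_zero_iff, norm_div, Complex.norm_real, norm_norm, div_self hpos.ne']; exact Q.ch.one_lt.le)
  have hn : ‖g z'‖ = 1 := by rw [hgz', norm_div, Complex.norm_real, norm_norm, div_self hpos.ne']
  have hf : z' ∈ frontier D := by rw [Q.frontier_eq]; exact ⟨hz'N, hn⟩
  have hd : ‖g z - g z'‖ ≤ ρ1 := by
    have e : g z - g z' = ((‖g z‖ - 1 : ℝ) : ℂ) * (g z / (‖g z‖ : ℂ)) := by
      rw [hgz']
      have : (‖g z‖ : ℂ) ≠ 0 := by exact_mod_cast hpos.ne'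
      push_cast; field_simp
    rw [e, norm_mul, ← hgz', hn, mul_one, Complex.norm_real, Real.norm_eq_abs, abs_of_nonpos (by linarith)]
    linarith
  have h1 := h z (Q.closure_K (subset_closure hzD)) z' (Q.frontier_K hf) hd
  have h2 : z' ∈ Dᶜ := fun h3 => by
    have := (Q.mem_D_iff.1 h3).2
    linarith
  have h3 : infDist z Dᶜ ≤ dist z z' := infDist_le_dist_of_mem h2
  have hz' : τ ≤ infDist z Dᶜ := hz
  linarith

end PvgqCh

end Claimed.Agent.R289
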